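import Mathlib
import Vale.Agent.P257.S.Defs

set_option linter.all false

section

section

/-!
Compact objects and mapping telescopes of multiplication maps in a triangulated category
with countable coproducts.
-/

namespace Vale.Agent.P257

open CategoryTheory CategoryTheory.Limits CategoryTheory.Pretriangulated

universe w u

section Exact

variable {C : Type u} [Category.{w} C] [Preadditive C] [HasZeroObject C] [HasShift C ℤ]
  [∀ n : ℤ, (shiftFunctor C n).Additive] [Pretriangulated C]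
  {X Y Z : C} {f : X ⟶ Y} {g : Y ⟶ Z} {h : Z ⟶ X⟦(1 : ℤ)⟧}

lemma tri_comp₁₂ (H : Triangle.mk f g h ∈ distTriang C) : f ≫ g = 0 :=
  comp_distTriang_mor_zero₁₂ _ H

lemma tri_comp₃₁ (H : Triangle.mk f g h ∈ distTriang C) : h ≫ f⟦(1 : ℤ)⟧' = 0 :=
  comp_distTriang_mor_zero₃₁ _ H

lemma tri_from₂ (H : Triangle.mk f g h ∈ distTriang C) {W : C} (a : Y ⟶ W) (ha : f ≫ a = 0) :
    ∃ b : Z ⟶ W, a = g ≫ b :=
  Triangle.yoneda_exact₂ _ H a ha

lemma tri_from₃ (H : Triangle.mk f g h ∈ distTriang C) {W : C} (a : Z ⟶ W) (ha : g ≫ a = 0) :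
    ∃ b : X⟦(1 : ℤ)⟧ ⟶ W, a = h ≫ b :=
  Triangle.yoneda_exact₃ _ H a ha

lemma tri_to₂ (H : Triangle.mk f g h ∈ distTriang C) {W : C} (a : W ⟶ Y) (ha : a ≫ g = 0) :
    ∃ b : W ⟶ X, a = b ≫ f :=
  Triangle.coyoneda_exact₂ _ H a ha

lemma tri_to₃ (H : Triangle.mk f g h ∈ distTriang C) {W : C} (a : W ⟶ Z) (ha : a ≫ h = 0) :
    ∃ b : W ⟶ Y, a = b ≫ g :=
  Triangle.coyoneda_exact₃ _ H a ha

/-- A commutative square extends to a map of distinguished triangles. -/
lemma tri_map {X' Y' Z' : C} {f' : X' ⟶ Y'} {g' : Y' ⟶ Z'} {h' : Z' ⟶ X'⟦(1 : ℤ)⟧}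
    (H : Triangle.mk f g h ∈ distTriang C) (H' : Triangle.mk f' g' h' ∈ distTriang C)
    (a : X ⟶ X') (b : Y ⟶ Y') (comm : f ≫ b = a ≫ f') :
    ∃ c : Z ⟶ Z', g ≫ c = b ≫ g' ∧ h ≫ a⟦(1 : ℤ)⟧' = c ≫ h' :=
  complete_distinguished_triangle_morphism _ _ H H' a b comm

end Exact

section Compact

variable {C : Type u} [Category.{w} C] [Preadditive C] [HasCountableCoproducts C]

/-- `W` is compact: every map from `W` to a countable coproduct is a finite sum of maps
that factor through the summands. -/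
def IsCompactObj (W : C) : Prop :=
  ∀ (Y : ℕ → C) (f : W ⟶ ∐ Y), ∃ (s : Finset ℕ) (g : ∀ i, W ⟶ Y i),
    f = ∑ i ∈ s, g i ≫ Sigma.ι Y i

/-- The projection of a coproduct to one of its summands. -/
noncomputable def sigmaProj (Y : ℕ → C) (k : ℕ) : ∐ Y ⟶ Y k :=
  Sigma.desc fun i => if h : i = k then eqToHom (congrArg Y h) else 0

lemma ι_sigmaProj_self (Y : ℕ → C) (k : ℕ) : Sigma.ι Y k ≫ sigmaProj Y k = 𝟙 _ := by
  simp [sigmaProj]

lemma ι_sigmaProj_ne (Y : ℕ → C) {i k : ℕ} (h : i ≠ k) : Sigma.ι Y i ≫ sigmaProj Y k = 0 := by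
  simp [sigmaProj, h]

/-- A map from a compact object to a coproduct all of whose components vanish is zero. -/
lemma IsCompactObj.eq_zero {W : C} (hW : IsCompactObj W) (Y : ℕ → C) (f : W ⟶ ∐ Y)
    (h : ∀ k, f ≫ sigmaProj Y k = 0) : f = 0 := by
  obtain ⟨s, g, rfl⟩ := hW Y f
  apply Finset.sum_eq_zero
  intro k hk
  have h1 := h k
  rw [Preadditive.sum_comp, Finset.sum_eq_single k] at h1
  · rw [Category.assoc, ι_sigmaProj_self, Category.comp_id] at h1
    rw [h1, zero_comp]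
  · intro i _ hik
    rw [Category.assoc, ι_sigmaProj_ne Y hik, comp_zero]
  · intro h2; exact absurd hk h2

/-- The components of a map from a compact object vanish for large indices. -/
lemma IsCompactObj.eventually_zero {W : C} (hW : IsCompactObj W) (Y : ℕ → C) (f : W ⟶ ∐ Y) :
    ∃ N, ∀ k, N ≤ k → f ≫ sigmaProj Y k = 0 := by
  obtain ⟨s, g, rfl⟩ := hW Y f
  refine ⟨s.sup id + 1, fun k hk => ?_⟩
  rw [Preadditive.sum_comp]
  apply Finset.sum_eq_zero
  intro i hi
  have : i ≠ k := by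
    have : i ≤ s.sup id := Finset.le_sup (f := id) hi
    omega
  rw [Category.assoc, ι_sigmaProj_ne Y this, comp_zero]

variable [HasShift C ℤ] [∀ n : ℤ, (shiftFunctor C n).Additive]

lemma IsCompactObj.shift {W : C} (hW : IsCompactObj W) (a : ℤ) : IsCompactObj (W⟦a⟧) := by
  intro Y f
  obtain ⟨e⟩ : Nonempty ((W⟦a⟧)⟦-a⟧ ≅ W) := ⟨shiftShiftNeg W a⟩
  obtain ⟨s, g, h⟩ := hW (fun i => (Y i)⟦-a⟧)
    (e.inv ≫ f⟦-a⟧' ≫ (PreservesCoproduct.iso (shiftFunctor C (-a)) Y).hom)
  refine ⟨s, fun i => (shiftFunctor C (-a)).preimage (e.hom ≫ g i), ?_⟩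
  apply (shiftFunctor C (-a)).map_injective
  rw [Functor.map_sum]
  have h2 : f⟦-a⟧' = e.hom ≫ (e.inv ≫ f⟦-a⟧' ≫
      (PreservesCoproduct.iso (shiftFunctor C (-a)) Y).hom) ≫
      (PreservesCoproduct.iso (shiftFunctor C (-a)) Y).inv := by
    rw [Category.assoc, Category.assoc, Iso.hom_inv_id, Category.comp_id, Iso.hom_inv_id_assoc]
  rw [h2, h, Preadditive.sum_comp, Preadditive.comp_sum]
  apply Finset.sum_congr rfl
  intro i _
  rw [Functor.map_comp, Functor.map_preimage, Category.assoc, Category.assoc,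
    PreservesCoproduct.inv_hom, ι_comp_sigmaComparison]

end Compact

section Tel

variable {C : Type u} [Category.{w} C] [Preadditive C] [HasCountableCoproducts C]

/-- The countable coproduct of copies of `X`. -/
noncomputable abbrev copies (X : C) : C := ∐ fun _ : ℕ => X

/-- The shift map of the telescope of `X → X → X → ...`, the maps being multiplication
by the integers `c 0, c 1, ...`. -/
noncomputable def telShift (c : ℕ → ℕ) (X : C) : copies X ⟶ copies X :=
  Sigma.desc fun k => c k • Sigma.ι (fun _ : ℕ => X) (k + 1)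

/-- The map `1 - shift` of the telescope. -/
noncomputable def telMap (c : ℕ → ℕ) (X : C) : copies X ⟶ copies X := 𝟙 _ - telShift c X

lemma ι_telMap (c : ℕ → ℕ) (X : C) (k : ℕ) :
    Sigma.ι (fun _ : ℕ => X) k ≫ telMap c X =
      Sigma.ι (fun _ : ℕ => X) k - c k • Sigma.ι (fun _ : ℕ => X) (k + 1) := by
  simp [telMap, telShift, Preadditive.comp_sub]

lemma telMap_proj_zero (c : ℕ → ℕ) (X : C) :
    telMap c X ≫ sigmaProj (fun _ : ℕ => X) 0 = sigmaProj (fun _ : ℕ => X) 0 := by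
  apply Sigma.hom_ext
  intro k
  rw [← Category.assoc, ι_telMap, Preadditive.sub_comp, Preadditive.nsmul_comp,
    ι_sigmaProj_ne _ (Nat.succ_ne_zero k), smul_zero, sub_zero]

lemma telMap_proj_succ (c : ℕ → ℕ) (X : C) (n : ℕ) :
    telMap c X ≫ sigmaProj (fun _ : ℕ => X) (n + 1) =
      sigmaProj (fun _ : ℕ => X) (n + 1) - c n • sigmaProj (fun _ : ℕ => X) n := by
  apply Sigma.hom_ext
  intro k
  rw [← Category.assoc, ι_telMap, Preadditive.sub_comp, Preadditive.nsmul_comp,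
    Preadditive.comp_sub, Preadditive.comp_nsmul]
  by_cases h : k = n
  · subst h
    rw [ι_sigmaProj_self, ι_sigmaProj_self]
  · have h' : k + 1 ≠ n + 1 := by omega
    rw [ι_sigmaProj_ne _ h', ι_sigmaProj_ne _ h, smul_zero, smul_zero]

/-- `1 - shift` is injective on maps from a compact object. -/
lemma IsCompactObj.telMap_injective {W : C} (hW : IsCompactObj W) (c : ℕ → ℕ) (X : C)
    (f : W ⟶ copies X) (h : f ≫ telMap c X = 0) : f = 0 := by
  apply hW.eq_zero
  intro k
  induction k with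
  | zero => rw [← telMap_proj_zero c, ← Category.assoc, h, zero_comp]
  | succ k ih =>
    have h1 : sigmaProj (fun _ : ℕ => X) (k + 1) =
      telMap c X ≫ sigmaProj (fun _ : ℕ => X) (k + 1) + c k • sigmaProj (fun _ : ℕ => X) k := by
      rw [telMap_proj_succ]; abel
    rw [h1, Preadditive.comp_add, ← Category.assoc, h, zero_comp, Preadditive.comp_nsmul, ih,
      smul_zero, add_zero]

end Tel

section TelTriangle

variable {C : Type u} [Category.{w} C] [Preadditive C] [HasCountableCoproducts C]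
  [HasZeroObject C] [HasShift C ℤ] [∀ n : ℤ, (shiftFunctor C n).Additive] [Pretriangulated C]

/-- `q : copies X ⟶ T` exhibits `T` as the telescope of `X` along the multiplications by
`c 0, c 1, ...`. -/
def IsTel (c : ℕ → ℕ) (X : C) {T : C} (q : copies X ⟶ T) : Prop :=
  ∃ δ : T ⟶ (copies X)⟦(1 : ℤ)⟧, Triangle.mk (telMap c X) q δ ∈ distTriang C

lemma exists_isTel (c : ℕ → ℕ) (X : C) : ∃ (T : C) (q : copies X ⟶ T), IsTel c X q := by
  obtain ⟨T, q, δ, h⟩ := distinguished_cocone_triangle (telMap c X)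
  exact ⟨T, q, δ, h⟩

variable {c : ℕ → ℕ} {X T : C} {q : copies X ⟶ T}

lemma IsTel.telMap_comp (h : IsTel c X q) : telMap c X ≫ q = 0 := by
  obtain ⟨δ, h⟩ := h
  exact tri_comp₁₂ h

lemma IsTel.ι_comp (h : IsTel c X q) (k : ℕ) :
    Sigma.ι (fun _ : ℕ => X) k ≫ q = c k • (Sigma.ι (fun _ : ℕ => X) (k + 1) ≫ q) := by
  have h1 : Sigma.ι (fun _ : ℕ => X) k ≫ telMap c X ≫ q = 0 := by rw [h.telMap_comp, comp_zero]
  rw [← Category.assoc, ι_telMap, Preadditive.sub_comp, Preadditive.nsmul_comp, sub_eq_zero] at h1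
  exact h1

lemma IsTel.ι_comp_prod (h : IsTel c X q) (N M : ℕ) (hNM : N ≤ M) :
    Sigma.ι (fun _ : ℕ => X) N ≫ q =
      (∏ k ∈ Finset.Ico N M, c k) • (Sigma.ι (fun _ : ℕ => X) M ≫ q) := by
  induction M, hNM using Nat.le_induction with
  | base => simp
  | succ M hM ih => rw [ih, Finset.prod_Ico_succ_top hM, mul_smul, ← h.ι_comp M]

/-- Every map from a compact object to the telescope lifts to the coproduct. -/
lemma IsTel.lift (h : IsTel c X q) {W : C} (hW : IsCompactObj W) (f : W ⟶ T) :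
    ∃ g : W ⟶ copies X, f = g ≫ q := by
  obtain ⟨δ, h⟩ := h
  have h0 : f ≫ δ = 0 := by
    have h1 : (f ≫ δ) ≫ (telMap c X)⟦(1 : ℤ)⟧' = 0 := by
      rw [Category.assoc, tri_comp₃₁ h, comp_zero]
    obtain ⟨e, he⟩ : ∃ e : ∀ X : C, (X⟦(1 : ℤ)⟧)⟦(-1 : ℤ)⟧ ≅ X,
        ∀ (X Y : C) (f : X ⟶ Y), (f⟦(1 : ℤ)⟧')⟦(-1 : ℤ)⟧' ≫ (e Y).hom = (e X).hom ≫ f :=
      ⟨fun X => (shiftFunctorCompIsoId C (1 : ℤ) (-1) (by simp)).app X, fun X Y f =>
        (shiftFunctorCompIsoId C (1 : ℤ) (-1) (by simp)).hom.naturality f⟩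
    have h2 : (shiftFunctor C (-1 : ℤ)).map (f ≫ δ) ≫ (e (copies X)).hom = 0 := by
      apply (hW.shift (-1)).telMap_injective c X
      rw [Category.assoc, ← he, ← Category.assoc, ← Functor.map_comp, h1, Functor.map_zero,
        zero_comp]
    have h4 : (shiftFunctor C (-1 : ℤ)).map (f ≫ δ) = 0 := by
      rw [← cancel_mono (e (copies X)).hom, h2, zero_comp]
    exact (Functor.map_eq_zero_iff (shiftFunctor C (-1 : ℤ))).1 h4
  exact tri_to₃ h f h0

/-- Every map from a compact object to the telescope comes from a finite stage. -/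
lemma IsTel.exists_stage (h : IsTel c X q) {W : C} (hW : IsCompactObj W) (f : W ⟶ T) :
    ∃ (N : ℕ) (g : W ⟶ X), f = g ≫ Sigma.ι (fun _ : ℕ => X) N ≫ q := by
  obtain ⟨g, hg⟩ := h.lift hW f
  obtain ⟨s, g', hg'⟩ := hW _ g
  have hb : ∀ i ∈ s, i ≤ s.sup id := fun i hi => Finset.le_sup (f := id) hi
  refine ⟨s.sup id, ∑ i ∈ s, (∏ k ∈ Finset.Ico i (s.sup id), c k) • g' i, ?_⟩
  rw [hg, hg', Preadditive.sum_comp, Preadditive.sum_comp]
  apply Finset.sum_congr rfl
  intro i hi
  rw [Category.assoc, h.ι_comp_prod i _ (hb i hi), Preadditive.comp_nsmul, Preadditive.nsmul_comp]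

/-- A map from a compact object to a stage of the telescope which becomes zero in the
telescope becomes zero at a finite stage. -/
lemma IsTel.stage_eq_zero (h : IsTel c X q) {W : C} (hW : IsCompactObj W) (g : W ⟶ X) (N : ℕ)
    (hg : g ≫ Sigma.ι (fun _ : ℕ => X) N ≫ q = 0) :
    ∃ M, N ≤ M ∧ (∏ k ∈ Finset.Ico N M, c k) • g = 0 := by
  obtain ⟨δ, h⟩ := h
  obtain ⟨f, hf⟩ := tri_to₂ h (g ≫ Sigma.ι (fun _ : ℕ => X) N)
    (by rw [Category.assoc]; exact hg)
  obtain ⟨N', hN'⟩ := hW.eventually_zero _ f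
  have hlow : ∀ k, k < N → f ≫ sigmaProj (fun _ : ℕ => X) k = 0 := by
    intro k
    induction k with
    | zero =>
      intro hk
      rw [← telMap_proj_zero c, ← Category.assoc, ← hf, Category.assoc, ι_sigmaProj_ne _ (by omega),
        comp_zero]
    | succ k ih =>
      intro hk
      have h1 : sigmaProj (fun _ : ℕ => X) (k + 1) =
        telMap c X ≫ sigmaProj (fun _ : ℕ => X) (k + 1) + c k • sigmaProj (fun _ : ℕ => X) k := by
        rw [telMap_proj_succ]; abel
      rw [h1, Preadditive.comp_add, ← Category.assoc, ← hf, Preadditive.comp_nsmul, ih (by omega),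
        smul_zero, add_zero, Category.assoc, ι_sigmaProj_ne _ (by omega), comp_zero]
  have hhigh : ∀ k, N ≤ k →
      f ≫ sigmaProj (fun _ : ℕ => X) k = (∏ i ∈ Finset.Ico N k, c i) • g := by
    intro k hk
    induction k, hk using Nat.le_induction with
    | base =>
      simp only [Finset.Ico_self, Finset.prod_empty, one_smul]
      rcases Nat.eq_zero_or_pos N with rfl | hN
      · rw [← telMap_proj_zero c, ← Category.assoc, ← hf, Category.assoc, ι_sigmaProj_self,
          Category.comp_id]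
      · obtain ⟨n, rfl⟩ : ∃ n, N = n + 1 := ⟨N - 1, by omega⟩
        have h1 : sigmaProj (fun _ : ℕ => X) (n + 1) =
          telMap c X ≫ sigmaProj (fun _ : ℕ => X) (n + 1) + c n • sigmaProj (fun _ : ℕ => X) n := by
          rw [telMap_proj_succ]; abel
        rw [h1, Preadditive.comp_add, ← Category.assoc, ← hf, Preadditive.comp_nsmul,
          hlow n (by omega), smul_zero, add_zero, Category.assoc, ι_sigmaProj_self,
          Category.comp_id]
    | succ k hk ih =>
      have h1 : sigmaProj (fun _ : ℕ => X) (k + 1) =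
        telMap c X ≫ sigmaProj (fun _ : ℕ => X) (k + 1) + c k • sigmaProj (fun _ : ℕ => X) k := by
        rw [telMap_proj_succ]; abel
      rw [h1, Preadditive.comp_add, ← Category.assoc, ← hf, Preadditive.comp_nsmul, ih,
        Category.assoc, ι_sigmaProj_ne _ (by omega), comp_zero, zero_add,
        Finset.prod_Ico_succ_top hk, smul_smul, mul_comm]
  refine ⟨max N N', le_max_left _ _, ?_⟩
  rw [← hhigh _ (le_max_left _ _), hN' _ (le_max_right _ _)]

end TelTriangle

end Vale.Agent.P257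
end
end

section

section

/-!
`p`-local objects, `p`-localizations, finite CW objects.
-/

namespace Vale.Agent.P257

open CategoryTheory Limits Pretriangulated

universe v' u

section

variable {T : Type u} [Category.{v'} T] [Preadditive T]

/-- `X` is `p`-local: every natural number prime to `p` acts invertibly on it. -/
def IsPLocalObj (p : ℕ) (X : T) : Prop := ∀ m : ℕ, m.Coprime p → IsIso (m • 𝟙 X)

/-- `ι : X ⟶ Y` is the `p`-localization of `X`: the target is `p`-local, and every map from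
`X` to a `p`-local object factors uniquely through `ι`. -/
def IsPLocalization (p : ℕ) {X Y : T} (ι : X ⟶ Y) : Prop :=
  IsPLocalObj p Y ∧ ∀ Z : T, IsPLocalObj p Z → Function.Bijective fun g : Y ⟶ Z => ι ≫ g

variable [HasZeroObject T] [HasShift T ℤ] [∀ n : ℤ, (shiftFunctor T n).Additive]
  [Pretriangulated T]

/-- The finite CW objects with respect to the sphere `S`: obtained from a zero object by
attaching finitely many cells, the attaching maps being maps `S⟦n⟧ ⟶ X`. -/
inductive IsFiniteCW (S : T) : T → Prop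
  | zero {X : T} (h : IsZero X) : IsFiniteCW S X
  | cell {n : ℤ} {X Y : T} (f : S⟦n⟧ ⟶ X) (g : X ⟶ Y) (h : Y ⟶ (S⟦n⟧)⟦(1 : ℤ)⟧)
      (hD : Triangle.mk f g h ∈ distTriang T) (hX : IsFiniteCW S X) : IsFiniteCW S Y

/-- The finite `p`-local objects: the retracts of `p`-localizations of finite CW objects. -/
def IsFinitePLocal (p : ℕ) (S X : T) : Prop :=
  ∃ (A B : T) (ι : A ⟶ B) (i : X ⟶ B) (r : B ⟶ X),
    IsFiniteCW S A ∧ IsPLocalization p ι ∧ i ≫ r = 𝟙 X

end

end Vale.Agent.P257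
end
end

section

section

/-!
`p`-local objects and `p`-localizations in a triangulated category with countable
coproducts and a compact weak generator.
-/

namespace Vale.Agent.P257

open CategoryTheory CategoryTheory.Limits CategoryTheory.Pretriangulated

universe w u

section Defs

variable {C : Type u} [Category.{w} C] [Preadditive C]

variable {p : ℕ} {X Y Z : C}

lemma nsmul_id_comp (m : ℕ) (f : X ⟶ Y) : (m • 𝟙 X) ≫ f = m • f := by
  rw [Preadditive.nsmul_comp, Category.id_comp]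

lemma comp_nsmul_id (m : ℕ) (f : X ⟶ Y) : f ≫ (m • 𝟙 Y) = m • f := by
  rw [Preadditive.comp_nsmul, Category.comp_id]

/-- A natural number prime to `p` acts injectively on maps to a `p`-local object. -/
lemma IsPLocalObj.smul_inj_to (hY : IsPLocalObj p Y) {m : ℕ} (hm : Nat.Coprime m p)
    {f g : X ⟶ Y} (h : m • f = m • g) : f = g := by
  have := hY m hm
  rw [← cancel_mono (m • 𝟙 Y), comp_nsmul_id, comp_nsmul_id]
  exact h

/-- A natural number prime to `p` acts surjectively on maps to a `p`-local object. -/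
lemma IsPLocalObj.smul_surj_to (hY : IsPLocalObj p Y) {m : ℕ} (hm : Nat.Coprime m p)
    (f : X ⟶ Y) : ∃ g : X ⟶ Y, m • g = f := by
  have := hY m hm
  refine ⟨f ≫ inv (m • 𝟙 Y), ?_⟩
  rw [← comp_nsmul_id, Category.assoc, IsIso.inv_hom_id, Category.comp_id]

lemma IsPLocalObj.of_retract (hY : IsPLocalObj p Y) (i : X ⟶ Y) (r : Y ⟶ X) (h : i ≫ r = 𝟙 X) :
    IsPLocalObj p X := by
  intro m hm
  have := hY m hm
  obtain ⟨g, hg1, hg2⟩ := hY m hm
  rw [nsmul_id_comp] at hg1
  rw [comp_nsmul_id] at hg2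
  refine ⟨i ≫ g ≫ r, ?_, ?_⟩
  · rw [nsmul_id_comp, ← Preadditive.comp_nsmul, ← Preadditive.nsmul_comp, hg1, Category.id_comp, h]
  · rw [comp_nsmul_id, ← Preadditive.comp_nsmul, ← Preadditive.nsmul_comp, hg1, Category.id_comp, h]

lemma IsPLocalObj.of_iso (hY : IsPLocalObj p Y) (e : X ≅ Y) : IsPLocalObj p X :=
  hY.of_retract e.hom e.inv e.hom_inv_id

lemma IsPLocalization.comp_iso {ι : X ⟶ Y} (h : IsPLocalization p ι) (e : Y ≅ Z) :
    IsPLocalization p (ι ≫ e.hom) := by
  refine ⟨h.1.of_iso e.symm, fun W hW => ?_⟩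
  obtain ⟨h1, h2⟩ := h.2 W hW
  constructor
  · intro a b hab
    have : e.hom ≫ a = e.hom ≫ b := h1 (by simpa using hab)
    exact (cancel_epi e.hom).1 this
  · intro f
    obtain ⟨g, hg⟩ := h2 f
    exact ⟨e.inv ≫ g, by simpa using hg⟩

/-- Two `p`-localizations of the same object are isomorphic under the object. -/
lemma IsPLocalization.unique {ι : X ⟶ Y} {ι' : X ⟶ Z} (h : IsPLocalization p ι)
    (h' : IsPLocalization p ι') : ∃ e : Y ≅ Z, ι ≫ e.hom = ι' := by
  obtain ⟨a, ha⟩ := (h.2 Z h'.1).2 ι'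
  obtain ⟨b, hb⟩ := (h'.2 Y h.1).2 ι
  replace ha : ι ≫ a = ι' := ha
  replace hb : ι' ≫ b = ι := hb
  refine ⟨⟨a, b, (h.2 Y h.1).1 ?_, (h'.2 Z h'.1).1 ?_⟩, ha⟩
  · change ι ≫ a ≫ b = ι ≫ 𝟙 _
    rw [← Category.assoc, ha, hb, Category.comp_id]
  · change ι' ≫ b ≫ a = ι' ≫ 𝟙 _
    rw [← Category.assoc, hb, ha, Category.comp_id]

variable [HasShift C ℤ] [∀ n : ℤ, (shiftFunctor C n).Additive]

lemma shift_nsmul_id (m : ℕ) (X : C) (a : ℤ) : (m • 𝟙 X)⟦a⟧' = m • 𝟙 (X⟦a⟧) := by
  rw [Functor.map_nsmul, CategoryTheory.Functor.map_id]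

lemma IsPLocalObj.shift (hX : IsPLocalObj p X) (a : ℤ) : IsPLocalObj p (X⟦a⟧) := by
  intro m hm
  have := hX m hm
  rw [← shift_nsmul_id]
  infer_instance

lemma IsPLocalization.shift {ι : X ⟶ Y} (h : IsPLocalization p ι) (a : ℤ) :
    IsPLocalization p (ι⟦a⟧') := by
  refine ⟨h.1.shift a, fun Z hZ => ?_⟩
  obtain ⟨e⟩ : Nonempty ((Z⟦-a⟧)⟦a⟧ ≅ Z) := ⟨shiftNegShift Z a⟩
  obtain ⟨h1, h2⟩ := h.2 (Z⟦-a⟧) (hZ.shift (-a))
  constructor
  · intro f g hfg
    replace hfg : ι⟦a⟧' ≫ f = ι⟦a⟧' ≫ g := hfg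
    have h3 : ι ≫ (shiftFunctor C a).preimage (f ≫ e.inv) =
        ι ≫ (shiftFunctor C a).preimage (g ≫ e.inv) := by
      apply (shiftFunctor C a).map_injective
      rw [Functor.map_comp, Functor.map_comp, Functor.map_preimage, Functor.map_preimage,
        ← Category.assoc, ← Category.assoc, hfg]
    have h4 := congrArg (shiftFunctor C a).map (h1 h3)
    rw [Functor.map_preimage, Functor.map_preimage] at h4
    exact (cancel_mono e.inv).1 h4
  · intro f
    obtain ⟨g, hg⟩ := h2 ((shiftFunctor C a).preimage (f ≫ e.inv))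
    replace hg : ι ≫ g = _ := hg
    refine ⟨g⟦a⟧' ≫ e.hom, ?_⟩
    change ι⟦a⟧' ≫ g⟦a⟧' ≫ e.hom = f
    rw [← Category.assoc, ← Functor.map_comp, hg, Functor.map_preimage, Category.assoc,
      Iso.inv_hom_id, Category.comp_id]

end Defs

section Seq

/-- The sequence of multipliers used for `p`-localization: `k + 1` when it is prime to `p`,
and `1` otherwise. -/
def pseq (p : ℕ) (k : ℕ) : ℕ := if p ∣ k + 1 then 1 else k + 1

lemma pseq_coprime (p : ℕ) [hp : Fact p.Prime] (k : ℕ) : Nat.Coprime (pseq p k) p := by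
  unfold pseq
  split_ifs with h
  · exact Nat.coprime_one_left p
  · exact ((Nat.Prime.coprime_iff_not_dvd hp.out).2 h).symm

lemma prod_pseq_coprime (p : ℕ) [hp : Fact p.Prime] (N M : ℕ) :
    Nat.Coprime (∏ k ∈ Finset.Ico N M, pseq p k) p :=
  Nat.Coprime.prod_left fun k _ => pseq_coprime p k

lemma exists_dvd_pseq (p : ℕ) [hp : Fact p.Prime] (N m : ℕ) (hm : Nat.Coprime m p) :
    ∃ k, N ≤ k ∧ m ∣ pseq p k := by
  have hm0 : 0 < m := by
    rcases Nat.eq_zero_or_pos m with h | h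
    · subst h
      exact absurd ((Nat.coprime_zero_left p).1 hm) hp.out.one_lt.ne'
    · exact h
  have h1 : Nat.Coprime (p * N + 1) p := by
    rw [Nat.Coprime, Nat.gcd_comm, add_comm, Nat.gcd_add_mul_left_right]
    exact Nat.gcd_one_right p
  have h2 : N ≤ p * N := Nat.le_mul_of_pos_left N hp.out.pos
  have h3 : p * N + 1 ≤ m * (p * N + 1) := Nat.le_mul_of_pos_left _ hm0
  have h4 : m * (p * N + 1) - 1 + 1 = m * (p * N + 1) := by omega
  refine ⟨m * (p * N + 1) - 1, by omega, ?_⟩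
  have h5 : ¬ p ∣ m * (p * N + 1) := by
    have h6 : Nat.Coprime (m * (p * N + 1)) p := Nat.Coprime.mul_left hm h1
    intro h
    exact (Nat.Prime.coprime_iff_not_dvd hp.out).1 h6.symm h
  unfold pseq
  rw [h4, if_neg h5]
  exact Dvd.intro _ rfl

end Seq

section Main

variable {C : Type u} [Category.{w} C] [Preadditive C] [HasCountableCoproducts C]
  [HasZeroObject C] [HasShift C ℤ] [∀ n : ℤ, (shiftFunctor C n).Additive] [Pretriangulated C]

/-- An object `S` whose shifts detect zero objects. -/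
def IsWeakGenerator (S : C) : Prop :=
  ∀ X : C, (∀ (n : ℤ) (f : S⟦n⟧ ⟶ X), f = 0) → IsZero X

variable {p : ℕ} [hp : Fact p.Prime] {X T : C} {q : copies X ⟶ T}

/-- Numbers prime to `p` act injectively on maps from compact objects to the telescope. -/
lemma IsTel.smul_inj (h : IsTel (pseq p) X q) {W : C} (hW : IsCompactObj W) {m : ℕ}
    (hm : Nat.Coprime m p) (f : W ⟶ T) (hf : m • f = 0) : f = 0 := by
  obtain ⟨N, g, rfl⟩ := h.exists_stage hW f
  rw [← Preadditive.nsmul_comp] at hf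
  obtain ⟨M, hNM, hM⟩ := h.stage_eq_zero hW (m • g) N hf
  obtain ⟨k, hk, d, hd⟩ := exists_dvd_pseq p M m hm
  rw [h.ι_comp_prod N (k + 1) (by omega), Finset.prod_Ico_succ_top (by omega),
    ← Finset.prod_Ico_consecutive _ hNM hk, hd, Preadditive.comp_nsmul,
    ← Preadditive.nsmul_comp]
  have : (((∏ k ∈ Finset.Ico N M, pseq p k) * ∏ k ∈ Finset.Ico M k, pseq p k) * (m * d)) • g =
      ((∏ k ∈ Finset.Ico M k, pseq p k) * d) •
        ((∏ k ∈ Finset.Ico N M, pseq p k) • m • g) := by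
    rw [smul_smul, smul_smul]
    congr 1
    ring
  rw [this, hM, smul_zero, zero_comp]

/-- Numbers prime to `p` act surjectively on maps from compact objects to the telescope. -/
lemma IsTel.smul_surj (h : IsTel (pseq p) X q) {W : C} (hW : IsCompactObj W) {m : ℕ}
    (hm : Nat.Coprime m p) (f : W ⟶ T) : ∃ g : W ⟶ T, m • g = f := by
  obtain ⟨N, g, rfl⟩ := h.exists_stage hW f
  obtain ⟨k, hk, d, hd⟩ := exists_dvd_pseq p N m hm
  refine ⟨g ≫ (((∏ k ∈ Finset.Ico N k, pseq p k) * d) •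
    (Sigma.ι (fun _ : ℕ => X) (k + 1) ≫ q)), ?_⟩
  rw [h.ι_comp_prod N (k + 1) (by omega), Finset.prod_Ico_succ_top hk, hd,
    ← Preadditive.comp_nsmul, smul_smul]
  congr 2
  ring

/-- The telescope is `p`-local. -/
theorem IsTel.isPLocalObj (h : IsTel (pseq p) X q) {S : C} (hS : IsCompactObj S)
    (hgen : IsWeakGenerator S) : IsPLocalObj p T := by
  intro m hm
  obtain ⟨K, a, b, hK⟩ := distinguished_cocone_triangle (m • 𝟙 T)
  have hz : IsZero K := by
    apply hgen
    intro n f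
    have h1 : f ≫ b = 0 := by
      have h2 : (f ≫ b) ≫ (m • 𝟙 T)⟦(1 : ℤ)⟧' = 0 := by
        rw [Category.assoc, tri_comp₃₁ hK, comp_zero]
      rw [shift_nsmul_id, comp_nsmul_id] at h2
      obtain ⟨e⟩ : Nonempty ((T⟦(1 : ℤ)⟧)⟦(-1 : ℤ)⟧ ≅ T) := ⟨shiftShiftNeg T 1⟩
      have h3 : (shiftFunctor C (-1 : ℤ)).map (f ≫ b) ≫ e.hom = 0 := by
        apply h.smul_inj ((hS.shift n).shift (-1)) hm
        rw [← Preadditive.nsmul_comp, ← Functor.map_nsmul, h2, Functor.map_zero, zero_comp]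
      have h4 : (shiftFunctor C (-1 : ℤ)).map (f ≫ b) = 0 := by
        rw [← cancel_mono e.hom, h3, zero_comp]
      exact (Functor.map_eq_zero_iff (shiftFunctor C (-1 : ℤ))).1 h4
    obtain ⟨g, rfl⟩ := tri_to₃ hK f h1
    obtain ⟨g', rfl⟩ := h.smul_surj (hS.shift n) hm g
    rw [← comp_nsmul_id, Category.assoc, tri_comp₁₂ hK, comp_zero]
  exact (Triangle.isZero₃_iff_isIso₁ _ hK).1 hz

omit [HasZeroObject C] [HasShift C ℤ] [∀ n : ℤ, (shiftFunctor C n).Additive]
  [Pretriangulated C] in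
/-- Precomposition with `1 - shift` is surjective on maps to a `p`-local object. -/
lemma telMap_surj {Z : C} (hZ : IsPLocalObj p Z) (f : copies X ⟶ Z) :
    ∃ g : copies X ⟶ Z, f = telMap (pseq p) X ≫ g := by
  have hdiv : ∀ k (x : X ⟶ Z), ∃ y : X ⟶ Z, pseq p k • y = x := fun k x =>
    hZ.smul_surj_to (pseq_coprime p k) x
  choose div hdiv using hdiv
  let G : ℕ → (X ⟶ Z) := fun n => Nat.rec (motive := fun _ => (X ⟶ Z)) 0
    (fun k y => div k (y - Sigma.ι (fun _ : ℕ => X) k ≫ f)) n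
  refine ⟨Sigma.desc G, ?_⟩
  apply Sigma.hom_ext
  intro k
  rw [← Category.assoc, ι_telMap, Preadditive.sub_comp, Preadditive.nsmul_comp]
  simp only [colimit.ι_desc, Cofan.mk_ι_app]
  have : G (k + 1) = div k (G k - Sigma.ι (fun _ : ℕ => X) k ≫ f) := rfl
  rw [this, hdiv]
  abel

/-- The telescope has the universal property of the `p`-localization. -/
theorem IsTel.universal (h : IsTel (pseq p) X q) {Z : C} (hZ : IsPLocalObj p Z) :
    Function.Bijective fun g : T ⟶ Z => (Sigma.ι (fun _ : ℕ => X) 0 ≫ q) ≫ g := by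
  have h' := h
  obtain ⟨δ, hT⟩ := h'
  constructor
  · intro a b hab
    replace hab : (Sigma.ι (fun _ : ℕ => X) 0 ≫ q) ≫ a = (Sigma.ι (fun _ : ℕ => X) 0 ≫ q) ≫ b :=
      hab
    rw [← sub_eq_zero, ← Preadditive.comp_sub] at hab
    rw [← sub_eq_zero]
    set f := a - b with hf
    have h1 : q ≫ f = 0 := by
      apply Sigma.hom_ext
      intro k
      rw [comp_zero]
      induction k with
      | zero => rw [← Category.assoc]; exact hab
      | succ k ih =>
        apply hZ.smul_inj_to (pseq_coprime p k)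
        rw [smul_zero, ← Category.assoc, ← Preadditive.nsmul_comp, ← h.ι_comp k, Category.assoc, ih]
    obtain ⟨g, hg⟩ := tri_from₃ hT f h1
    obtain ⟨e⟩ : Nonempty ((Z⟦(-1 : ℤ)⟧)⟦(1 : ℤ)⟧ ≅ Z) := ⟨shiftNegShift Z (1 : ℤ)⟩
    obtain ⟨g1, hg1⟩ := telMap_surj (hZ.shift (-1)) ((shiftFunctor C (1 : ℤ)).preimage (g ≫ e.inv))
    have h2 : g = (telMap (pseq p) X)⟦(1 : ℤ)⟧' ≫ g1⟦(1 : ℤ)⟧' ≫ e.hom := by
      rw [← Category.assoc, ← Functor.map_comp, ← hg1, Functor.map_preimage, Category.assoc,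
        Iso.inv_hom_id, Category.comp_id]
    rw [hg, h2, ← Category.assoc, tri_comp₃₁ hT, zero_comp]
  · intro g
    have hdiv : ∀ k (x : X ⟶ Z), ∃ y : X ⟶ Z, pseq p k • y = x := fun k x =>
      hZ.smul_surj_to (pseq_coprime p k) x
    choose div hdiv using hdiv
    let G : ℕ → (X ⟶ Z) := fun n => Nat.rec (motive := fun _ => (X ⟶ Z)) g
      (fun k y => div k y) n
    have h1 : telMap (pseq p) X ≫ Sigma.desc G = 0 := by
      apply Sigma.hom_ext
      intro k
      rw [← Category.assoc, ι_telMap, Preadditive.sub_comp, Preadditive.nsmul_comp, comp_zero]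
      simp only [colimit.ι_desc, Cofan.mk_ι_app]
      have : G (k + 1) = div k (G k) := rfl
      rw [this, hdiv, sub_self]
    obtain ⟨f, hf⟩ := tri_from₂ hT (Sigma.desc G) h1
    refine ⟨f, ?_⟩
    change (Sigma.ι (fun _ : ℕ => X) 0 ≫ q) ≫ f = g
    rw [Category.assoc, ← hf]
    simp [G]

/-- The telescope is a `p`-localization. -/
theorem IsTel.isPLocalization (h : IsTel (pseq p) X q) {S : C} (hS : IsCompactObj S)
    (hgen : IsWeakGenerator S) : IsPLocalization p (Sigma.ι (fun _ : ℕ => X) 0 ≫ q) :=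
  ⟨h.isPLocalObj hS hgen, fun _ hZ => h.universal hZ⟩

end Main

end Vale.Agent.P257
end
end

section

section

/-!
Finite CW objects, cones of maps of `p`-localizations, clearing denominators.
-/

namespace Vale.Agent.P257

open CategoryTheory CategoryTheory.Limits CategoryTheory.Pretriangulated
  CategoryTheory.Triangulated ZeroObject

universe w u

section

variable {C : Type u} [Category.{w} C] [Preadditive C]
  [HasZeroObject C] [HasShift C ℤ] [∀ n : ℤ, (shiftFunctor C n).Additive] [Pretriangulated C]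

lemma IsFiniteCW.cell' {S : C} (D : Triangle C) (hD : D ∈ distTriang C) (n : ℤ)
    (e : D.obj₁ ≅ S⟦n⟧) (h : IsFiniteCW S D.obj₂) : IsFiniteCW S D.obj₃ := by
  refine IsFiniteCW.cell (e.inv ≫ D.mor₁) D.mor₂ (D.mor₃ ≫ e.hom⟦(1 : ℤ)⟧') ?_ h
  refine isomorphic_distinguished _ hD _ ?_
  refine Triangle.isoMk _ _ e.symm (Iso.refl _) (Iso.refl _) ?_ ?_ ?_
  · change (e.inv ≫ D.mor₁) ≫ 𝟙 _ = e.inv ≫ D.mor₁
    rw [Category.comp_id]
  · change D.mor₂ ≫ 𝟙 _ = 𝟙 _ ≫ D.mor₂
    rw [Category.comp_id, Category.id_comp]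
  · change (D.mor₃ ≫ e.hom⟦(1 : ℤ)⟧') ≫ e.inv⟦(1 : ℤ)⟧' = 𝟙 _ ≫ D.mor₃
    rw [Category.assoc, ← Functor.map_comp, e.hom_inv_id, CategoryTheory.Functor.map_id,
      Category.comp_id, Category.id_comp]

lemma IsFiniteCW.of_iso {S X Y : C} (h : IsFiniteCW S X) (e : X ≅ Y) : IsFiniteCW S Y := by
  cases h with
  | zero h => exact .zero (h.of_iso e.symm)
  | @cell n A _ f g h hD hX =>
    refine IsFiniteCW.cell f (g ≫ e.hom) (e.inv ≫ h) ?_ hX
    refine isomorphic_distinguished _ hD _ ?_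
    refine Triangle.isoMk _ _ (Iso.refl _) (Iso.refl _) e.symm ?_ ?_ ?_
    · change f ≫ 𝟙 _ = 𝟙 _ ≫ f
      rw [Category.comp_id, Category.id_comp]
    · change (g ≫ e.hom) ≫ e.inv = 𝟙 _ ≫ g
      rw [Category.assoc, e.hom_inv_id, Category.comp_id, Category.id_comp]
    · change (e.inv ≫ h) ≫ (𝟙 (S⟦n⟧))⟦(1 : ℤ)⟧' = e.inv ≫ h
      rw [CategoryTheory.Functor.map_id, Category.comp_id]

lemma IsFiniteCW.shift {S X : C} (h : IsFiniteCW S X) (a : ℤ) : IsFiniteCW S (X⟦a⟧) := by
  induction h with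
  | zero h => exact .zero ((shiftFunctor C a).map_isZero h)
  | @cell n A B f g h hD hX ih =>
    exact IsFiniteCW.cell' _ (Triangle.shift_distinguished _ hD a) (n + a)
      ((shiftFunctorAdd' C n a (n + a) rfl).app S).symm ih

/-- The sphere is a finite CW object. -/
lemma isFiniteCW_sphere (S : C) : IsFiniteCW S S := by
  have h1 : IsFiniteCW S (0 : C) := .zero (isZero_zero C)
  have h2 := IsFiniteCW.cell' (S := S) _ (contractible_distinguished₂ (S⟦(-1 : ℤ)⟧)) (-1)
    (Iso.refl _) h1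
  exact h2.of_iso (shiftNegShift S (1 : ℤ))

/-- The cone of a map of finite CW objects is a finite CW object. -/
lemma IsFiniteCW.cone [IsTriangulated C] {S A B D : C} (hA : IsFiniteCW S A)
    (hB : IsFiniteCW S B) (f : A ⟶ B) (g : B ⟶ D) (h : D ⟶ A⟦(1 : ℤ)⟧)
    (hD : Triangle.mk f g h ∈ distTriang C) : IsFiniteCW S D := by
  induction hA generalizing B D with
  | zero hz =>
    have : IsIso g := (Triangle.isZero₁_iff_isIso₂ _ hD).1 hz
    exact hB.of_iso (asIso g)
  | @cell n A' A u v w hT hA' ih =>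
    obtain ⟨D', g', h', hD'⟩ := distinguished_cocone_triangle (v ≫ f)
    have hCW := ih hB (v ≫ f) g' h' hD'
    have o := someOctahedron rfl (rot_of_distTriang _ hT) hD hD'
    exact IsFiniteCW.cell' _ o.mem (n + 1) ((shiftFunctorAdd' C n 1 (n + 1) rfl).app S).symm hCW

end

section

variable {C : Type u} [Category.{w} C] [Preadditive C] [HasCountableCoproducts C]
  [HasZeroObject C] [HasShift C ℤ] [∀ n : ℤ, (shiftFunctor C n).Additive] [Pretriangulated C]

/-- Finite CW objects are compact. -/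
lemma IsFiniteCW.compact {S X : C} (hS : IsCompactObj S) (h : IsFiniteCW S X) :
    IsCompactObj X := by
  induction h with
  | zero hz => exact fun Y f => ⟨∅, fun _ => 0, hz.eq_of_src _ _⟩
  | @cell n A B u v w hT hA ih =>
    intro Y f
    obtain ⟨s, g, hg⟩ := ih Y (v ≫ f)
    have h3 : ∀ i ∈ s, v ≫ f ≫ sigmaProj Y i = g i := by
      intro i hi
      rw [← Category.assoc, hg, Preadditive.sum_comp, Finset.sum_eq_single_of_mem i hi]
      · rw [Category.assoc, ι_sigmaProj_self, Category.comp_id]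
      · intro j _ hji
        rw [Category.assoc, ι_sigmaProj_ne Y hji, comp_zero]
    have h4 : v ≫ (f - ∑ i ∈ s, (f ≫ sigmaProj Y i) ≫ Sigma.ι Y i) = 0 := by
      rw [Preadditive.comp_sub, hg, Preadditive.comp_sum, sub_eq_zero]
      apply Finset.sum_congr rfl
      intro i hi
      rw [← h3 i hi]
      simp only [Category.assoc]
    obtain ⟨b, hb⟩ := tri_from₃ hT _ h4
    obtain ⟨s', g', hg'⟩ := ((hS.shift n).shift 1) Y b
    classical
    refine ⟨s ∪ s', fun i => (if i ∈ s then f ≫ sigmaProj Y i else 0) +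
      (if i ∈ s' then w ≫ g' i else 0), ?_⟩
    rw [sub_eq_iff_eq_add] at hb
    have h5 : ∑ i ∈ s ∪ s', (if i ∈ s then f ≫ sigmaProj Y i else 0) ≫ Sigma.ι Y i =
        ∑ i ∈ s, (f ≫ sigmaProj Y i) ≫ Sigma.ι Y i := by
      rw [← Finset.sum_subset Finset.subset_union_left]
      · exact Finset.sum_congr rfl fun i hi => by rw [if_pos hi]
      · intro i _ hi
        rw [if_neg hi, zero_comp]
    have h6 : ∑ i ∈ s ∪ s', (if i ∈ s' then w ≫ g' i else 0) ≫ Sigma.ι Y i =
        ∑ i ∈ s', (w ≫ g' i) ≫ Sigma.ι Y i := by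
      rw [← Finset.sum_subset Finset.subset_union_right]
      · exact Finset.sum_congr rfl fun i hi => by rw [if_pos hi]
      · intro i _ hi
        rw [if_neg hi, zero_comp]
    simp only [Preadditive.add_comp]
    rw [Finset.sum_add_distrib, h5, h6, add_comm]
    refine hb.trans ?_
    rw [hg', Preadditive.comp_sum]
    simp only [Category.assoc]

variable {p : ℕ} [hp : Fact p.Prime]

/-- Every object has a `p`-localization which is a telescope. -/
theorem exists_telescope {S : C} (hS : IsCompactObj S) (hgen : IsWeakGenerator S) (X : C) :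
    ∃ (T : C) (q : copies X ⟶ T), IsTel (pseq p) X q ∧
      IsPLocalization p (Sigma.ι (fun _ : ℕ => X) 0 ≫ q) := by
  obtain ⟨T, q, h⟩ := exists_isTel (pseq p) X
  exact ⟨T, q, h, h.isPLocalization hS hgen⟩

theorem exists_localization {S : C} (hS : IsCompactObj S) (hgen : IsWeakGenerator S) (X : C) :
    ∃ (T : C) (ι : X ⟶ T), IsPLocalization p ι := by
  obtain ⟨T, q, _, h⟩ := exists_telescope (p := p) hS hgen X
  exact ⟨T, _, h⟩

/-- Clearing denominators of maps from a compact object to a `p`-localization. -/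
theorem IsPLocalization.clear {S : C} (hS : IsCompactObj S) (hgen : IsWeakGenerator S)
    {X Y : C} {ι : X ⟶ Y} (h : IsPLocalization p ι) {W : C} (hW : IsCompactObj W)
    (f : W ⟶ Y) : ∃ (m : ℕ) (g : W ⟶ X), Nat.Coprime m p ∧ m • f = g ≫ ι := by
  obtain ⟨T, q, hT, hloc⟩ := exists_telescope (p := p) hS hgen X
  obtain ⟨e, he⟩ := hloc.unique h
  obtain ⟨N, g, hg⟩ := hT.exists_stage hW (f ≫ e.inv)
  refine ⟨∏ k ∈ Finset.Ico 0 N, pseq p k, g, prod_pseq_coprime p 0 N, ?_⟩
  have h1 : f = g ≫ (Sigma.ι (fun _ : ℕ => X) N ≫ q) ≫ e.hom := by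
    rw [← Category.assoc, ← hg, Category.assoc, e.inv_hom_id, Category.comp_id]
  rw [h1, ← he, hT.ι_comp_prod 0 N (Nat.zero_le _), Preadditive.nsmul_comp,
    Preadditive.comp_nsmul]

omit [HasCountableCoproducts C] hp in
/-- The cone of a map of `p`-local objects is `p`-local. -/
theorem IsPLocalObj.cone {A B D : C} (hA : IsPLocalObj p A) (hB : IsPLocalObj p B)
    {f : A ⟶ B} {g : B ⟶ D} {h : D ⟶ A⟦(1 : ℤ)⟧} (hD : Triangle.mk f g h ∈ distTriang C) :
    IsPLocalObj p D := by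
  intro m hm
  have h1 := hA m hm
  have h2 := hB m hm
  let φ : Triangle.mk f g h ⟶ Triangle.mk f g h :=
    { hom₁ := m • 𝟙 A
      hom₂ := m • 𝟙 B
      hom₃ := m • 𝟙 D
      comm₁ := by
        change f ≫ (m • 𝟙 B) = (m • 𝟙 A) ≫ f
        rw [comp_nsmul_id, nsmul_id_comp]
      comm₂ := by
        change g ≫ (m • 𝟙 D) = (m • 𝟙 B) ≫ g
        rw [comp_nsmul_id, nsmul_id_comp]
      comm₃ := by
        change h ≫ (m • 𝟙 A)⟦(1 : ℤ)⟧' = (m • 𝟙 D) ≫ h
        rw [shift_nsmul_id, comp_nsmul_id, nsmul_id_comp] }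
  exact isIso₃_of_isIso₁₂ φ hD hD h1 h2

omit [HasCountableCoproducts C] hp in
/-- The cone of a map of `p`-localizations is a `p`-localization. -/
theorem IsPLocalization.cone {A B D A' B' D' : C} {a : A ⟶ A'} {b : B ⟶ B'}
    (ha : IsPLocalization p a) (hb : IsPLocalization p b)
    {f : A ⟶ B} {g : B ⟶ D} {h : D ⟶ A⟦(1 : ℤ)⟧} (hD : Triangle.mk f g h ∈ distTriang C)
    {f' : A' ⟶ B'} {g' : B' ⟶ D'} {h' : D' ⟶ A'⟦(1 : ℤ)⟧}
    (hD' : Triangle.mk f' g' h' ∈ distTriang C) {d : D ⟶ D'}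
    (comm₁ : f ≫ b = a ≫ f') (comm₂ : g ≫ d = b ≫ g') (comm₃ : h ≫ a⟦(1 : ℤ)⟧' = d ≫ h') :
    IsPLocalization p d := by
  refine ⟨ha.1.cone hb.1 hD', fun Z hZ => ?_⟩
  have ha1 := (ha.shift 1).2 Z hZ
  have hb1 := (hb.shift 1).2 Z hZ
  have ha0 := ha.2 Z hZ
  have hb0 := hb.2 Z hZ
  constructor
  · intro x₁ x₂ hx
    replace hx : d ≫ x₁ = d ≫ x₂ := hx
    rw [← sub_eq_zero, ← Preadditive.comp_sub] at hx
    rw [← sub_eq_zero]
    set x := x₁ - x₂
    have h1 : g' ≫ x = 0 := hb0.1 (by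
      change b ≫ g' ≫ x = b ≫ 0
      rw [← Category.assoc, ← comm₂, Category.assoc, hx, comp_zero, comp_zero])
    obtain ⟨y, hy⟩ := tri_from₃ hD' x h1
    have h2 : h ≫ a⟦(1 : ℤ)⟧' ≫ y = 0 := by
      rw [← Category.assoc, comm₃, Category.assoc, ← hy, hx]
    obtain ⟨z', hz'⟩ := tri_from₃ (rot_of_distTriang _ hD) (a⟦(1 : ℤ)⟧' ≫ y) h2
    replace hz' : a⟦(1 : ℤ)⟧' ≫ y = (-f⟦(1 : ℤ)⟧') ≫ z' := hz'
    obtain ⟨z, hz⟩ := hb1.2 z'
    replace hz : b⟦(1 : ℤ)⟧' ≫ z = z' := hz
    have h3 : y = (-f'⟦(1 : ℤ)⟧') ≫ z := ha1.1 (by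
      change a⟦(1 : ℤ)⟧' ≫ y = a⟦(1 : ℤ)⟧' ≫ (-f'⟦(1 : ℤ)⟧') ≫ z
      rw [hz', ← hz, Preadditive.neg_comp, Preadditive.neg_comp, Preadditive.comp_neg,
        ← Category.assoc, ← Category.assoc, ← Functor.map_comp, ← Functor.map_comp, comm₁])
    rw [hy, h3, Preadditive.neg_comp, Preadditive.comp_neg, ← Category.assoc, tri_comp₃₁ hD',
      zero_comp, neg_zero]
  · intro x
    obtain ⟨y, hy⟩ := hb0.2 (g ≫ x)
    replace hy : b ≫ y = g ≫ x := hy
    have h1 : f' ≫ y = 0 := ha0.1 (by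
      change a ≫ f' ≫ y = a ≫ 0
      rw [← Category.assoc, ← comm₁, Category.assoc, hy, ← Category.assoc, tri_comp₁₂ hD,
        zero_comp, comp_zero])
    obtain ⟨t, ht⟩ := tri_from₂ hD' y h1
    have h2 : g ≫ (x - d ≫ t) = 0 := by
      rw [Preadditive.comp_sub, ← hy, ← Category.assoc, comm₂, Category.assoc, ← ht, sub_self]
    obtain ⟨s', hs'⟩ := tri_from₃ hD _ h2
    obtain ⟨s, hs⟩ := ha1.2 s'
    replace hs : a⟦(1 : ℤ)⟧' ≫ s = s' := hs
    refine ⟨t + h' ≫ s, ?_⟩
    change d ≫ (t + h' ≫ s) = x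
    rw [Preadditive.comp_add, ← Category.assoc d h' s, ← comm₃, Category.assoc, hs, ← hs']
    abel

end

end Vale.Agent.P257
end
end

section

section

/-!
Objects built from finitely many shifts of an object `S`, and graded homology theories.
-/

namespace Vale.Agent.P257.K

open CategoryTheory Limits Pretriangulated

universe v' u

/-- The objects built from finitely many shifts of `S`: the smallest class of objects that
contains all shifts of `S` and is closed under extensions and retracts. -/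
inductive IsFinite {T : Type u} [Category.{v'} T] [HasZeroObject T] [Preadditive T]
    [HasShift T ℤ] [∀ n : ℤ, (shiftFunctor T n).Additive] [Pretriangulated T] (S : T) : T → Prop
  | shift (n : ℤ) : IsFinite S (S⟦n⟧)
  | extension (D : Triangle T) (hD : D ∈ distTriang T) (h₁ : IsFinite S D.obj₁)
      (h₃ : IsFinite S D.obj₃) : IsFinite S D.obj₂
  | retract {X Y : T} (i : X ⟶ Y) (r : Y ⟶ X) (h : i ≫ r = 𝟙 X) (hY : IsFinite S Y) :
      IsFinite S X

/-- A graded homology theory on `T` with coefficients in a graded ring, for which the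
Hurewicz map of the sphere is an isomorphism in degree `0`. -/
structure GHom {R A : Type} [CommRing R] [CommRing A] [Algebra R A] (𝒜 : ℤ → Submodule R A)
    (T : Type u) [Category.{v'} T] [HasZeroObject T] [Preadditive T]
    [HasShift T ℤ] [∀ n : ℤ, (shiftFunctor T n).Additive] [Pretriangulated T] where
  neg : ∀ j < 0, ∀ a ∈ 𝒜 j, a = 0
  one : ∀ a ∈ 𝒜 1, a = 0
  sphere : T
  connective : ∀ (n : ℤ) (f : sphere ⟶ sphere⟦n⟧), 0 < n → f = 0
  h : T ⥤ ModuleCat.{0} A
  hom : h.IsHomological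
  deg : ∀ X, ℤ → AddSubgroup (h.obj X)
  isInternal : ∀ X, DirectSum.IsInternal (deg X)
  smul_mem : ∀ X i j (a : A) x, a ∈ 𝒜 i → x ∈ deg X j → a • x ∈ deg X (i + j)
  map_mem : ∀ {X Y : T} (f : X ⟶ Y) j x, x ∈ deg X j → (h.map f).hom x ∈ deg Y j
  σ : h ≅ shiftFunctor T (1 : ℤ) ⋙ h
  σ_mem : ∀ X j x, x ∈ deg X j → (σ.hom.app X).hom x ∈ deg (X⟦(1 : ℤ)⟧) (j + 1)
  gen : h.obj sphere
  gen_mem : gen ∈ deg sphere 0
  gen_span : ∀ y : h.obj sphere, ∃ a : A, y = a • gen
  gen_ann : ∀ a : A, a • gen = 0 ↔ a = 0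
  end_inj : ∀ f : sphere ⟶ sphere, (h.map f).hom gen = 0 → f = 0
  end_surj : ∀ a ∈ 𝒜 0, ∃ f : sphere ⟶ sphere, (h.map f).hom gen = a • gen

end Vale.Agent.P257.K
end
end

section

section

/-!
The finite `p`-local objects form the thick subcategory generated by the `p`-local sphere.
-/

namespace Vale.Agent.P257

open CategoryTheory CategoryTheory.Limits CategoryTheory.Pretriangulated
  CategoryTheory.Triangulated ZeroObject

universe w u

section

variable {C : Type u} [Category.{w} C] [Preadditive C]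
  [HasZeroObject C] [HasShift C ℤ] [∀ n : ℤ, (shiftFunctor C n).Additive] [Pretriangulated C]
  {p : ℕ}

/-- Cones of retracts are retracts of cones. -/
lemma exists_retract_cone {X Y Z A B E : C} {f : X ⟶ Y} {g : Y ⟶ Z} {h : Z ⟶ X⟦(1 : ℤ)⟧}
    (hD : Triangle.mk f g h ∈ distTriang C) {f' : A ⟶ B} {g' : B ⟶ E} {h' : E ⟶ A⟦(1 : ℤ)⟧}
    (hE : Triangle.mk f' g' h' ∈ distTriang C) {i : X ⟶ A} {r : A ⟶ X} {j : Y ⟶ B} {t : B ⟶ Y}
    (hir : i ≫ r = 𝟙 X) (hjt : j ≫ t = 𝟙 Y) (h1 : f ≫ j = i ≫ f') (h2 : f' ≫ t = r ≫ f) :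
    ∃ (k : Z ⟶ E) (l : E ⟶ Z), k ≫ l = 𝟙 Z := by
  obtain ⟨k, hk1, hk2⟩ := tri_map hD hE i j h1
  obtain ⟨l, hl1, hl2⟩ := tri_map hE hD r t h2
  let φ : Triangle.mk f g h ⟶ Triangle.mk f g h :=
    { hom₁ := 𝟙 X
      hom₂ := 𝟙 Y
      hom₃ := k ≫ l
      comm₁ := by
        change f ≫ 𝟙 Y = 𝟙 X ≫ f
        rw [Category.comp_id, Category.id_comp]
      comm₂ := by
        change g ≫ k ≫ l = 𝟙 Y ≫ g
        rw [← Category.assoc, hk1, Category.assoc, hl1, ← Category.assoc, hjt]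
      comm₃ := by
        change h ≫ (𝟙 X)⟦(1 : ℤ)⟧' = (k ≫ l) ≫ h
        rw [Category.assoc, ← hl2, ← Category.assoc, ← hk2, Category.assoc, ← Functor.map_comp,
          hir] }
  have : IsIso (k ≫ l) := isIso₃_of_isIso₁₂ φ hD hD (inferInstanceAs (IsIso (𝟙 X)))
    (inferInstanceAs (IsIso (𝟙 Y)))
  exact ⟨k, l ≫ inv (k ≫ l), by rw [← Category.assoc, IsIso.hom_inv_id]⟩

omit [HasZeroObject C] [HasShift C ℤ] [∀ n : ℤ, (shiftFunctor C n).Additive]
  [Pretriangulated C] in
lemma IsPLocalization.zero {A B : C} {ι : A ⟶ B} (h : IsPLocalization p ι) (hA : IsZero A) :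
    IsZero B := by
  rw [IsZero.iff_id_eq_zero]
  exact (h.2 B h.1).1 (hA.eq_of_src _ _)

lemma IsFinitePLocal.of_retract {S X Y : C} (h : IsFinitePLocal p S Y) (i : X ⟶ Y) (r : Y ⟶ X)
    (hir : i ≫ r = 𝟙 X) : IsFinitePLocal p S X := by
  obtain ⟨A, B, a, j, t, hA, ha, hjt⟩ := h
  refine ⟨A, B, a, i ≫ j, t ≫ r, hA, ha, ?_⟩
  rw [Category.assoc, ← Category.assoc j t r, hjt, Category.id_comp, hir]

lemma IsFinitePLocal.shift {S X : C} (h : IsFinitePLocal p S X) (a : ℤ) :
    IsFinitePLocal p S (X⟦a⟧) := by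
  obtain ⟨A, B, ι, j, t, hA, ha, hjt⟩ := h
  refine ⟨A⟦a⟧, B⟦a⟧, ι⟦a⟧', j⟦a⟧', t⟦a⟧', hA.shift a, ha.shift a, ?_⟩
  rw [← Functor.map_comp, hjt, CategoryTheory.Functor.map_id]

lemma IsPLocalization.isFinitePLocal {S A B : C} {ι : A ⟶ B} (h : IsPLocalization p ι)
    (hA : IsFiniteCW S A) : IsFinitePLocal p S B :=
  ⟨A, B, ι, 𝟙 B, 𝟙 B, hA, h, Category.comp_id _⟩

end

section

variable {C : Type u} [Category.{w} C] [Preadditive C] [HasCountableCoproducts C]
  [HasZeroObject C] [HasShift C ℤ] [∀ n : ℤ, (shiftFunctor C n).Additive] [Pretriangulated C]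
  [IsTriangulated C] {p : ℕ} [hp : Fact p.Prime]

/-- The cone of a map of finite `p`-local objects is finite `p`-local. -/
theorem IsFinitePLocal.cone {S : C} (hS : IsCompactObj S) (hgen : IsWeakGenerator S)
    {X Y Z : C} (hX : IsFinitePLocal p S X) (hY : IsFinitePLocal p S Y)
    {f : X ⟶ Y} {g : Y ⟶ Z} {h : Z ⟶ X⟦(1 : ℤ)⟧} (hD : Triangle.mk f g h ∈ distTriang C) :
    IsFinitePLocal p S Z := by
  obtain ⟨A, A', a, i, r, hA, ha, hir⟩ := hX
  obtain ⟨B, B', b, j, t, hB, hb, hjt⟩ := hY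
  obtain ⟨m, u, hm, hu⟩ := hb.clear hS hgen (hA.compact hS) (a ≫ r ≫ f ≫ j)
  have hm' := ha.1 m hm
  obtain ⟨D, v, w, hT⟩ := distinguished_cocone_triangle u
  obtain ⟨E, v', w', hT'⟩ := distinguished_cocone_triangle (r ≫ f ≫ j)
  have ha' : IsPLocalization p (a ≫ (m • 𝟙 A')) := ha.comp_iso (asIso (m • 𝟙 A'))
  have hcomm : u ≫ b = (a ≫ (m • 𝟙 A')) ≫ (r ≫ f ≫ j) := by
    rw [← hu, comp_nsmul_id, Preadditive.nsmul_comp]
  obtain ⟨d, hd1, hd2⟩ := tri_map hT hT' _ _ hcomm
  have hd : IsPLocalization p d := ha'.cone hb hT hT' hcomm hd1 hd2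
  have hE : IsFinitePLocal p S E := hd.isFinitePLocal (hA.cone hB u v w hT)
  obtain ⟨k, l, hkl⟩ := exists_retract_cone hD hT' hir hjt
    (by rw [← Category.assoc, hir, Category.id_comp])
    (by rw [Category.assoc, Category.assoc, hjt, Category.comp_id])
  exact hE.of_retract k l hkl

/-- Extensions of finite `p`-local objects are finite `p`-local. -/
theorem IsFinitePLocal.extension {S : C} (hS : IsCompactObj S) (hgen : IsWeakGenerator S)
    (D : Triangle C) (hD : D ∈ distTriang C) (h₁ : IsFinitePLocal p S D.obj₁)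
    (h₃ : IsFinitePLocal p S D.obj₃) : IsFinitePLocal p S D.obj₂ :=
  IsFinitePLocal.cone hS hgen (h₃.shift (-1)) h₁ (inv_rot_of_distTriang _ hD)

/-- Objects built from the `p`-local sphere are finite `p`-local. -/
theorem isFinitePLocal_of_isFinite {S S' : C} (hS : IsCompactObj S) (hgen : IsWeakGenerator S)
    {s : S ⟶ S'} (hs : IsPLocalization p s) {X : C} (hX : K.IsFinite S' X) :
    IsFinitePLocal p S X := by
  induction hX with
  | shift n => exact (hs.isFinitePLocal (isFiniteCW_sphere S)).shift n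
  | extension D hD _ _ h1 h3 => exact IsFinitePLocal.extension hS hgen D hD h1 h3
  | retract i r h _ ih => exact ih.of_retract i r h

omit [IsTriangulated C] in
/-- The `p`-localizations of finite CW objects are built from the `p`-local sphere. -/
theorem IsFiniteCW.isFinite_localization {S S' : C} (hS : IsCompactObj S)
    (hgen : IsWeakGenerator S) {s : S ⟶ S'} (hs : IsPLocalization p s) {A B : C}
    (hA : IsFiniteCW S A) {ι : A ⟶ B} (h : IsPLocalization p ι) : K.IsFinite S' B := by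
  induction hA generalizing B with
  | zero hz => exact .retract 0 0 ((h.zero hz).eq_of_src _ _) (.shift 0)
  | @cell n A₀ A u v w hT hA ih =>
    obtain ⟨A', a, ha⟩ := exists_localization (p := p) hS hgen A₀
    have hsn := hs.shift n
    obtain ⟨u', hu'⟩ := (hsn.2 A' ha.1).2 (u ≫ a)
    replace hu' : s⟦n⟧' ≫ u' = u ≫ a := hu'
    obtain ⟨D, v', w', hD⟩ := distinguished_cocone_triangle u'
    obtain ⟨d, hd1, hd2⟩ := tri_map hT hD (s⟦n⟧') a hu'.symm
    have hd : IsPLocalization p d := hsn.cone ha hT hD hu'.symm hd1 hd2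
    obtain ⟨e, -⟩ := h.unique hd
    have h1 : K.IsFinite S' A' := ih ha
    have h2 : K.IsFinite S' ((S'⟦n⟧)⟦(1 : ℤ)⟧) := by
      let e := (shiftFunctorAdd' C n 1 (n + 1) rfl).app S'
      exact .retract e.inv e.hom e.inv_hom_id (.shift (n + 1))
    have h3 : K.IsFinite S' D := .extension _ (rot_of_distTriang _ hD) h1 h2
    exact .retract e.hom e.inv e.hom_inv_id h3

/-- The finite `p`-local objects are the objects built from the `p`-local sphere. -/
theorem isFinitePLocal_iff {S S' : C} (hS : IsCompactObj S) (hgen : IsWeakGenerator S)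
    {s : S ⟶ S'} (hs : IsPLocalization p s) (X : C) : IsFinitePLocal p S X ↔ K.IsFinite S' X := by
  constructor
  · rintro ⟨A, B, ι, i, r, hA, hι, hir⟩
    exact .retract i r hir (hA.isFinite_localization hS hgen hs hι)
  · exact fun h => isFinitePLocal_of_isFinite hS hgen hs h

end

end Vale.Agent.P257
end
end

section

section

/-!
Endomorphisms of the `p`-local sphere.
-/

namespace Vale.Agent.P257

open CategoryTheory CategoryTheory.Limits CategoryTheory.Pretriangulated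
  CategoryTheory.Triangulated ZeroObject

universe w u

section

variable {C : Type u} [Category.{w} C] [Preadditive C] [HasCountableCoproducts C]
  [HasZeroObject C] [HasShift C ℤ] [∀ n : ℤ, (shiftFunctor C n).Additive] [Pretriangulated C]
  {p : ℕ} [hp : Fact p.Prime]

omit [HasCountableCoproducts C] [HasZeroObject C] [HasShift C ℤ]
  [∀ n : ℤ, (shiftFunctor C n).Additive] [Pretriangulated C] in
lemma end_eq_zsmul {S : C} (e : End S ≃+* ℤ) (g : S ⟶ S) : ∃ a : ℤ, g = a • 𝟙 S := by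
  refine ⟨e g, ?_⟩
  apply e.injective
  have h : e ((e g : ℤ) • (1 : End S)) = e g := by
    rw [map_zsmul, map_one, smul_eq_mul, mul_one]
  exact h.symm

/-- Endomorphisms of the `p`-local sphere are fractions. -/
lemma exists_frac {S S' : C} (hS : IsCompactObj S) (hgen : IsWeakGenerator S)
    (e : End S ≃+* ℤ) {s : S ⟶ S'} (hs : IsPLocalization p s) (f : S' ⟶ S') :
    ∃ (m : ℕ) (a : ℤ), Nat.Coprime m p ∧ m • f = a • 𝟙 S' := by
  obtain ⟨m, g, hm, hg⟩ := hs.clear hS hgen hS (s ≫ f)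
  obtain ⟨a, rfl⟩ := end_eq_zsmul e g
  refine ⟨m, a, hm, (hs.2 S' hs.1).1 ?_⟩
  change s ≫ (m • f) = s ≫ (a • 𝟙 S')
  rw [Preadditive.comp_nsmul, hg, Preadditive.zsmul_comp, Category.id_comp,
    Preadditive.comp_zsmul, Category.comp_id]

/-- The ring `R` is the ring of `p`-local integers. -/
structure IsZp (p : ℕ) (R : Type) [CommRing R] : Prop where
  isUnit : ∀ m : ℕ, m.Coprime p → IsUnit (m : R)
  inj : ∀ a : ℤ, (a : R) = 0 → a = 0
  frac : ∀ x : R, ∃ (m : ℕ) (a : ℤ), m.Coprime p ∧ (m : R) * x = a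

/-- The `p`-local sphere is connective. -/
theorem connective_localization {S S' : C} (hS : IsCompactObj S) (hgen : IsWeakGenerator S)
    (hconn : ∀ (n : ℤ) (f : S ⟶ S⟦n⟧), 0 < n → f = 0) {s : S ⟶ S'}
    (hs : IsPLocalization p s) (n : ℤ) (f : S' ⟶ S'⟦n⟧) (hn : 0 < n) : f = 0 := by
  obtain ⟨m, g, hm, hg⟩ := (hs.shift n).clear hS hgen hS (s ≫ f)
  rw [hconn n g hn, zero_comp] at hg
  have h1 : s ≫ f = 0 := (hs.1.shift n).smul_inj_to hm (by rw [hg, smul_zero])
  exact (hs.2 _ (hs.1.shift n)).1 (by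
    change s ≫ f = s ≫ 0
    rw [h1, comp_zero])

end

end Vale.Agent.P257
end
end

section

section

/-!
Homology of `p`-localizations, for a homological functor with values in modules which is
compatible with countable coproducts and on whose values the integers prime to `p` act
invertibly.
-/

namespace Vale.Agent.P257

open CategoryTheory CategoryTheory.Limits CategoryTheory.Pretriangulated
  CategoryTheory.Triangulated ZeroObject

universe v' u

set_option linter.unusedSectionVars false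

section

variable {p : ℕ} [hp : Fact p.Prime] {T : Type u} [Category.{v'} T] [HasZeroObject T]
    [Preadditive T] [HasShift T ℤ] [∀ n : ℤ, (shiftFunctor T n).Additive]
    [Pretriangulated T] [HasCountableCoproducts T] {A : Type} [CommRing A]

/-- The assumptions on the functor. -/
structure IsLocHomology (p : ℕ) (h : T ⥤ ModuleCat.{0} A) : Prop where
  homological : h.IsHomological
  coproduct : ∀ (Y : ℕ → T) (x : h.obj (∐ Y)), ∃ (s : Finset ℕ) (y : ∀ i, h.obj (Y i)),
    x = ∑ i ∈ s, (h.map (Sigma.ι Y i)).hom (y i)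
  susp : Nonempty (shiftFunctor T (1 : ℤ) ⋙ h ≅ h)
  isUnit : ∀ m : ℕ, m.Coprime p → IsUnit (m : A)

/-- the induced map -/
abbrev hm (h : T ⥤ ModuleCat.{0} A) {X Y : T} (f : X ⟶ Y) : h.obj X →ₗ[A] h.obj Y :=
  (h.map f).hom

omit [HasZeroObject T] [Preadditive T] [HasShift T ℤ] [∀ n : ℤ, (shiftFunctor T n).Additive]
    [Pretriangulated T] [HasCountableCoproducts T] in
theorem hm_id (h : T ⥤ ModuleCat.{0} A) (X : T) (x : h.obj X) : hm h (𝟙 X) x = x := by
  rw [hm, CategoryTheory.Functor.map_id]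
  rfl

omit [HasZeroObject T] [Preadditive T] [HasShift T ℤ] [∀ n : ℤ, (shiftFunctor T n).Additive]
    [Pretriangulated T] [HasCountableCoproducts T] in
theorem hm_comp (h : T ⥤ ModuleCat.{0} A) {X Y Z : T} (f : X ⟶ Y) (g : Y ⟶ Z) (x : h.obj X) :
    hm h (f ≫ g) x = hm h g (hm h f x) := by
  rw [hm, Functor.map_comp]
  rfl

variable {h : T ⥤ ModuleCat.{0} A} (E : IsLocHomology p h)

namespace IsLocHomology

include E

theorem additive : h.Additive := by
  have := E.homological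
  infer_instance

theorem hm_zero {X Y : T} (x : h.obj X) : hm h (0 : X ⟶ Y) x = 0 := by
  have := E.additive
  rw [hm, Functor.map_zero]
  rfl

theorem hm_nsmul {X Y : T} (m : ℕ) (f : X ⟶ Y) (x : h.obj X) :
    hm h (m • f) x = m • hm h f x := by
  have := E.additive
  rw [hm, Functor.map_nsmul]
  rfl

theorem hm_sub {X Y : T} (f g : X ⟶ Y) (x : h.obj X) :
    hm h (f - g) x = hm h f x - hm h g x := by
  have := E.additive
  rw [hm, Functor.map_sub]
  rfl

theorem hm_exact {X Y Z : T} {f : X ⟶ Y} {g : Y ⟶ Z} {k : Z ⟶ X⟦(1 : ℤ)⟧}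
    (hT : Triangle.mk f g k ∈ distTriang T) (y : h.obj Y) (h0 : hm h g y = 0) :
    ∃ x : h.obj X, hm h f x = y := by
  have := E.homological
  have h1 := Functor.IsHomological.exact (F := h) _ hT
  exact (ShortComplex.moduleCat_exact_iff _).1 h1 y h0

theorem hm_shift_inj {X Y : T} (f : X ⟶ Y) (hf : ∀ x : h.obj X, hm h f x = 0 → x = 0)
    (x : h.obj (X⟦(1 : ℤ)⟧)) (hx : hm h (f⟦(1 : ℤ)⟧') x = 0) : x = 0 := by
  obtain ⟨e⟩ := E.susp
  obtain ⟨σ, τ, h1, h2⟩ : ∃ (σ : ∀ Z : T, h.obj (Z⟦(1 : ℤ)⟧) →ₗ[A] h.obj Z)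
      (τ : ∀ Z : T, h.obj Z →ₗ[A] h.obj (Z⟦(1 : ℤ)⟧)),
      (∀ (Z : T) (z : h.obj (Z⟦(1 : ℤ)⟧)), τ Z (σ Z z) = z) ∧
      (σ Y (hm h (f⟦(1 : ℤ)⟧') x) = hm h f (σ X x)) :=
    ⟨fun Z => (e.hom.app Z).hom, fun Z => (e.inv.app Z).hom,
      fun Z z => congrArg (fun f => f.hom z) (e.hom_inv_id_app Z),
      congrArg (fun f => f.hom x) (e.hom.naturality f)⟩
  have h3 : σ X x = 0 := hf _ (by rw [← h2, hx, map_zero])
  rw [← h1 X x, h3, map_zero]

theorem smul_inj (X : T) {m : ℕ} (hm : Nat.Coprime m p) {x y : h.obj X} (hxy : m • x = m • y) :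
    x = y := by
  obtain ⟨c, hc⟩ := (E.isUnit m hm).exists_left_inv
  have h1 : ∀ z : h.obj X, z = c • (m • z) := by
    intro z
    rw [← Nat.cast_smul_eq_nsmul A, smul_smul, hc, one_smul]
  rw [h1 x, h1 y, hxy]

theorem smul_surj (X : T) {m : ℕ} (hm : Nat.Coprime m p) (x : h.obj X) :
    ∃ y : h.obj X, m • y = x := by
  obtain ⟨c, hc⟩ := (E.isUnit m hm).exists_right_inv
  refine ⟨c • x, ?_⟩
  rw [← Nat.cast_smul_eq_nsmul A, smul_smul, hc, one_smul]

theorem eq_zero_of_proj (Y : ℕ → T) (x : h.obj (∐ Y)) (h0 : ∀ k, hm h (sigmaProj Y k) x = 0) :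
    x = 0 := by
  obtain ⟨s, y, hy⟩ := E.coproduct Y x
  replace hy : x = ∑ i ∈ s, hm h (Sigma.ι Y i) (y i) := hy
  rw [hy]
  apply Finset.sum_eq_zero
  intro k hk
  have h1 := h0 k
  rw [hy, map_sum, Finset.sum_eq_single_of_mem k hk] at h1
  · rw [← hm_comp, ι_sigmaProj_self, hm_id] at h1
    rw [h1, map_zero]
  · intro i _ hik
    rw [← hm_comp, ι_sigmaProj_ne Y hik, E.hm_zero]

theorem eventually_zero (Y : ℕ → T) (x : h.obj (∐ Y)) :
    ∃ N, ∀ k, N ≤ k → hm h (sigmaProj Y k) x = 0 := by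
  obtain ⟨s, y, hy⟩ := E.coproduct Y x
  replace hy : x = ∑ i ∈ s, hm h (Sigma.ι Y i) (y i) := hy
  refine ⟨s.sup id + 1, fun k hk => ?_⟩
  rw [hy, map_sum]
  apply Finset.sum_eq_zero
  intro i hi
  have : i ≠ k := by
    have : i ≤ s.sup id := Finset.le_sup (f := id) hi
    omega
  rw [← hm_comp, ι_sigmaProj_ne Y this, E.hm_zero]

omit E in
theorem proj_zero (h : T ⥤ ModuleCat.{0} A) (c : ℕ → ℕ) (X : T) (x : h.obj (copies X)) :
    hm h (sigmaProj (fun _ : ℕ => X) 0) x =
      hm h (sigmaProj (fun _ : ℕ => X) 0) (hm h (telMap c X) x) := by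
  rw [← hm_comp, telMap_proj_zero]

theorem proj_succ (c : ℕ → ℕ) (X : T) (x : h.obj (copies X)) (n : ℕ) :
    hm h (sigmaProj (fun _ : ℕ => X) (n + 1)) x =
      hm h (sigmaProj (fun _ : ℕ => X) (n + 1)) (hm h (telMap c X) x) +
        c n • hm h (sigmaProj (fun _ : ℕ => X) n) x := by
  rw [← hm_comp, telMap_proj_succ, E.hm_sub, E.hm_nsmul]
  abel

theorem telMap_inj (c : ℕ → ℕ) (X : T) (x : h.obj (copies X)) (h0 : hm h (telMap c X) x = 0) :
    x = 0 := by
  apply E.eq_zero_of_proj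
  intro k
  induction k with
  | zero => rw [proj_zero h c, h0, map_zero]
  | succ k ih => rw [E.proj_succ c, h0, ih, map_zero, smul_zero, add_zero]

theorem tel_surj {c : ℕ → ℕ} {X T' : T} {q : copies X ⟶ T'} (hq : IsTel c X q) (z : h.obj T') :
    ∃ x, hm h q x = z := by
  obtain ⟨δ, hT⟩ := hq
  refine E.hm_exact (rot_of_distTriang _ hT) z ?_
  change hm h δ z = 0
  apply E.hm_shift_inj (telMap c X) (E.telMap_inj c X)
  rw [← hm_comp, tri_comp₃₁ hT, E.hm_zero]

/-- The map from an object to its telescope localization is bijective in homology. -/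
theorem tel_bijective {X T' : T} {q : copies X ⟶ T'} (hq : IsTel (pseq p) X q) :
    Function.Bijective (hm h (Sigma.ι (fun _ : ℕ => X) 0 ≫ q)) := by
  constructor
  · rw [injective_iff_map_eq_zero]
    intro x hx
    rw [hm_comp] at hx
    obtain ⟨δ, hT⟩ := hq
    obtain ⟨y, hy⟩ := E.hm_exact hT _ hx
    replace hy : hm h (telMap (pseq p) X) y = hm h (Sigma.ι (fun _ : ℕ => X) 0) x := hy
    have hk : ∀ k, hm h (sigmaProj (fun _ : ℕ => X) k) y =
        (∏ i ∈ Finset.Ico 0 k, pseq p i) • x := by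
      intro k
      induction k with
      | zero =>
        rw [proj_zero h (pseq p), hy, ← hm_comp, ι_sigmaProj_self, hm_id]
        simp
      | succ k ih =>
        rw [E.proj_succ (pseq p), hy, ← hm_comp, ι_sigmaProj_ne _ (Nat.succ_ne_zero k).symm,
          E.hm_zero, zero_add, ih, Finset.prod_Ico_succ_top (Nat.zero_le _), smul_smul, mul_comm]
    obtain ⟨N, hN⟩ := E.eventually_zero _ y
    have h1 := hN N le_rfl
    rw [hk] at h1
    exact E.smul_inj X (prod_pseq_coprime p 0 N) (by rw [h1, smul_zero])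
  · intro z
    obtain ⟨y, rfl⟩ := E.tel_surj hq z
    obtain ⟨s, x, hx⟩ := E.coproduct _ y
    replace hx : y = ∑ i ∈ s, hm h (Sigma.ι (fun _ : ℕ => X) i) (x i) := hx
    have h1 : ∀ i, ∃ w : h.obj X, (∏ k ∈ Finset.Ico 0 i, pseq p k) • w = x i := fun i =>
      E.smul_surj X (prod_pseq_coprime p 0 i) (x i)
    choose w hw using h1
    refine ⟨∑ i ∈ s, w i, ?_⟩
    rw [hx, map_sum, map_sum]
    refine Finset.sum_congr rfl fun i _ => ?_
    rw [hq.ι_comp_prod 0 i (Nat.zero_le _), E.hm_nsmul, ← map_nsmul, hw, hm_comp]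

/-- `p`-localizations are bijective in homology. -/
theorem localization_bijective {S : T} (hS : IsCompactObj S) (hgen : IsWeakGenerator S)
    {X Y : T} {ι : X ⟶ Y} (hι : IsPLocalization p ι) : Function.Bijective (h.map ι).hom := by
  obtain ⟨T', q, hT, hloc⟩ := exists_telescope (p := p) hS hgen X
  obtain ⟨e, he⟩ := hloc.unique hι
  have h1 : Function.Bijective (hm h e.hom) := by
    constructor
    · intro x y hxy
      rw [← hm_id h _ x, ← hm_id h _ y, ← e.hom_inv_id, hm_comp, hm_comp, hxy]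
    · intro y
      exact ⟨hm h e.inv y, by rw [← hm_comp, e.inv_hom_id, hm_id]⟩
  have h2 : ⇑(hm h ι) = hm h e.hom ∘ hm h (Sigma.ι (fun _ : ℕ => X) 0 ≫ q) := by
    rw [← he]
    funext x
    exact hm_comp h _ _ x
  change Function.Bijective (hm h ι)
  rw [h2]
  exact h1.comp (E.tel_bijective hT)

end IsLocHomology

end

end Vale.Agent.P257
end
end

section

section

/-!
Classes of objects built from shifts of an object `S`, and weight decompositions.
-/

namespace Vale.Agent.P257.K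

open CategoryTheory Limits Pretriangulated Triangulated

universe v' u

variable {T : Type u} [Category.{v'} T] [HasZeroObject T] [Preadditive T]
    [HasShift T ℤ] [∀ n : ℤ, (shiftFunctor T n).Additive] [Pretriangulated T]

/-- Objects built from the shifts `S⟦n⟧` with `P n`. -/
inductive Built (S : T) (P : ℤ → Prop) : T → Prop
  | shift (n : ℤ) (h : P n) : Built S P (S⟦n⟧)
  | extension (D : Triangle T) (hD : D ∈ distTriang T) (h₁ : Built S P D.obj₁)
      (h₃ : Built S P D.obj₃) : Built S P D.obj₂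
  | retract {X Y : T} (i : X ⟶ Y) (r : Y ⟶ X) (h : i ≫ r = 𝟙 X) (hY : Built S P Y) :
      Built S P X

namespace Built

variable {S : T} {P Q : ℤ → Prop}

theorem ofIso {X Y : T} (e : X ≅ Y) (h : Built S P Y) : Built S P X :=
  h.retract e.hom e.inv e.hom_inv_id

theorem mono (hPQ : ∀ n, P n → Q n) {X : T} (h : Built S P X) : Built S Q X := by
  induction h with
  | shift n h => exact .shift n (hPQ n h)
  | extension D hD _ _ h1 h3 => exact .extension D hD h1 h3
  | retract i r h _ ih => exact .retract i r h ih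

theorem zero {n : ℤ} (hn : P n) {X : T} (hX : IsZero X) : Built S P X :=
  (Built.shift n hn).retract 0 0 (hX.eq_of_src _ _)

theorem shiftObj (k : ℤ) {X : T} (h : Built S P X) : Built S (fun n => P (n - k)) (X⟦k⟧) := by
  induction h with
  | shift n h =>
    refine Built.ofIso ((shiftFunctorAdd' T n k (n + k) rfl).app S).symm (.shift (n + k) ?_)
    simpa using h
  | extension D hD _ _ h1 h3 =>
    exact .extension _ (Triangle.shift_distinguished D hD k) h1 h3
  | retract i r h _ ih =>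
    exact ih.retract (i⟦k⟧') (r⟦k⟧') (by rw [← Functor.map_comp, h, CategoryTheory.Functor.map_id])

theorem shiftOne {b : ℤ} {X : T} (h : Built S (fun n => b ≤ n) X) :
    Built S (fun n => b + 1 ≤ n) (X⟦(1 : ℤ)⟧) :=
  (h.shiftObj 1).mono fun n hn => by omega

theorem isFinite {X : T} (h : Built S P X) : IsFinite S X := by
  induction h with
  | shift n h => exact .shift n
  | extension D hD _ _ h1 h3 => exact .extension D hD h1 h3
  | retract i r h _ ih => exact .retract i r h ih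

theorem bounded {X : T} (h : IsFinite S X) : ∃ b c : ℤ, Built S (fun n => b ≤ n ∧ n ≤ c) X := by
  induction h with
  | shift n => exact ⟨n, n, .shift n ⟨le_rfl, le_rfl⟩⟩
  | extension D hD _ _ h1 h3 =>
    obtain ⟨b, c, h⟩ := h1
    obtain ⟨b', c', h'⟩ := h3
    exact ⟨min b b', max c c', .extension D hD (h.mono fun n hn => by omega)
      (h'.mono fun n hn => by omega)⟩
  | retract i r h _ ih =>
    obtain ⟨b, c, h'⟩ := ih
    exact ⟨b, c, h'.retract i r h⟩

end Built

/-- The orthogonality of shifts of `S`. -/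
def Connective (S : T) : Prop := ∀ (n : ℤ) (f : S ⟶ S⟦n⟧), 0 < n → f = 0

omit [HasZeroObject T] [Pretriangulated T] in
theorem Connective.shift_shift {S : T} (hS : Connective S) {i j : ℤ} (hij : i < j)
    (f : S⟦i⟧ ⟶ S⟦j⟧) : f = 0 := by
  obtain ⟨n, hn⟩ : ∃ n, n + i = j := ⟨j - i, by omega⟩
  let e := (shiftFunctorAdd' T n i j hn).app S
  have h1 : f ≫ e.hom = 0 := by
    obtain ⟨g, hg⟩ := (shiftFunctor T i).map_surjective (f ≫ e.hom)
    rw [← hg, hS n g (by omega), Functor.map_zero]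
  rw [← cancel_mono e.hom, h1, zero_comp]

theorem Connective.hom_zero {S : T} (hS : Connective S) {P Q : ℤ → Prop}
    (hPQ : ∀ i j, P i → Q j → i < j) {X Y : T} (hX : Built S P X) (hY : Built S Q Y)
    (f : X ⟶ Y) : f = 0 := by
  induction hX generalizing Y with
  | shift n hn =>
    induction hY with
    | shift m hm => exact hS.shift_shift (hPQ n m hn hm) f
    | extension D hD _ _ h1 h3 =>
      obtain ⟨g, hg⟩ := Triangle.coyoneda_exact₂ D hD f (h3 _)
      rw [hg, h1 g, zero_comp]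
    | retract i r h _ ih =>
      have := ih (f ≫ i)
      rw [← Category.comp_id f, ← h, ← Category.assoc, this, zero_comp]
  | extension D hD _ _ h1 h3 =>
    obtain ⟨g, hg⟩ := Triangle.yoneda_exact₂ D hD f (h1 hY _)
    rw [hg, h3 hY g, comp_zero]
  | retract i r h _ ih =>
    have := ih hY (r ≫ f)
    rw [← Category.id_comp f, ← h, Category.assoc, this, comp_zero]

theorem Built.decomp [IsTriangulated T] {S : T} (hS : Connective S) {b : ℤ} {X : T}
    (hX : Built S (fun n => b ≤ n) X) :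
    ∃ (A B : T) (f : A ⟶ X) (g : X ⟶ B) (h : B ⟶ A⟦(1 : ℤ)⟧),
      Triangle.mk f g h ∈ distTriang T ∧ Built S (fun n => n = b) A ∧
        Built S (fun n => b + 1 ≤ n) B := by
  induction hX with
  | shift n hn =>
    rcases hn.eq_or_lt with rfl | hn
    · exact ⟨_, _, _, _, _, contractible_distinguished (S⟦b⟧), .shift _ rfl,
        Built.zero (n := b + 1) le_rfl (isZero_zero T)⟩
    · exact ⟨_, _, _, _, _, contractible_distinguished₁ (S⟦n⟧),
        Built.zero (P := fun n => n = b) (n := b) rfl (isZero_zero T), .shift _ hn⟩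
  | extension D hD h₁ _ ih1 ih3 =>
    obtain ⟨A', B', a', b', c', hT', hA', hB'⟩ := ih1
    obtain ⟨A'', B'', a'', b'', c'', hT'', hA'', hB''⟩ := ih3
    obtain ⟨X₁, v₁, w₁, hX₁⟩ := distinguished_cocone_triangle (a' ≫ D.mor₁)
    have o₁ := someOctahedron rfl hT' hD hX₁
    have h0 : a'' ≫ D.mor₃ = 0 :=
      hS.hom_zero (P := fun n => n = b) (Q := fun n => b + 1 ≤ n)
        (fun i j hi hj => by omega) hA'' h₁.shiftOne _
    obtain ⟨x, hx⟩ := Triangle.coyoneda_exact₃ D hD a'' h0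
    obtain ⟨X₂, v₂, w₂, hX₂⟩ := distinguished_cocone_triangle (x ≫ v₁)
    have hcomp : (x ≫ v₁) ≫ o₁.m₃ = a'' := by
      rw [Category.assoc, o₁.comm₃, hx]
    have o₂ := someOctahedron hcomp hX₂ (rot_of_distTriang _ o₁.mem) hT''
    have hX₂B : Built S (fun n => b + 1 ≤ n) X₂ := by
      have h2 := inv_rot_of_distTriang _ o₂.mem
      refine Built.extension _ h2 ?_ hB''
      exact Built.ofIso ((shiftFunctorCompIsoId T (1 : ℤ) (-1) (by norm_num)).app B') hB'
    obtain ⟨W, v₃, w₃, hW⟩ := distinguished_cocone_triangle (v₁ ≫ v₂)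
    have o₃ := someOctahedron rfl (rot_of_distTriang _ hX₁) (rot_of_distTriang _ hX₂) hW
    have hWB : Built S (fun n => n = b + 1) W := by
      refine Built.extension _ o₃.mem ?_ ?_
      · exact (hA'.shiftObj 1).mono fun n hn => by omega
      · exact (hA''.shiftObj 1).mono fun n hn => by omega
    refine ⟨_, _, _, _, _, inv_rot_of_distTriang _ hW, ?_, hX₂B⟩
    exact (hWB.shiftObj (-1)).mono fun n hn => by omega
  | retract i r h hY ih =>
    obtain ⟨A, B, a, b', c, hT, hA, hB⟩ := ih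
    obtain ⟨C, v, w, hC⟩ := distinguished_cocone_triangle (a ≫ r)
    obtain ⟨K, v', w', hK⟩ := distinguished_cocone_triangle r
    have o := someOctahedron rfl hT hK hC
    have hv' : v' = 0 := by
      have := comp_distTriang_mor_zero₁₂ _ hK
      have h2 : i ≫ r ≫ v' = 0 := by
        have h3 : r ≫ v' = 0 := this
        rw [h3, comp_zero]
      rwa [← Category.assoc, h, Category.id_comp] at h2
    have hmono : Mono w' := (Triangle.mor₂_eq_zero_iff_mono₃ _ hK).1 hv'
    have hsplit := isSplitMono_of_mono w'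
    have hKB : Built S (fun n => b + 1 ≤ n) K :=
      hY.shiftOne.retract w' (retraction w') (IsSplitMono.id w')
    exact ⟨A, C, _, _, _, hC, hA, .extension _ o.mem hB hKB⟩

theorem Built.hom_zero_of {S : T} {b : ℤ} {A X : T} (hA : Built S (fun n => n = b) A)
    (h : ∀ f : S⟦b⟧ ⟶ X, f = 0) (f : A ⟶ X) : f = 0 := by
  induction hA with
  | shift n hn =>
    subst hn
    exact h f
  | extension D hD _ _ h1 h3 =>
    obtain ⟨g, hg⟩ := Triangle.yoneda_exact₂ D hD f (h1 _)
    rw [hg, h3 g, comp_zero]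
  | retract i r h' _ ih =>
    have := ih (r ≫ f)
    rw [← Category.id_comp f, ← h', Category.assoc, this, comp_zero]

theorem Built.raise [IsTriangulated T] {S : T} (hS : Connective S) {b : ℤ} {X : T}
    (hX : Built S (fun n => b ≤ n) X) (h : ∀ f : S⟦b⟧ ⟶ X, f = 0) :
    Built S (fun n => b + 1 ≤ n) X := by
  obtain ⟨A, B, f, g, k, hT, hA, hB⟩ := hX.decomp hS
  have hf : f = 0 := hA.hom_zero_of h f
  have hmono : Mono g := (Triangle.mor₁_eq_zero_iff_mono₂ _ hT).1 hf
  have hsplit := isSplitMono_of_mono g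
  exact hB.retract g (retraction g) (IsSplitMono.id g)

end Vale.Agent.P257.K
end
end

section

section

namespace Vale.Agent.P257

open DirectSum

/-- projection to homogeneous components -/
theorem exists_proj {M : Type*} [AddCommGroup M] (deg : ℤ → AddSubgroup M)
    (h : DirectSum.IsInternal deg) : ∃ π : ℤ → M →+ M, (∀ j m, π j m ∈ deg j) ∧
      (∀ j m, m ∈ deg j → π j m = m) ∧ (∀ i j m, m ∈ deg i → i ≠ j → π j m = 0) ∧
      ∀ m, (∀ j, π j m = 0) → m = 0 := by
  classical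
  let _ := h.chooseDecomposition
  refine ⟨fun j => ((deg j).subtype.comp (DFinsupp.evalAddMonoidHom j)).comp (DirectSum.decomposeAddEquiv deg).toAddMonoidHom, ?_, ?_, ?_, ?_⟩
  · intro j m
    exact Subtype.property _
  · intro j m hm
    exact DirectSum.decompose_of_mem_same deg hm
  · intro i j m hm hij
    exact DirectSum.decompose_of_mem_ne deg hm hij
  · intro m hm
    have : DirectSum.decompose deg m = 0 := by
      ext j
      exact hm j
    exact (DirectSum.decompose deg).injective (this.trans (DirectSum.decompose_zero _).symm)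

theorem exists_sum {M : Type*} [AddCommGroup M] (deg : ℤ → AddSubgroup M)
    (h : DirectSum.IsInternal deg) (m : M) :
    ∃ (s : Finset ℤ) (f : ℤ → M), (∀ j, f j ∈ deg j) ∧ m = ∑ j ∈ s, f j := by
  classical
  let _ := h.chooseDecomposition
  refine ⟨_, fun j => (DirectSum.decompose deg m j : M), fun j => Subtype.property _, (DirectSum.sum_support_decompose deg m).symm⟩

end Vale.Agent.P257
end
end

section

section

/-!
Basic properties of graded homology theories.
-/

namespace Vale.Agent.P257.K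

open CategoryTheory Limits Pretriangulated Triangulated

universe v' u

variable {R A : Type} [CommRing R] [CommRing A] [Algebra R A] {𝒜 : ℤ → Submodule R A}
  {T : Type u} [Category.{v'} T] [HasZeroObject T] [Preadditive T]
    [HasShift T ℤ] [∀ n : ℤ, (shiftFunctor T n).Additive] [Pretriangulated T]

namespace GHom

variable (E : GHom 𝒜 T)

/-- the total homology -/
abbrev H (X : T) : Type := E.h.obj X

/-- homology in degree `j` -/
abbrev gr (X : T) (j : ℤ) : AddSubgroup (E.H X) := E.deg X j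

/-- the induced map in homology -/
noncomputable def mapH {X Y : T} (f : X ⟶ Y) : E.H X →ₗ[A] E.H Y := (E.h.map f).hom

theorem mapH_id (X : T) (x : E.H X) : E.mapH (𝟙 X) x = x := by
  rw [mapH, CategoryTheory.Functor.map_id]
  rfl

theorem mapH_comp {X Y Z : T} (f : X ⟶ Y) (g : Y ⟶ Z) (x : E.H X) :
    E.mapH (f ≫ g) x = E.mapH g (E.mapH f x) := by
  rw [mapH, Functor.map_comp]
  rfl

theorem mapH_add {X Y : T} (f g : X ⟶ Y) (x : E.H X) :
    E.mapH (f + g) x = E.mapH f x + E.mapH g x := by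
  have := E.hom
  rw [mapH, Functor.map_add]
  rfl

theorem mapH_zero {X Y : T} (x : E.H X) : E.mapH (0 : X ⟶ Y) x = 0 := by
  have h := E.mapH_add (0 : X ⟶ Y) 0 x
  rw [add_zero] at h
  exact left_eq_add.1 h

theorem mapH_gr {X Y : T} (f : X ⟶ Y) {j : ℤ} {x : E.H X} (hx : x ∈ E.gr X j) :
    E.mapH f x ∈ E.gr Y j := E.map_mem f j x hx

theorem exact {X Y Z : T} {f : X ⟶ Y} {g : Y ⟶ Z} {h : Z ⟶ X⟦(1 : ℤ)⟧}
    (hT : Triangle.mk f g h ∈ distTriang T) : Function.Exact (E.mapH f) (E.mapH g) := by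
  have := E.hom
  exact (ShortComplex.ShortExact.moduleCat_exact_iff_function_exact _).1 (E.h.map_distinguished_exact _ hT)

/-- the suspension isomorphism -/
noncomputable def sig (X : T) : E.H (X⟦(1 : ℤ)⟧) →ₗ[A] E.H X :=
  (E.σ.inv.app X).hom

/-- the inverse suspension isomorphism -/
noncomputable def tau (X : T) : E.H X →ₗ[A] E.H (X⟦(1 : ℤ)⟧) :=
  (E.σ.hom.app X).hom

theorem sig_tau (X : T) (x : E.H X) : E.sig X (E.tau X x) = x := by
  have h := E.σ.hom_inv_id_app X
  have h' := congrArg (fun f => f.hom x) h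
  exact h'

theorem tau_sig (X : T) (x : E.H (X⟦(1 : ℤ)⟧)) : E.tau X (E.sig X x) = x := by
  have h := E.σ.inv_hom_id_app X
  have h' := congrArg (fun f => f.hom x) h
  exact h'

theorem tau_gr {X : T} {j : ℤ} {x : E.H X} (hx : x ∈ E.gr X j) :
    E.tau X x ∈ E.gr (X⟦(1 : ℤ)⟧) (j + 1) := E.σ_mem X j x hx

theorem sig_nat {X Y : T} (f : X ⟶ Y) (x : E.H (X⟦(1 : ℤ)⟧)) :
    E.sig Y (E.mapH (f⟦(1 : ℤ)⟧') x) = E.mapH f (E.sig X x) := by
  have h := E.σ.inv.naturality f
  have h' := congrArg (fun f => f.hom x) h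
  exact h'

theorem tau_nat {X Y : T} (f : X ⟶ Y) (x : E.H X) :
    E.tau Y (E.mapH f x) = E.mapH (f⟦(1 : ℤ)⟧') (E.tau X x) := by
  have h := E.σ.hom.naturality f
  have h' := congrArg (fun f => f.hom x) h
  exact h'

/-- projections on graded pieces -/
noncomputable def pr (X : T) : ℤ → E.H X →+ E.H X :=
  Classical.choose (exists_proj _ (E.isInternal X))

theorem pr_mem (X : T) (j : ℤ) (x : E.H X) : E.pr X j x ∈ E.gr X j :=
  (Classical.choose_spec (exists_proj _ (E.isInternal X))).1 j x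

theorem pr_same {X : T} {j : ℤ} {x : E.H X} (hx : x ∈ E.gr X j) : E.pr X j x = x :=
  (Classical.choose_spec (exists_proj _ (E.isInternal X))).2.1 j x hx

theorem pr_ne {X : T} {i j : ℤ} {x : E.H X} (hx : x ∈ E.gr X i) (hij : i ≠ j) :
    E.pr X j x = 0 :=
  (Classical.choose_spec (exists_proj _ (E.isInternal X))).2.2.1 i j x hx hij

theorem exists_sum_gr (X : T) (x : E.H X) :
    ∃ (s : Finset ℤ) (f : ℤ → E.H X), (∀ j, f j ∈ E.gr X j) ∧ x = ∑ j ∈ s, f j :=
  exists_sum _ (E.isInternal X) x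

theorem sig_gr {X : T} {j : ℤ} {x : E.H (X⟦(1 : ℤ)⟧)} (hx : x ∈ E.gr (X⟦(1 : ℤ)⟧) j) :
    E.sig X x ∈ E.gr X (j - 1) := by
  have key : ∀ (i : ℤ) (y : E.H X), E.pr (X⟦(1 : ℤ)⟧) (i + 1) (E.tau X y) =
      E.tau X (E.pr X i y) := by
    intro i y
    obtain ⟨s, g, hg, rfl⟩ := E.exists_sum_gr X y
    simp only [map_sum]
    refine Finset.sum_congr rfl fun k _ => ?_
    by_cases hij : k = i
    · subst hij
      rw [E.pr_same (hg k), E.pr_same (E.tau_gr (hg k))]
    · rw [E.pr_ne (hg k) hij, E.pr_ne (E.tau_gr (hg k)) (by omega), map_zero]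
  have h1 := key (j - 1) (E.sig X x)
  rw [E.tau_sig, sub_add_cancel, E.pr_same hx] at h1
  rw [h1, E.sig_tau]
  exact E.pr_mem X _ _

theorem pr_map {X Y : T} (f : X ⟶ Y) (j : ℤ) (x : E.H X) :
    E.pr Y j (E.mapH f x) = E.mapH f (E.pr X j x) := by
  obtain ⟨s, g, hg, rfl⟩ := E.exists_sum_gr X x
  simp only [map_sum]
  refine Finset.sum_congr rfl fun i _ => ?_
  by_cases hij : i = j
  · subst hij
    rw [E.pr_same (hg i), E.pr_same (E.mapH_gr f (hg i))]
  · rw [E.pr_ne (hg i) hij, E.pr_ne (E.mapH_gr f (hg i)) hij, map_zero]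

/-- exactness at the middle term, in a given degree -/
theorem exact₂ {X Y Z : T} {f : X ⟶ Y} {g : Y ⟶ Z} {h : Z ⟶ X⟦(1 : ℤ)⟧}
    (hT : Triangle.mk f g h ∈ distTriang T) {j : ℤ} {y : E.H Y} (hy : y ∈ E.gr Y j)
    (h0 : E.mapH g y = 0) : ∃ x ∈ E.gr X j, E.mapH f x = y := by
  obtain ⟨x, hx⟩ : ∃ x : E.H X, E.mapH f x = y := (E.exact hT y).1 h0
  refine ⟨E.pr X j x, E.pr_mem X j x, ?_⟩
  rw [← E.pr_map, hx, E.pr_same hy]

theorem comp_zero₂ {X Y Z : T} {f : X ⟶ Y} {g : Y ⟶ Z} {h : Z ⟶ X⟦(1 : ℤ)⟧}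
    (hT : Triangle.mk f g h ∈ distTriang T) (x : E.H X) : E.mapH g (E.mapH f x) = 0 :=
  (E.exact hT _).2 ⟨x, rfl⟩

/-- the connecting map -/
noncomputable def del {X Z : T} (h : Z ⟶ X⟦(1 : ℤ)⟧) : E.H Z →ₗ[A] E.H X :=
  (E.sig X).comp (E.mapH h)

theorem del_apply {X Z : T} (h : Z ⟶ X⟦(1 : ℤ)⟧) (z : E.H Z) :
    E.del h z = E.sig X (E.mapH h z) := rfl

theorem del_gr {X Z : T} (h : Z ⟶ X⟦(1 : ℤ)⟧) {j : ℤ} {z : E.H Z} (hz : z ∈ E.gr Z j) :
    E.del h z ∈ E.gr X (j - 1) := E.sig_gr (E.mapH_gr h hz)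

theorem sig_inj {X : T} {x : E.H (X⟦(1 : ℤ)⟧)} (h : E.sig X x = 0) : x = 0 := by
  rw [← E.tau_sig X x, h, map_zero]

/-- exactness at the third term, in a given degree -/
theorem exact₃ {X Y Z : T} {f : X ⟶ Y} {g : Y ⟶ Z} {h : Z ⟶ X⟦(1 : ℤ)⟧}
    (hT : Triangle.mk f g h ∈ distTriang T) {j : ℤ} {z : E.H Z} (hz : z ∈ E.gr Z j)
    (h0 : E.del h z = 0) : ∃ y ∈ E.gr Y j, E.mapH g y = z :=
  E.exact₂ (rot_of_distTriang _ hT) hz (E.sig_inj h0)

theorem comp_zero₃ {X Y Z : T} {f : X ⟶ Y} {g : Y ⟶ Z} {h : Z ⟶ X⟦(1 : ℤ)⟧}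
    (hT : Triangle.mk f g h ∈ distTriang T) (y : E.H Y) : E.del h (E.mapH g y) = 0 := by
  have h1 : E.mapH h (E.mapH g y) = 0 := E.comp_zero₂ (rot_of_distTriang _ hT) y
  rw [del_apply, h1, map_zero]

theorem mapH_neg {X Y : T} (f : X ⟶ Y) (x : E.H X) : E.mapH (-f) x = -E.mapH f x := by
  have h := E.mapH_add f (-f) x
  rw [add_neg_cancel, mapH_zero] at h
  exact (neg_eq_of_add_eq_zero_right h.symm).symm

/-- exactness at the first term, in a given degree -/
theorem exact₁ {X Y Z : T} {f : X ⟶ Y} {g : Y ⟶ Z} {h : Z ⟶ X⟦(1 : ℤ)⟧}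
    (hT : Triangle.mk f g h ∈ distTriang T) {j : ℤ} {x : E.H X} (hx : x ∈ E.gr X j)
    (h0 : E.mapH f x = 0) : ∃ z ∈ E.gr Z (j + 1), E.del h z = x := by
  have h1 := rot_of_distTriang _ (rot_of_distTriang _ hT)
  obtain ⟨z, hz, hz'⟩ : ∃ z ∈ E.gr Z (j + 1), E.mapH h z = E.tau X x :=
    E.exact₂ h1 (E.tau_gr hx) (by
      change E.mapH (-f⟦(1 : ℤ)⟧') (E.tau X x) = 0
      rw [E.mapH_neg, ← E.tau_nat, h0, map_zero, neg_zero])
  exact ⟨z, hz, by rw [del_apply, hz', E.sig_tau]⟩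

theorem exact₁' {X Y Z : T} {f : X ⟶ Y} {g : Y ⟶ Z} {h : Z ⟶ X⟦(1 : ℤ)⟧}
    (hT : Triangle.mk f g h ∈ distTriang T) {x : E.H X}
    (h0 : E.mapH f x = 0) : ∃ z, E.del h z = x := by
  have h1 := rot_of_distTriang _ (rot_of_distTriang _ hT)
  obtain ⟨z, hz'⟩ : ∃ z : E.H Z, E.mapH h z = E.tau X x :=
    (E.exact h1 (E.tau X x)).1 (by
      change E.mapH (-f⟦(1 : ℤ)⟧') (E.tau X x) = 0
      rw [E.mapH_neg, ← E.tau_nat, h0, map_zero, neg_zero])
  exact ⟨z, by rw [del_apply, hz', E.sig_tau]⟩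

theorem exact₂' {X Y Z : T} {f : X ⟶ Y} {g : Y ⟶ Z} {h : Z ⟶ X⟦(1 : ℤ)⟧}
    (hT : Triangle.mk f g h ∈ distTriang T) {y : E.H Y}
    (h0 : E.mapH g y = 0) : ∃ x, E.mapH f x = y :=
  (E.exact hT y).1 h0

theorem comp_zero₁ {X Y Z : T} {f : X ⟶ Y} {g : Y ⟶ Z} {h : Z ⟶ X⟦(1 : ℤ)⟧}
    (hT : Triangle.mk f g h ∈ distTriang T) (z : E.H Z) : E.mapH f (E.del h z) = 0 := by
  rw [del_apply, ← E.sig_nat, ← E.mapH_comp]
  have := comp_distTriang_mor_zero₃₁ _ hT
  have h2 : h ≫ f⟦(1 : ℤ)⟧' = 0 := this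
  rw [h2, mapH_zero, map_zero]

end GHom

end Vale.Agent.P257.K
end
end

section

section

/-!
Cyclic modules and their generators.
-/

namespace Vale.Agent.P257.K

open CategoryTheory Limits Pretriangulated Triangulated

universe v' u

variable {R A : Type} [CommRing R] [CommRing A] [Algebra R A] {𝒜 : ℤ → Submodule R A}
  {T : Type u} [Category.{v'} T] [HasZeroObject T] [Preadditive T]
    [HasShift T ℤ] [∀ n : ℤ, (shiftFunctor T n).Additive] [Pretriangulated T]

namespace GHom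

variable (E : GHom 𝒜 T)

/-- homogeneous coefficients -/
theorem exists_homog [GradedAlgebra 𝒜] {X : T} {d j : ℤ} {x : E.H X} (hx : x ∈ E.gr X d) {a : A}
    (h : a • x ∈ E.gr X j) : ∃ b ∈ 𝒜 (j - d), a • x = b • x := by
  classical
  refine ⟨(DirectSum.decompose 𝒜 a (j - d) : A), Subtype.property _, ?_⟩
  rw [← E.pr_same h]
  conv_lhs => rw [← DirectSum.sum_support_decompose 𝒜 a]
  rw [Finset.sum_smul, map_sum]
  have hmem : ∀ i, (DirectSum.decompose 𝒜 a i : A) • x ∈ E.gr X (i + d) := fun i =>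
    E.smul_mem X i d _ x (Subtype.property _) hx
  by_cases hj : j - d ∈ (DirectSum.decompose 𝒜 a).support
  · rw [Finset.sum_eq_single_of_mem (j - d) hj]
    · exact E.pr_same (by have := hmem (j - d); rwa [sub_add_cancel] at this)
    · intro i _ hij
      exact E.pr_ne (hmem i) (by omega)
  · rw [Finset.sum_eq_zero]
    · rw [DFinsupp.notMem_support_iff.1 hj]
      simp
    · intro i hi
      have hij : i ≠ j - d := fun h => hj (h ▸ hi)
      exact E.pr_ne (hmem i) (by omega)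

/-- the homology of `X` is `A/J`, generated by `x` in degree `d₀`. -/
structure Cyc (X : T) (d₀ : ℤ) (x : E.H X) (J : Ideal A) : Prop where
  mem : x ∈ E.gr X d₀
  span : ∀ y : E.H X, ∃ a : A, y = a • x
  ann : ∀ a : A, a • x = 0 ↔ a ∈ J

variable {E}

theorem Cyc.span' [GradedAlgebra 𝒜] {X : T} {d₀ : ℤ} {x : E.H X} {J : Ideal A}
    (h : E.Cyc X d₀ x J) {j : ℤ} {y : E.H X} (hy : y ∈ E.gr X j) :
    ∃ a ∈ 𝒜 (j - d₀), y = a • x := by
  obtain ⟨a, rfl⟩ := h.span y
  exact E.exists_homog h.mem hy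

theorem Cyc.tau {X : T} {d : ℤ} {x : E.H X} {J : Ideal A} (h : E.Cyc X d x J) :
    E.Cyc (X⟦(1 : ℤ)⟧) (d + 1) (E.tau X x) J := by
  refine ⟨E.tau_gr h.mem, fun y => ?_, fun a => ?_⟩
  · obtain ⟨a, ha⟩ := h.span (E.sig X y)
    exact ⟨a, by rw [← map_smul, ← ha, E.tau_sig]⟩
  · rw [← map_smul, ← h.ann]
    constructor
    · intro h1
      rw [← E.sig_tau X (a • x), h1, map_zero]
    · intro h1
      rw [h1, map_zero]

theorem Cyc.sig {X : T} {d : ℤ} {x : E.H (X⟦(1 : ℤ)⟧)} {J : Ideal A}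
    (h : E.Cyc (X⟦(1 : ℤ)⟧) d x J) : E.Cyc X (d - 1) (E.sig X x) J := by
  refine ⟨E.sig_gr h.mem, fun y => ?_, fun a => ?_⟩
  · obtain ⟨a, ha⟩ := h.span (E.tau X y)
    exact ⟨a, by rw [← map_smul, ← ha, E.sig_tau]⟩
  · rw [← map_smul, ← h.ann]
    constructor
    · intro h1
      exact E.sig_inj h1
    · intro h1
      rw [h1, map_zero]

theorem Cyc.iso {X Y : T} (e : X ≅ Y) {d : ℤ} {x : E.H X} {J : Ideal A}
    (h : E.Cyc X d x J) : E.Cyc Y d (E.mapH e.hom x) J := by
  refine ⟨E.mapH_gr _ h.mem, fun y => ?_, fun a => ?_⟩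
  · obtain ⟨a, ha⟩ := h.span (E.mapH e.inv y)
    exact ⟨a, by rw [← map_smul, ← ha, ← E.mapH_comp, e.inv_hom_id, E.mapH_id]⟩
  · rw [← map_smul, ← h.ann]
    constructor
    · intro h1
      rw [← E.mapH_id X (a • x), ← e.hom_inv_id, E.mapH_comp, h1, map_zero]
    · intro h1
      rw [h1, map_zero]

theorem Cyc.neg {X : T} {d : ℤ} {x : E.H X} {J : Ideal A} (h : E.Cyc X d x J) :
    E.Cyc X d (-x) J := by
  refine ⟨neg_mem h.mem, fun y => ?_, fun a => ?_⟩
  · obtain ⟨a, rfl⟩ := h.span y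
    exact ⟨-a, by rw [neg_smul_neg]⟩
  · rw [smul_neg, neg_eq_zero]
    exact h.ann a

theorem Cyc.exists_shift {X : T} {d : ℤ} {x : E.H X} {J : Ideal A} (h : E.Cyc X d x J)
    (k : ℤ) : ∃ x', E.Cyc (X⟦k⟧) (d + k) x' J := by
  induction k using Int.induction_on with
  | zero =>
    have := h.iso ((shiftFunctorZero T ℤ).symm.app X)
    rw [add_zero]
    exact ⟨_, this⟩
  | succ k ih =>
    obtain ⟨x', hx'⟩ := ih
    have := hx'.tau.iso ((shiftFunctorAdd T (k : ℤ) 1).symm.app X)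
    rw [add_assoc] at this
    exact ⟨_, this⟩
  | pred k ih =>
    obtain ⟨x', hx'⟩ := ih
    have := (hx'.iso ((shiftFunctorAdd' T (-(k : ℤ) - 1) 1 (-(k : ℤ)) (by ring)).app X)).sig
    rw [add_sub_assoc] at this
    exact ⟨_, this⟩

variable (E)

/-- A sphere of dimension `d` with a fundamental class. -/
structure Sph (d : ℤ) (S : T) (i : E.H S) : Prop where
  iso : Nonempty (S ≅ E.sphere⟦d⟧)
  gen : E.Cyc S d i ⊥

theorem exists_gen_sphere : ∃ x, E.Cyc E.sphere 0 x ⊥ :=
  ⟨E.gen, E.gen_mem, E.gen_span, fun a => by rw [E.gen_ann, Ideal.mem_bot]⟩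

theorem exists_sph (d : ℤ) : ∃ i, E.Sph d (E.sphere⟦d⟧) i := by
  obtain ⟨x, hx⟩ := E.exists_gen_sphere
  obtain ⟨x', hx'⟩ := hx.exists_shift d
  rw [zero_add] at hx'
  exact ⟨x', ⟨Iso.refl _⟩, hx'⟩

variable {E}

theorem Sph.susp {d : ℤ} {S : T} {i : E.H S} (h : E.Sph d S i) :
    E.Sph (d + 1) (S⟦(1 : ℤ)⟧) (E.tau S i) := by
  obtain ⟨e⟩ := h.iso
  exact ⟨⟨(shiftFunctor T (1 : ℤ)).mapIso e ≪≫ (shiftFunctorAdd T d 1).symm.app E.sphere⟩,
    h.gen.tau⟩

theorem Sph.desusp {d : ℤ} {S' : T} {i' : E.H S'} (h : E.Sph (d + 1) S' i') :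
    ∃ (S : T) (i : E.H S) (e : S⟦(1 : ℤ)⟧ ≅ S'), E.Sph d S i ∧ E.mapH e.hom (E.tau S i) = i' := by
  obtain ⟨e'⟩ := h.iso
  let S := S'⟦(-1 : ℤ)⟧
  let e : S⟦(1 : ℤ)⟧ ≅ S' := (shiftFunctorCompIsoId T (-1 : ℤ) 1 (by norm_num)).app S'
  refine ⟨S, E.sig S (E.mapH e.inv i'), e, ⟨⟨?_⟩, ?_⟩, ?_⟩
  · exact (shiftFunctor T (-1 : ℤ)).mapIso e' ≪≫
      (shiftFunctorAdd' T (d + 1) (-1) d (by ring)).symm.app E.sphere
  · have := (h.gen.iso e.symm).sig
    rwa [add_sub_cancel_right] at this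
  · rw [E.tau_sig, ← E.mapH_comp, Iso.inv_hom_id, E.mapH_id]

variable (E)

/-- The Hurewicz theorem for the sphere. -/
theorem end_sphere [GradedAlgebra 𝒜] {d : ℤ} {S : T} {i : E.H S} (hS : E.Sph d S i) :
    (∀ f : S ⟶ S, E.mapH f i = 0 → f = 0) ∧
      ∀ a ∈ 𝒜 0, ∃ f : S ⟶ S, E.mapH f i = a • i := by
  obtain ⟨u⟩ := hS.iso
  -- transport along shifts
  have key : ∀ (k : ℕ) (d : ℤ) (S : T) (i : E.H S), E.Sph d S i → d = k ∨ d = -k →
      (∀ f : S ⟶ S, E.mapH f i = 0 → f = 0) ∧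
        ∀ a ∈ 𝒜 0, ∃ f : S ⟶ S, E.mapH f i = a • i := by
    intro k
    induction k with
    | zero =>
      intro d S i hS hd
      obtain rfl : d = 0 := by omega
      obtain ⟨u⟩ := hS.iso
      let w : S ≅ E.sphere := u ≪≫ (shiftFunctorZero T ℤ).app E.sphere
      -- `i` is a multiple of the image of `gen`
      have hgen := E.exists_gen_sphere
      obtain ⟨a, ha⟩ := hS.gen.span (E.mapH w.inv E.gen)
      obtain ⟨b, hb⟩ := E.gen_span (E.mapH w.hom i)
      have h1 : ∀ f : S ⟶ S, E.mapH (w.inv ≫ f ≫ w.hom) E.gen = a • E.mapH w.hom (E.mapH f i) := by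
        intro f
        rw [E.mapH_comp, E.mapH_comp, ha, map_smul, map_smul]
      have hab : (b * a) • i = i := by
        rw [mul_smul, ← ha, ← map_smul, ← hb, ← E.mapH_comp, w.hom_inv_id, E.mapH_id]
      constructor
      · intro f hf
        have h2 : w.inv ≫ f ≫ w.hom = 0 := E.end_inj _ (by
          have := h1 f
          rw [hf, map_zero, smul_zero] at this
          exact this)
        rw [← cancel_epi w.inv, ← cancel_mono w.hom, Category.assoc, h2]
        simp
      · intro c hc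
        obtain ⟨g, hg⟩ := E.end_surj c hc
        refine ⟨w.hom ≫ g ≫ w.inv, ?_⟩
        have hg' : E.mapH g E.gen = c • E.gen := hg
        rw [E.mapH_comp, E.mapH_comp, hb, map_smul, hg', map_smul, map_smul, ha, smul_smul,
          smul_smul, show b * c * a = c * (b * a) by ring, mul_smul, hab]
    | succ k ih =>
      intro d S i hS hd
      rcases hd with rfl | rfl
      · push_cast at hS
        obtain ⟨S₀, i₀, e, hS₀, he⟩ := hS.desusp
        obtain ⟨h1, h2⟩ := ih _ _ _ hS₀ (Or.inl rfl)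
        constructor
        · intro f hf
          obtain ⟨g, hg⟩ := (shiftFunctor T (1 : ℤ)).map_surjective (e.hom ≫ f ≫ e.inv)
          have h3 : E.mapH g i₀ = 0 := by
            rw [← E.sig_tau _ (E.mapH g i₀), E.tau_nat, hg, E.mapH_comp, he, E.mapH_comp, hf,
              map_zero, map_zero]
          rw [h1 g h3, Functor.map_zero] at hg
          rw [← cancel_epi e.hom, ← cancel_mono e.inv, Category.assoc, ← hg]
          simp
        · intro a ha
          obtain ⟨g, hg⟩ := h2 a ha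
          refine ⟨e.inv ≫ g⟦(1 : ℤ)⟧' ≫ e.hom, ?_⟩
          have h3 : E.mapH e.inv i = E.tau S₀ i₀ := by
            rw [← he, ← E.mapH_comp, e.hom_inv_id, E.mapH_id]
          rw [E.mapH_comp, E.mapH_comp, h3, ← E.tau_nat, hg, map_smul, map_smul, he]
      · have hS' := hS.susp
        have h0 : (-((k + 1 : ℕ) : ℤ)) + 1 = -(k : ℤ) := by push_cast; ring
        rw [h0] at hS'
        obtain ⟨h1, h2⟩ := ih _ _ _ hS' (Or.inr rfl)
        constructor
        · intro f hf
          have h3 := h1 (f⟦(1 : ℤ)⟧') (by rw [← E.tau_nat, hf, map_zero])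
          apply (shiftFunctor T (1 : ℤ)).map_injective
          rw [h3, Functor.map_zero]
        · intro a ha
          obtain ⟨g, hg⟩ := h2 a ha
          obtain ⟨f, rfl⟩ := (shiftFunctor T (1 : ℤ)).map_surjective g
          refine ⟨f, ?_⟩
          rw [← E.tau_nat] at hg
          have h4 := congrArg (E.sig S) hg
          rwa [map_smul, E.sig_tau, E.sig_tau] at h4
  rcases le_total 0 d with h | h
  · exact key d.toNat d S i hS (Or.inl (by omega))
  · exact key (-d).toNat d S i hS (Or.inr (by omega))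

end GHom

end Vale.Agent.P257.K
end
end

section

section

/-!
The Hurewicz theorem for graded homology theories.
-/

namespace Vale.Agent.P257.K

open CategoryTheory Limits Pretriangulated Triangulated

universe v' u

variable {R A : Type} [CommRing R] [CommRing A] [Algebra R A] {𝒜 : ℤ → Submodule R A}
  [GradedAlgebra 𝒜]
  {T : Type u} [Category.{v'} T] [HasZeroObject T] [Preadditive T]
    [HasShift T ℤ] [∀ n : ℤ, (shiftFunctor T n).Additive] [Pretriangulated T]

namespace GHom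

variable (E : GHom 𝒜 T)

/-- injectivity of the Hurewicz map in degree `b` -/
def HurInj (b : ℤ) (X : T) : Prop :=
  ∀ S i, E.Sph b S i → ∀ f : S ⟶ X, E.mapH f i = 0 → f = 0

/-- surjectivity of the Hurewicz map in degree `b` -/
def HurSurj (b : ℤ) (X : T) : Prop :=
  ∀ S i, E.Sph b S i → ∀ y ∈ E.gr X b, ∃ f : S ⟶ X, E.mapH f i = y

theorem hurInj_sphere (b : ℤ) : E.HurInj b (E.sphere⟦b⟧) := by
  intro S i hS f hf
  obtain ⟨u⟩ := hS.iso
  have h1 := (E.end_sphere hS).1 (f ≫ u.inv) (by rw [E.mapH_comp, hf, map_zero])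
  rw [← cancel_mono u.inv, h1, zero_comp]

theorem gr_of_gen {X : T} {d j : ℤ} {x : E.H X} {J : Ideal A} (h : E.Cyc X d x J)
    {y : E.H X} (hy : y ∈ E.gr X j) : ∃ a ∈ 𝒜 (j - d), y = a • x := h.span' hy

theorem gr_zero_of_gen {X : T} {d j : ℤ} {x : E.H X} {J : Ideal A} (h : E.Cyc X d x J)
    (hj : j < d) {y : E.H X} (hy : y ∈ E.gr X j) : y = 0 := by
  obtain ⟨a, ha, rfl⟩ := E.gr_of_gen h hy
  rw [E.neg _ (by omega) a ha, zero_smul]

theorem gr_one_of_gen {X : T} {d : ℤ} {x : E.H X} {J : Ideal A} (h : E.Cyc X d x J)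
    {y : E.H X} (hy : y ∈ E.gr X (d + 1)) : y = 0 := by
  obtain ⟨a, ha, rfl⟩ := E.gr_of_gen h hy
  rw [add_sub_cancel_left] at ha
  rw [E.one a ha, zero_smul]

theorem hurSurj_sphere (b : ℤ) : E.HurSurj b (E.sphere⟦b⟧) := by
  intro S i hS y hy
  obtain ⟨u⟩ := hS.iso
  obtain ⟨a, ha, rfl⟩ := E.gr_of_gen (hS.gen.iso u) hy
  rw [sub_self] at ha
  obtain ⟨f, hf⟩ := (E.end_sphere hS).2 a ha
  exact ⟨f ≫ u.hom, by rw [E.mapH_comp, hf, map_smul]⟩

/-- The Hurewicz package. -/
structure Hur (b : ℤ) (X : T) : Prop where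
  built : Built E.sphere (fun n => b ≤ n) X
  zero : ∀ j < b, ∀ y ∈ E.gr X j, y = 0
  inj : E.HurInj b X
  surj : E.HurSurj b X
  surj' : E.HurSurj (b + 1) X

theorem hom_zero_of_sph {b d : ℤ} (h : b < d) {S : T} {i : E.H S} (hS : E.Sph b S i) {X : T}
    (hX : Built E.sphere (fun n => d ≤ n) X) (f : S ⟶ X) : f = 0 := by
  obtain ⟨u⟩ := hS.iso
  have hS' : Built E.sphere (fun n => n = b) S := Built.ofIso u (.shift b rfl)
  exact Connective.hom_zero E.connective (fun i j hi hj => by omega) hS' hX f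

theorem hur_of_built {b : ℤ} {X : T} (hX : Built E.sphere (fun n => b ≤ n) X) : E.Hur b X := by
  induction hX with
  | shift n hn =>
    obtain ⟨i₀, h₀⟩ := E.exists_sph n
    have hz : ∀ j < n, ∀ y ∈ E.gr (E.sphere⟦n⟧) j, y = 0 := fun j hj y hy =>
      E.gr_zero_of_gen h₀.gen hj hy
    have hB : Built E.sphere (fun m => b ≤ m) (E.sphere⟦n⟧) := .shift n hn
    refine ⟨hB, fun j hj => hz j (lt_of_lt_of_le hj hn), ?_, ?_, ?_⟩
    · rcases hn.eq_or_lt with rfl | hn
      · exact E.hurInj_sphere b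
      · intro S i hS f _
        exact E.hom_zero_of_sph hn hS (.shift n le_rfl) f
    · rcases hn.eq_or_lt with rfl | hn
      · exact E.hurSurj_sphere b
      · intro S i hS y hy
        exact ⟨0, by rw [E.mapH_zero, hz b hn y hy]⟩
    · rcases hn.eq_or_lt with rfl | hn
      · intro S i hS y hy
        exact ⟨0, by rw [E.mapH_zero, E.gr_one_of_gen h₀.gen hy]⟩
      · rcases (show b + 1 ≤ n from hn).eq_or_lt with rfl | hn'
        · exact E.hurSurj_sphere (b + 1)
        · intro S i hS y hy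
          exact ⟨0, by rw [E.mapH_zero, hz _ hn' y hy]⟩
  | extension D hD h₁ h₃ ih1 ih3 =>
    obtain ⟨A, X, B, f, g, h⟩ := D
    dsimp only at h₁ h₃ ih1 ih3
    change E.Hur b X
    change Triangle.mk f g h ∈ distTriang T at hD
    refine ⟨.extension _ hD h₁ h₃, ?_, ?_, ?_, ?_⟩
    · intro j hj y hy
      obtain ⟨x, hx, rfl⟩ := E.exact₂ hD hy (ih3.zero j hj _ (E.mapH_gr g hy))
      rw [ih1.zero j hj x hx, map_zero]
    · intro S i hS k hk
      have h1 : k ≫ g = 0 := ih3.inj S i hS _ (by rw [E.mapH_comp, hk, map_zero])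
      obtain ⟨k', hk'⟩ : ∃ k' : S ⟶ A, k = k' ≫ f := Triangle.coyoneda_exact₂ _ hD k h1
      obtain ⟨z, hz, hz'⟩ := E.exact₁ hD (E.mapH_gr k' hS.gen.mem) (by
        rw [← E.mapH_comp, ← hk', hk])
      obtain ⟨l, hl⟩ := ih3.surj' _ _ hS.susp z hz
      obtain ⟨m, hm⟩ := (shiftFunctor T (1 : ℤ)).map_surjective (l ≫ h)
      have h2 : E.mapH m i = E.mapH k' i := by
        rw [← hz', E.del_apply, ← hl, ← E.mapH_comp, ← hm, E.sig_nat, E.sig_tau]
      have h3 : k' - m = 0 := ih1.inj S i hS _ (by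
        rw [sub_eq_add_neg, E.mapH_add, E.mapH_neg, h2, add_neg_cancel])
      have h4 : k' = m := sub_eq_zero.1 h3
      rw [hk', h4]
      apply (shiftFunctor T (1 : ℤ)).map_injective
      rw [Functor.map_comp, hm, Category.assoc]
      have h5 : h ≫ f⟦(1 : ℤ)⟧' = 0 := comp_distTriang_mor_zero₃₁ _ hD
      rw [h5, comp_zero, Functor.map_zero]
    · intro S i hS y hy
      obtain ⟨k, hk⟩ := ih3.surj S i hS _ (E.mapH_gr g hy)
      have h1 : k ≫ h = 0 := E.hom_zero_of_sph (lt_add_one b) hS h₁.shiftOne _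
      obtain ⟨k', hk'⟩ : ∃ k' : S ⟶ X, k = k' ≫ g := Triangle.coyoneda_exact₃ _ hD k h1
      obtain ⟨x, hx, hx'⟩ := E.exact₂ hD (y := y - E.mapH k' i)
        (sub_mem hy (E.mapH_gr k' hS.gen.mem)) (by
          rw [map_sub, ← E.mapH_comp, ← hk', hk, sub_self])
      obtain ⟨l, hl⟩ := ih1.surj S i hS x hx
      exact ⟨k' + l ≫ f, by rw [E.mapH_add, E.mapH_comp, hl, hx']; abel⟩
    · intro S i hS y hy
      obtain ⟨k, hk⟩ := ih3.surj' S i hS _ (E.mapH_gr g hy)
      obtain ⟨S₀, i₀, e, hS₀, hi₀⟩ := hS.desusp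
      have h1 : k ≫ h = 0 := by
        obtain ⟨m, hm⟩ := (shiftFunctor T (1 : ℤ)).map_surjective (e.hom ≫ k ≫ h)
        have h2 : E.mapH m i₀ = 0 := by
          have h3 : E.mapH (m⟦(1 : ℤ)⟧') (E.tau S₀ i₀) = 0 := by
            rw [hm, E.mapH_comp, hi₀, E.mapH_comp, hk]
            exact E.comp_zero₂ (rot_of_distTriang _ hD) y
          rw [← E.tau_nat] at h3
          rw [← E.sig_tau _ (E.mapH m i₀), h3, map_zero]
        have h4 := ih1.inj S₀ i₀ hS₀ m h2
        rw [h4, Functor.map_zero] at hm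
        rw [← cancel_epi e.hom, ← hm, comp_zero]
      obtain ⟨k', hk'⟩ : ∃ k' : S ⟶ X, k = k' ≫ g := Triangle.coyoneda_exact₃ _ hD k h1
      obtain ⟨x, hx, hx'⟩ := E.exact₂ hD (y := y - E.mapH k' i)
        (sub_mem hy (E.mapH_gr k' hS.gen.mem)) (by
          rw [map_sub, ← E.mapH_comp, ← hk', hk, sub_self])
      obtain ⟨l, hl⟩ := ih1.surj' S i hS x hx
      exact ⟨k' + l ≫ f, by rw [E.mapH_add, E.mapH_comp, hl, hx']; abel⟩
  | retract i r h hY ih =>
    have hr : ∀ y, E.mapH r (E.mapH i y) = y := fun y => by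
      rw [← E.mapH_comp, h, E.mapH_id]
    refine ⟨hY.retract i r h, ?_, ?_, ?_, ?_⟩
    · intro j hj y hy
      rw [← hr y, ih.zero j hj _ (E.mapH_gr i hy), map_zero]
    · intro S ι hS f hf
      have := ih.inj S ι hS (f ≫ i) (by rw [E.mapH_comp, hf, map_zero])
      rw [← Category.comp_id f, ← h, ← Category.assoc, this, zero_comp]
    · intro S ι hS y hy
      obtain ⟨f, hf⟩ := ih.surj S ι hS _ (E.mapH_gr i hy)
      exact ⟨f ≫ r, by rw [E.mapH_comp, hf, hr]⟩
    · intro S ι hS y hy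
      obtain ⟨f, hf⟩ := ih.surj' S ι hS _ (E.mapH_gr i hy)
      exact ⟨f ≫ r, by rw [E.mapH_comp, hf, hr]⟩

end GHom

end Vale.Agent.P257.K
end
end

section

section

namespace Vale.Agent.P257.K

open CategoryTheory Limits Pretriangulated Triangulated

universe v' u

variable {R A : Type} [CommRing R] [CommRing A] [Algebra R A] {𝒜 : ℤ → Submodule R A}
  [GradedAlgebra 𝒜]
  {T : Type u} [Category.{v'} T] [HasZeroObject T] [Preadditive T]
    [HasShift T ℤ] [∀ n : ℤ, (shiftFunctor T n).Additive] [Pretriangulated T]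

theorem IsFinite.shiftObj {S : T} {X : T} (h : IsFinite S X) (k : ℤ) : IsFinite S (X⟦k⟧) := by
  obtain ⟨b, c, h⟩ := Built.bounded h
  exact (h.shiftObj k).isFinite

namespace GHom

variable (E : GHom 𝒜 T) [IsTriangulated T]

/-- The Hurewicz theorem -/
theorem hurewicz {X : T} (hX : IsFinite E.sphere X) {d : ℤ}
    (h : ∀ j < d, ∀ y ∈ E.gr X j, y = 0) : E.Hur d X := by
  obtain ⟨b, c, hb⟩ := Built.bounded hX
  have key : ∀ n : ℕ, b + n ≤ d → Built E.sphere (fun m => b + n ≤ m) X := by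
    intro n
    induction n with
    | zero =>
      intro _
      exact hb.mono fun m hm => by simpa using hm.1
    | succ n ih =>
      intro hn
      have h1 := ih (by push_cast at hn; omega)
      have h2 := h1.raise E.connective (fun f => by
        obtain ⟨i, hi⟩ := E.exists_sph (b + n)
        exact (E.hur_of_built h1).inj _ i hi f
          (h (b + n) (by push_cast at hn; omega) _ (E.mapH_gr f hi.gen.mem)))
      exact h2.mono fun m hm => by push_cast; omega
  apply E.hur_of_built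
  rcases le_total b d with hbd | hbd
  · have h1 := key (d - b).toNat (by omega)
    exact h1.mono fun m hm => by omega
  · exact hb.mono fun m hm => by omega

theorem isZero_of_homology {X : T} (hX : IsFinite E.sphere X)
    (h : ∀ (j : ℤ), ∀ y ∈ E.gr X j, y = 0) : IsZero X := by
  obtain ⟨b, c, hb⟩ := Built.bounded hX
  have h1 := (E.hurewicz hX (d := c + 1) (fun j _ => h j)).built
  rw [IsZero.iff_id_eq_zero]
  exact Connective.hom_zero E.connective (P := fun n => b ≤ n ∧ n ≤ c) (Q := fun n => c + 1 ≤ n)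
    (fun i j hi hj => by omega) hb h1 _

/-- The Whitehead theorem -/
theorem isIso_of_homology {X Y : T} (f : X ⟶ Y) (hX : IsFinite E.sphere X)
    (hY : IsFinite E.sphere Y) (h : Function.Bijective (E.mapH f)) : IsIso f := by
  obtain ⟨Z, g, k, hT⟩ := distinguished_cocone_triangle f
  have hZ : IsFinite E.sphere Z :=
    .extension _ (rot_of_distTriang _ hT) hY (hX.shiftObj 1)
  have key : ∀ (j : ℤ), ∀ z ∈ E.gr Z j, z = 0 := ?_
  · exact (Triangle.isZero₃_iff_isIso₁ _ hT).1 (E.isZero_of_homology hZ key)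
  intro j z hz
  have h1 : E.del k z = 0 := by
    apply h.1
    rw [E.comp_zero₁ hT, map_zero]
  obtain ⟨y, hy, rfl⟩ := E.exact₃ hT hz h1
  obtain ⟨x, rfl⟩ := h.2 y
  exact E.comp_zero₂ hT x

end GHom

end Vale.Agent.P257.K
end
end

section

section

namespace Vale.Agent.P257.K

open CategoryTheory Limits Pretriangulated Triangulated

universe v' u

variable {R A : Type} [CommRing R] [CommRing A] [Algebra R A] {𝒜 : ℤ → Submodule R A}
  [GradedAlgebra 𝒜]
  {T : Type u} [Category.{v'} T] [HasZeroObject T] [Preadditive T]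
    [HasShift T ℤ] [∀ n : ℤ, (shiftFunctor T n).Additive] [Pretriangulated T]

/-- the ideal generated by the first `n` terms of a sequence -/
noncomputable def Jw (w : ℕ → A) (n : ℕ) : Ideal A := Ideal.span (w '' {i | i < n})

theorem Jw_homog {w : ℕ → A} {d : ℕ → ℤ} {N : ℕ} (hw : ∀ i < N, w i ∈ 𝒜 (d i)) {n : ℕ}
    (hn : n ≤ N) : (Jw w n).IsHomogeneous 𝒜 := by
  apply Ideal.homogeneous_span
  rintro _ ⟨i, hi, rfl⟩
  exact ⟨_, hw i (lt_of_lt_of_le hi hn)⟩

theorem Jw_succ (w : ℕ → A) (n : ℕ) : Jw w (n + 1) = Jw w n ⊔ Ideal.span {w n} := by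
  rw [Jw, Jw, ← Ideal.span_union]
  congr 1
  ext a
  constructor
  · rintro ⟨i, hi, rfl⟩
    rcases Nat.lt_succ_iff_lt_or_eq.1 hi with h | h
    · exact Or.inl ⟨i, h, rfl⟩
    · exact Or.inr (by rw [h]; rfl)
  · rintro (⟨i, hi, rfl⟩ | h)
    · exact ⟨i, Nat.lt_succ_of_lt hi, rfl⟩
    · exact ⟨n, Nat.lt_succ_self n, (Set.mem_singleton_iff.1 h).symm⟩

theorem Jw_le_succ (w : ℕ → A) (n : ℕ) : Jw w n ≤ Jw w (n + 1) := by
  rw [Jw_succ]
  exact le_sup_left

theorem mem_Jw_succ (w : ℕ → A) (n : ℕ) : w n ∈ Jw w (n + 1) := by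
  rw [Jw_succ]
  exact Ideal.mem_sup_right (Ideal.mem_span_singleton_self _)

theorem Jw_split {w : ℕ → A} {n : ℕ} {a : A} (ha : a ∈ Jw w (n + 1)) :
    ∃ b, a - b * w n ∈ Jw w n := by
  rw [Jw_succ] at ha
  obtain ⟨a', ha', c, hc, rfl⟩ := Submodule.mem_sup.1 ha
  obtain ⟨b, rfl⟩ := Ideal.mem_span_singleton'.1 hc
  exact ⟨b, by rwa [add_sub_cancel_right]⟩

theorem Jw_split_homog {w : ℕ → A} {d : ℕ → ℤ} {N : ℕ} (hw : ∀ i < N, w i ∈ 𝒜 (d i))
    {n : ℕ} (hn : n < N) {e : ℤ} {a : A} (hae : a ∈ 𝒜 e) (ha : a ∈ Jw w (n + 1)) :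
    ∃ b ∈ 𝒜 (e - d n), a - b * w n ∈ Jw w n := by
  obtain ⟨b, hb⟩ := Jw_split ha
  refine ⟨(DirectSum.decompose 𝒜 b (e - d n) : A), Subtype.property _, ?_⟩
  have h1 : GradedRing.proj 𝒜 e (a - b * w n) ∈ Jw w n := Jw_homog hw hn.le e hb
  have h3 := DirectSum.coe_decompose_mul_add_of_right_mem 𝒜 (i := e - d n) (a := b)
    (hw n hn)
  rw [sub_add_cancel] at h3
  rwa [map_sub, GradedRing.proj_apply, GradedRing.proj_apply, h3,
    DirectSum.decompose_of_mem_same 𝒜 hae] at h1

/-- the dimension of the top cell -/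
def Dsum (d : ℕ → ℤ) (n : ℕ) : ℤ := ∑ i ∈ Finset.range n, (d i + 1)

theorem Dsum_succ (d : ℕ → ℤ) (n : ℕ) : Dsum d (n + 1) = Dsum d n + (d n + 1) :=
  Finset.sum_range_succ _ _

theorem Dsum_nonneg {d : ℕ → ℤ} {N : ℕ} (h : ∀ n < N, Dsum d n ≤ d n) :
    ∀ n ≤ N, 0 ≤ Dsum d n := by
  intro n
  induction n with
  | zero => intro _; exact le_rfl
  | succ n ih =>
    intro hn
    have h1 := ih (by omega)
    have h2 := h n (by omega)
    rw [Dsum_succ]
    omega

namespace GHom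

variable (E : GHom 𝒜 T)

/-- `BP_*X` looks like `BP_*/J`, generated by `x` in degree `d₀`, in degrees `< d₀ + D`. -/
structure Range (X : T) (d₀ D : ℤ) (x : E.H X) (J : Ideal A) : Prop where
  mem : x ∈ E.gr X d₀
  low : ∀ j < d₀, ∀ y ∈ E.gr X j, y = 0
  span : ∀ j < d₀ + D, ∀ y ∈ E.gr X j, ∃ a : A, y = a • x
  ann : ∀ j < d₀ + D, ∀ a ∈ 𝒜 (j - d₀), a • x = 0 ↔ a ∈ J

variable {E}

theorem Cyc.range {X : T} {d₀ : ℤ} {x : E.H X} {J : Ideal A} (h : E.Cyc X d₀ x J) (D : ℤ) :
    E.Range X d₀ D x J where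
  mem := h.mem
  low j hj y hy := by
    obtain ⟨a, ha, rfl⟩ := h.span' hy
    rw [E.neg _ (by omega) _ ha, zero_smul]
  span _ _ y _ := h.span y
  ann _ _ a _ := h.ann a

theorem Range.pred {w : ℕ → A} {d : ℕ → ℤ} {N : ℕ} (hw : ∀ i < N, w i ∈ 𝒜 (d i))
    (hgrow : ∀ n < N, Dsum d n ≤ d n) {m : ℕ} (hm : m < N)
    {X : T} {d₀ : ℤ} {x : E.H X} (h : E.Range X d₀ (Dsum d (m + 1)) x (Jw w (m + 1))) :
    E.Range X d₀ (Dsum d m) x (Jw w m) where
  mem := h.mem
  low := h.low
  span j hj := h.span j (by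
    have h1 := Dsum_nonneg hgrow m hm.le
    have h2 := hgrow m hm
    rw [Dsum_succ]
    omega)
  ann j hj a ha := by
    have h1 := Dsum_nonneg hgrow m hm.le
    have h2 := hgrow m hm
    rw [h.ann j (by rw [Dsum_succ]; omega) a ha]
    constructor
    · intro h3
      obtain ⟨b, hb, hab⟩ := Jw_split_homog hw hm ha h3
      rw [E.neg _ (by omega) _ hb, zero_mul, sub_zero] at hab
      exact hab
    · intro h3
      exact Jw_le_succ w m h3

end GHom

end Vale.Agent.P257.K
end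
end

section

section

namespace Vale.Agent.P257.K

open CategoryTheory Limits Pretriangulated Triangulated

universe v' u

variable {R A : Type} [CommRing R] [CommRing A] [Algebra R A] {𝒜 : ℤ → Submodule R A}
  [GradedAlgebra 𝒜]
  {T : Type u} [Category.{v'} T] [HasZeroObject T] [Preadditive T]
    [HasShift T ℤ] [∀ n : ℤ, (shiftFunctor T n).Additive] [Pretriangulated T]

namespace GHom

variable (E : GHom 𝒜 T)

/-- Realisation of `BP_*/J_m`. -/
def Realizes (w : ℕ → A) (d : ℕ → ℤ) (m : ℕ) : Prop :=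
  ∀ (X : T) (d₀ : ℤ) (x : E.H X), IsFinite E.sphere X →
    E.Range X d₀ (Dsum d m) x (Jw w m) →
      ∃ (Y : T) (f : Y ⟶ X) (y : E.H Y), IsFinite E.sphere Y ∧ E.Cyc Y d₀ y (Jw w m) ∧
        E.mapH f y = x

/-- The output of the inductive step. -/
structure StepData (w : ℕ → A) (d : ℕ → ℤ) (m : ℕ) (X : T) (d₀ : ℤ) (x : E.H X) where
  Y : T
  Z : T
  Y' : T
  f : Y ⟶ Z
  g : Z ⟶ Y'
  h : Y' ⟶ Y⟦(1 : ℤ)⟧
  tri : Triangle.mk f g h ∈ distTriang T
  y : E.H Y
  y' : E.H Y'
  finY : IsFinite E.sphere Y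
  finY' : IsFinite E.sphere Y'
  cycY : E.Cyc Y d₀ y (Jw w m)
  cycY' : E.Cyc Y' (d₀ + d m + 1) y' (Jw w m)
  cycZ : E.Cyc Z d₀ (E.mapH f y) (Jw w (m + 1))
  del : E.del h y' = w m • y
  k : Z ⟶ X
  map : E.mapH k (E.mapH f y) = x

variable {E}

theorem step {w : ℕ → A} {d : ℕ → ℤ} {N : ℕ} (hw : ∀ i < N, w i ∈ 𝒜 (d i))
    (hreg : ∀ n < N, ∀ a, a * w n ∈ Jw w n → a ∈ Jw w n)
    (hgrow : ∀ n < N, Dsum d n ≤ d n) {m : ℕ} (hm : m < N) (hL : E.Realizes w d m)
    {X : T} {d₀ : ℤ} {x : E.H X} (hX : IsFinite E.sphere X)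
    (hr : E.Range X d₀ (Dsum d (m + 1)) x (Jw w (m + 1))) :
    Nonempty (E.StepData w d m X d₀ x) := by
  have hD0 := Dsum_nonneg hgrow m hm.le
  have hDm := hgrow m hm
  have hDs := Dsum_succ d m
  obtain ⟨Y, f₀, y, hYfin, hY, hfy⟩ := hL X d₀ x hX (hr.pred hw hgrow hm)
  obtain ⟨C, g₀, h₀, hT₀⟩ := distinguished_cocone_triangle f₀
  have hCfin : IsFinite E.sphere C :=
    .extension _ (rot_of_distTriang _ hT₀) hX (hYfin.shiftObj 1)
  -- the class `c`
  have hwx : w m • x = 0 := by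
    have h1 := hr.ann (d₀ + d m) (by omega) (w m) (by rw [add_sub_cancel_left]; exact hw m hm)
    exact h1.2 (mem_Jw_succ w m)
  have hwy : w m • y ∈ E.gr Y (d₀ + d m) := by
    rw [add_comm]
    exact E.smul_mem Y _ _ _ _ (hw m hm) hY.mem
  obtain ⟨c, hc, hdc⟩ := E.exact₁ hT₀ hwy (by rw [map_smul, hfy, hwx])
  -- all classes of `C` in the range
  have hclaim : ∀ j < d₀ + Dsum d (m + 1), ∀ z ∈ E.gr C j,
      ∃ b ∈ 𝒜 (j - (d₀ + d m + 1)), z = b • c := by
    intro j hj z hz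
    have hdz := E.del_gr h₀ hz
    obtain ⟨a, ha, hay⟩ := hY.span' hdz
    have hax : a • x = 0 := by
      rw [← hfy, ← map_smul, ← hay, E.comp_zero₁ hT₀]
    have haJ : a ∈ Jw w (m + 1) := (hr.ann (j - 1) (by omega) a ha).1 hax
    obtain ⟨b, hb, hab⟩ := Jw_split_homog hw hm ha haJ
    have hbc : E.del h₀ (z - b • c) = 0 := by
      rw [map_sub, map_smul, hdc, hay, ← mul_smul, ← sub_smul]
      exact (hY.ann _).2 hab
    have hb' : b ∈ 𝒜 (j - (d₀ + d m + 1)) := by
      have : j - 1 - d₀ - d m = j - (d₀ + d m + 1) := by ring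
      rwa [this] at hb
    have hbcgr : b • c ∈ E.gr C j := by
      have := E.smul_mem C _ _ _ _ hb' hc
      rwa [sub_add_cancel] at this
    obtain ⟨u, hu, hu'⟩ := E.exact₃ hT₀ (sub_mem hz hbcgr) hbc
    obtain ⟨a', ha'⟩ := hr.span j hj u hu
    have h0 : E.mapH g₀ u = 0 := by
      rw [ha', ← hfy, ← map_smul, E.comp_zero₂ hT₀]
    refine ⟨b, hb', ?_⟩
    rw [h0] at hu'
    exact (sub_eq_zero.1 hu'.symm)
  have hCr : E.Range C (d₀ + d m + 1) (Dsum d m) c (Jw w m) := by
    refine ⟨hc, ?_, ?_, ?_⟩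
    · intro j hj z hz
      obtain ⟨b, hb, rfl⟩ := hclaim j (by omega) z hz
      rw [E.neg _ (by omega) _ hb, zero_smul]
    · intro j hj z hz
      obtain ⟨b, hb, rfl⟩ := hclaim j (by omega) z hz
      exact ⟨b, rfl⟩
    · intro j hj a ha
      constructor
      · intro hac
        have h1 : (a * w m) • y = 0 := by
          rw [mul_smul, ← hdc, ← map_smul, hac, map_zero]
        exact hreg m hm a ((hY.ann _).1 h1)
      · intro haJ
        have h1 : E.del h₀ (a • c) = 0 := by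
          rw [map_smul, hdc, ← mul_smul, hY.ann]
          exact Ideal.mul_mem_right _ _ haJ
        have hac : a • c ∈ E.gr C j := by
          have := E.smul_mem C _ _ _ _ ha hc
          rwa [sub_add_cancel] at this
        obtain ⟨u, hu, hu'⟩ := E.exact₃ hT₀ hac h1
        obtain ⟨a', ha'⟩ := hr.span j (by omega) u hu
        rw [← hu', ha', ← hfy, ← map_smul, E.comp_zero₂ hT₀]
  obtain ⟨Y', k₀, y', hY'fin, hY', hky⟩ := hL C _ c hCfin hCr
  obtain ⟨Z, f, g, hT⟩ := distinguished_cocone_triangle₂ (k₀ ≫ h₀)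
  obtain ⟨k, hk, -⟩ : ∃ k : Z ⟶ X, f ≫ k = 𝟙 Y ≫ f₀ ∧ g ≫ k₀ = k ≫ g₀ :=
    complete_distinguished_triangle_morphism₂ _ _ hT hT₀ (𝟙 Y) k₀ (by
      change (k₀ ≫ h₀) ≫ (𝟙 Y)⟦(1 : ℤ)⟧' = k₀ ≫ h₀
      rw [CategoryTheory.Functor.map_id, Category.comp_id])
  have hdel : E.del (k₀ ≫ h₀) y' = w m • y := by
    rw [E.del_apply, E.mapH_comp, hky, ← E.del_apply, hdc]
  have hfyZ : E.mapH f y ∈ E.gr Z d₀ := E.mapH_gr f hY.mem
  refine ⟨⟨Y, Z, Y', f, g, k₀ ≫ h₀, hT, y, y', hYfin, hY'fin, hY, hY', ⟨hfyZ, ?_, ?_⟩, hdel,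
    k, ?_⟩⟩
  · intro z
    obtain ⟨a, ha⟩ := hY'.span (E.mapH g z)
    have h1 : (a * w m) • y = 0 := by
      rw [mul_smul, ← hdel, ← map_smul, ← ha, E.comp_zero₃ hT]
    have h2 : a ∈ Jw w m := hreg m hm a ((hY.ann _).1 h1)
    rw [(hY'.ann a).2 h2] at ha
    obtain ⟨y₁, rfl⟩ := E.exact₂' hT ha
    obtain ⟨b, rfl⟩ := hY.span y₁
    exact ⟨b, by rw [map_smul]⟩
  · intro a
    rw [← map_smul]
    constructor
    · intro h1
      obtain ⟨u, hu⟩ := E.exact₁' hT h1
      obtain ⟨b, rfl⟩ := hY'.span u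
      rw [map_smul, hdel, ← mul_smul] at hu
      have h2 : a - b * w m ∈ Jw w m := (hY.ann _).1 (by rw [sub_smul, hu, sub_self])
      have h3 : b * w m ∈ Jw w (m + 1) := Ideal.mul_mem_left _ _ (mem_Jw_succ w m)
      have h4 := Ideal.add_mem _ (Jw_le_succ w m h2) h3
      rwa [sub_add_cancel] at h4
    · intro haJ
      obtain ⟨b, hb⟩ := Jw_split haJ
      have h2 : a • y = E.del (k₀ ≫ h₀) (b • y') := by
        rw [map_smul, hdel, ← mul_smul, ← sub_eq_zero, ← sub_smul]
        exact (hY.ann _).2 hb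
      rw [h2, E.comp_zero₁ hT]
  · rw [← E.mapH_comp, hk, Category.id_comp, hfy]

theorem StepData.finZ {w : ℕ → A} {d : ℕ → ℤ} {m : ℕ} {X : T} {d₀ : ℤ} {x : E.H X}
    (s : E.StepData w d m X d₀ x) : IsFinite E.sphere s.Z :=
  .extension _ s.tri s.finY s.finY'

variable (E) in
theorem realizes [IsTriangulated T] {w : ℕ → A} {d : ℕ → ℤ} {N : ℕ}
    (hw : ∀ i < N, w i ∈ 𝒜 (d i))
    (hreg : ∀ n < N, ∀ a, a * w n ∈ Jw w n → a ∈ Jw w n)
    (hgrow : ∀ n < N, Dsum d n ≤ d n) : ∀ m ≤ N, E.Realizes w d m := by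
  intro m
  induction m with
  | zero =>
    intro _ X d₀ x hX hr
    obtain ⟨i, hi⟩ := E.exists_sph d₀
    obtain ⟨f, hf⟩ := (E.hurewicz hX hr.low).surj _ i hi x hr.mem
    refine ⟨_, f, i, .shift d₀, ⟨hi.gen.mem, hi.gen.span, fun a => ?_⟩, hf⟩
    have : Jw w 0 = ⊥ := by rw [Jw]; simp
    rw [this]
    exact hi.gen.ann a
  | succ m ih =>
    intro hm X d₀ x hX hr
    obtain ⟨s⟩ := step hw hreg hgrow (by omega) (ih (by omega)) hX hr
    exact ⟨s.Z, s.k, _, s.finZ, s.cycZ, s.map⟩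

end GHom

end Vale.Agent.P257.K
end
end

section

section

/-!
Cyclic homology `A / (w_0, ..., w_m)`: the structure theorem.
-/

namespace Vale.Agent.P257.K

open CategoryTheory Limits Pretriangulated Triangulated

universe v' u

variable {R A : Type} [CommRing R] [CommRing A] [Algebra R A] {𝒜 : ℤ → Submodule R A}
  [GradedAlgebra 𝒜]
  {T : Type u} [Category.{v'} T] [HasZeroObject T] [Preadditive T]
    [HasShift T ℤ] [∀ n : ℤ, (shiftFunctor T n).Additive] [Pretriangulated T]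

/-- A homogeneous regular sequence of length `N` with the growth condition. -/
structure GoodSeq (𝒜 : ℤ → Submodule R A) (w : ℕ → A) (d : ℕ → ℤ) (N : ℕ) : Prop where
  homog : ∀ i < N, w i ∈ 𝒜 (d i)
  reg : ∀ n < N, ∀ a, a * w n ∈ Jw w n → a ∈ Jw w n
  grow : ∀ n < N, Dsum d n ≤ d n

namespace GHom

variable {E : GHom 𝒜 T}

theorem cyc_of_triangle {Y Z Y' : T} {f : Y ⟶ Z} {g : Z ⟶ Y'} {h : Y' ⟶ Y⟦(1 : ℤ)⟧}
    (hT : Triangle.mk f g h ∈ distTriang T) {w : ℕ → A} {m : ℕ}
    (hreg : ∀ a, a * w m ∈ Jw w m → a ∈ Jw w m) {d₀ d₁ : ℤ} {y : E.H Y} {y' : E.H Y'}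
    (hY : E.Cyc Y d₀ y (Jw w m)) (hY' : E.Cyc Y' d₁ y' (Jw w m)) (hdel : E.del h y' = w m • y) :
    E.Cyc Z d₀ (E.mapH f y) (Jw w (m + 1)) := by
  refine ⟨E.mapH_gr f hY.mem, ?_, ?_⟩
  · intro z
    obtain ⟨a, ha⟩ := hY'.span (E.mapH g z)
    have h1 : (a * w m) • y = 0 := by
      rw [mul_smul, ← hdel, ← map_smul, ← ha, E.comp_zero₃ hT]
    have h2 : a ∈ Jw w m := hreg a ((hY.ann _).1 h1)
    rw [(hY'.ann a).2 h2] at ha
    obtain ⟨y₁, rfl⟩ := E.exact₂' hT ha
    obtain ⟨b, rfl⟩ := hY.span y₁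
    exact ⟨b, by rw [map_smul]⟩
  · intro a
    rw [← map_smul]
    constructor
    · intro h1
      obtain ⟨u, hu⟩ := E.exact₁' hT h1
      obtain ⟨b, rfl⟩ := hY'.span u
      rw [map_smul, hdel, ← mul_smul] at hu
      have h2 : a - b * w m ∈ Jw w m := (hY.ann _).1 (by rw [sub_smul, hu, sub_self])
      have h3 : b * w m ∈ Jw w (m + 1) := Ideal.mul_mem_left _ _ (mem_Jw_succ w m)
      have h4 := Ideal.add_mem _ (Jw_le_succ w m h2) h3
      rwa [sub_add_cancel] at h4
    · intro haJ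
      obtain ⟨b, hb⟩ := Jw_split haJ
      have h2 : a • y = E.del h (b • y') := by
        rw [map_smul, hdel, ← mul_smul, ← sub_eq_zero, ← sub_smul]
        exact (hY.ann _).2 hb
      rw [h2, E.comp_zero₁ hT]

variable [IsTriangulated T]

/-- The cofibre of a `w_m`-map between realisations of `A/(w_0, ..., w_(m-1))` realises
`A/(w_0, ..., w_m)`. -/
theorem cofibre {w : ℕ → A} {m : ℕ} (hreg : ∀ a, a * w m ∈ Jw w m → a ∈ Jw w m) {d₀ d₁ : ℤ}
    {Y W X : T} (hYf : IsFinite E.sphere Y) (hWf : IsFinite E.sphere W)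
    {y : E.H Y} {u : E.H W} (hy : E.Cyc Y d₀ y (Jw w m)) (hu : E.Cyc W d₁ u (Jw w m))
    {f : W ⟶ Y} {g : Y ⟶ X} {h : X ⟶ W⟦(1 : ℤ)⟧} (hf : E.mapH f u = w m • y)
    (hT : Triangle.mk f g h ∈ distTriang T) :
    IsFinite E.sphere X ∧ E.Cyc X d₀ (E.mapH g y) (Jw w (m + 1)) := by
  have hrot' : Triangle.mk g h (-f⟦(1 : ℤ)⟧') ∈ distTriang T := rot_of_distTriang _ hT
  refine ⟨.extension _ hrot' hYf (hWf.shiftObj 1), ?_⟩
  refine cyc_of_triangle hrot' hreg hy hu.tau.neg ?_
  rw [map_neg, E.del_apply, E.mapH_neg, map_neg, neg_neg, ← E.tau_nat, E.sig_tau, hf]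

/-- Every realisation of `A/(w_0, ..., w_m)` is the cofibre of a `w_m`-map. -/
theorem exists_cofibre {w : ℕ → A} {d : ℕ → ℤ} {m : ℕ} (hw : GoodSeq 𝒜 w d (m + 1))
    {X : T} {d₀ : ℤ} {x : E.H X} (hX : IsFinite E.sphere X)
    (hx : E.Cyc X d₀ x (Jw w (m + 1))) :
    ∃ (Y W : T) (f : W ⟶ Y) (g : Y ⟶ X) (h : X ⟶ W⟦(1 : ℤ)⟧) (y : E.H Y) (u : E.H W),
      Triangle.mk f g h ∈ distTriang T ∧ IsFinite E.sphere Y ∧ IsFinite E.sphere W ∧
        E.Cyc Y d₀ y (Jw w m) ∧ E.Cyc W (d₀ + d m) u (Jw w m) ∧ E.mapH f u = w m • y ∧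
        E.mapH g y = x := by
  obtain ⟨s⟩ := step hw.homog hw.reg hw.grow (Nat.lt_succ_self m)
    (E.realizes hw.homog hw.reg hw.grow m m.le_succ) hX (hx.range _)
  -- the comparison map is an isomorphism
  have hbij : Function.Bijective (E.mapH s.k) := by
    constructor
    · rw [injective_iff_map_eq_zero]
      intro z hz
      obtain ⟨a, rfl⟩ := s.cycZ.span z
      rw [map_smul, s.map] at hz
      exact (s.cycZ.ann a).2 ((hx.ann a).1 hz)
    · intro z
      obtain ⟨a, rfl⟩ := hx.span z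
      exact ⟨a • E.mapH s.f s.y, by rw [map_smul, s.map]⟩
  have hiso := E.isIso_of_homology s.k s.finZ hX hbij
  let W : T := s.Y'⟦(-1 : ℤ)⟧
  let e : W⟦(1 : ℤ)⟧ ≅ s.Y' :=
    (shiftFunctorCompIsoId T (-1 : ℤ) 1 (by norm_num)).app s.Y'
  obtain ⟨φ, hφ⟩ := (shiftFunctor T (1 : ℤ)).map_surjective (-(e.hom ≫ s.h))
  have hfinW : IsFinite E.sphere W := s.finY'.shiftObj _
  -- the triangle
  have htri : Triangle.mk φ (s.f ≫ s.k) (inv s.k ≫ s.g ≫ e.inv) ∈ distTriang T := by
    rw [rotate_distinguished_triangle]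
    refine isomorphic_distinguished _ s.tri _ ?_
    refine Triangle.isoMk _ _ (Iso.refl _) (asIso s.k).symm e ?_ ?_ ?_
    · change (s.f ≫ s.k) ≫ inv s.k = 𝟙 _ ≫ s.f
      simp
    · change (inv s.k ≫ s.g ≫ e.inv) ≫ e.hom = inv s.k ≫ s.g
      simp
    · change (-φ⟦(1 : ℤ)⟧') ≫ (𝟙 s.Y)⟦(1 : ℤ)⟧' = e.hom ≫ s.h
      rw [hφ, neg_neg, CategoryTheory.Functor.map_id, Category.comp_id]
  have hu := (s.cycY'.iso e.symm).sig.neg
  rw [add_sub_cancel_right] at hu
  refine ⟨s.Y, W, φ, _, _, s.y, _, htri, s.finY, hfinW, s.cycY, hu, ?_, ?_⟩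
  · rw [← s.del, map_neg, ← E.sig_nat, hφ, E.mapH_neg, map_neg, neg_neg, E.mapH_comp,
      ← E.mapH_comp e.symm.hom e.hom]
    change E.sig s.Y (E.mapH s.h (E.mapH (e.inv ≫ e.hom) s.y')) = _
    rw [e.inv_hom_id, E.mapH_id]
    rfl
  · rw [E.mapH_comp]
    exact s.map

end GHom

end Vale.Agent.P257.K
end
end

section

section

/-!
Coefficient rings for Brown-Peterson homology at the prime `p`:
`BP_* = Z_(p)[v_1, v_2, ...]`, `BP_*BP = BP_*[t_1, t_2, ...]` and the coefficients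
of the logarithm expressed through the Hazewinkel generators.
-/

namespace Vale.Agent.P257

open MvPolynomial

/-- The ring `Z_(p)` of `p`-local integers, as a subring of the rational numbers. -/
def ZLoc (p : ℕ) [hp : Fact p.Prime] : Subring ℚ where
  carrier := {q | ¬ p ∣ q.den}
  mul_mem' := by
    intro a b ha hb h
    have h1 := (Rat.mul_den_dvd a b)
    rcases (hp.out.dvd_mul).1 (h.trans h1) with h2 | h2
    · exact ha h2
    · exact hb h2
  one_mem' := by
    intro h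
    have : p ∣ 1 := by simpa using h
    exact hp.out.one_lt.ne' (Nat.dvd_one.1 this)
  add_mem' := by
    intro a b ha hb h
    have h1 := (Rat.add_den_dvd a b)
    rcases (hp.out.dvd_mul).1 (h.trans h1) with h2 | h2
    · exact ha h2
    · exact hb h2
  zero_mem' := by
    intro h
    have : p ∣ 1 := by simpa using h
    exact hp.out.one_lt.ne' (Nat.dvd_one.1 this)
  neg_mem' := by
    intro a ha h
    exact ha (by simpa using h)

variable (p : ℕ) [Fact p.Prime]

/-- `BP_* = Z_(p)[v_1, v_2, ...]`; the variable `X i` is the Hazewinkel generator `v_(i+1)`. -/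
abbrev BP := MvPolynomial ℕ (ZLoc p)

/-- `BP_*BP = BP_*[t_1, t_2, ...]`; `X (inl i)` is `v_(i+1)` and `X (inr i)` is `t_(i+1)`. -/
abbrev BPBP := MvPolynomial (ℕ ⊕ ℕ) (ZLoc p)

/-- `BP_*BP ⊗ BP_*BP = BP_*[t_1 ⊗ 1, t_2 ⊗ 1, ..., 1 ⊗ t_1, 1 ⊗ t_2, ...]`. -/
abbrev BPBP2 := MvPolynomial (ℕ ⊕ (ℕ ⊕ ℕ)) (ZLoc p)

/-- Rationalisation of polynomials. -/
noncomputable def toQ {σ : Type} : MvPolynomial σ (ZLoc p) →+* MvPolynomial σ ℚ :=
  MvPolynomial.map (ZLoc p).subtype

/-- The rationalisation of a map of polynomial rings over `Z_(p)`. -/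
noncomputable def rat {σ τ : Type} (f : MvPolynomial σ (ZLoc p) →ₐ[ZLoc p] MvPolynomial τ (ZLoc p)) :
    MvPolynomial σ ℚ →ₐ[ℚ] MvPolynomial τ ℚ :=
  aeval fun i => toQ p (f (X i))

/-- `t_0 = 1, t_1, t_2, ...` in `BP_*BP ⊗ ℚ`. -/
noncomputable def tQ (n : ℕ) : MvPolynomial (ℕ ⊕ ℕ) ℚ :=
  if n = 0 then 1 else X (Sum.inr (n - 1))

/-- `t_j ⊗ 1` in `(BP_*BP ⊗ BP_*BP) ⊗ ℚ`. -/
noncomputable def tQ1 (n : ℕ) : MvPolynomial (ℕ ⊕ (ℕ ⊕ ℕ)) ℚ :=
  if n = 0 then 1 else X (Sum.inr (Sum.inl (n - 1)))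

/-- `1 ⊗ t_j` in `(BP_*BP ⊗ BP_*BP) ⊗ ℚ`. -/
noncomputable def tQ2 (n : ℕ) : MvPolynomial (ℕ ⊕ (ℕ ⊕ ℕ)) ℚ :=
  if n = 0 then 1 else X (Sum.inr (Sum.inr (n - 1)))

end Vale.Agent.P257
end
end

section

section

namespace Vale.Agent.P257

open MvPolynomial

section
variable (p : ℕ)

/-- The coefficients `l_n` of the logarithm, in terms of the Hazewinkel generators. -/
noncomputable def logc : ℕ → MvPolynomial ℕ ℚ
  | n => if n = 0 then 1 else
    C (1 / (p : ℚ)) * ∑ i : Fin n, logc i * X (n - 1 - i) ^ p ^ (i : ℕ)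
decreasing_by exact i.2

theorem logc_zero : logc p 0 = 1 := by
  rw [logc]
  exact if_pos rfl

theorem logc_succ' (n : ℕ) :
    logc p (n + 1) = C (1 / (p : ℚ)) * ∑ i : Fin (n + 1), logc p i * X (n - i) ^ p ^ (i : ℕ) := by
  rw [logc]
  exact if_neg n.succ_ne_zero

end

variable (p : ℕ) [hp : Fact p.Prime]

theorem tQ_zero : tQ 0 = 1 := rfl

theorem tQ_succ (n : ℕ) : tQ (n + 1) = X (Sum.inr n) := rfl

theorem tQ1_zero : tQ1 0 = 1 := rfl

theorem tQ1_succ (n : ℕ) : tQ1 (n + 1) = X (Sum.inr (Sum.inl n)) := rfl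

theorem tQ2_zero : tQ2 0 = 1 := rfl

theorem tQ2_succ (n : ℕ) : tQ2 (n + 1) = X (Sum.inr (Sum.inr n)) := rfl

/-- Hazewinkel's recursion. -/
theorem logc_succ (n : ℕ) :
    C (p : ℚ) * logc p (n + 1) =
      ∑ i ∈ Finset.range (n + 1), logc p i * X (n - i) ^ p ^ i := by
  rw [logc_succ', ← mul_assoc, ← C_mul, mul_one_div_cancel (by exact_mod_cast hp.out.ne_zero), C_1,
    one_mul, Finset.sum_range]

/-- `l_n` in `BP_*BP ⊗ ℚ`, through the left unit. -/
noncomputable def logL (n : ℕ) : MvPolynomial (ℕ ⊕ ℕ) ℚ := rename Sum.inl (logc p n)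

/-- `etaR(l_n) = sum_(i+j=n) l_i t_j ^ (p ^ i)`. -/
noncomputable def etaRlog (n : ℕ) : MvPolynomial (ℕ ⊕ ℕ) ℚ :=
  ∑ i ∈ Finset.range (n + 1), logL p i * tQ (n - i) ^ p ^ i

/-- `l_n` in `(BP_*BP ⊗ BP_*BP) ⊗ ℚ`, through the left unit. -/
noncomputable def logL2 (n : ℕ) : MvPolynomial (ℕ ⊕ (ℕ ⊕ ℕ)) ℚ := rename Sum.inl (logc p n)

/-- The defining property of the right unit `BP_* → BP_*BP`. -/
def IsEtaR' (f : BP p →ₐ[ZLoc p] BPBP p) : Prop :=
  ∀ n, rat p f (logc p n) = etaRlog p n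

/-- The defining property of the coproduct. -/
def IsDelta' (f : BPBP p →ₐ[ZLoc p] BPBP2 p) : Prop :=
  (∀ i, f (X (Sum.inl i)) = X (Sum.inl i)) ∧
  ∀ n, ∑ i ∈ Finset.range (n + 1), logL2 p i * (rat p f (tQ (n - i))) ^ p ^ i =
    ∑ i ∈ Finset.range (n + 1), ∑ j ∈ Finset.range (n + 1 - i),
      logL2 p i * tQ1 j ^ p ^ i * tQ2 (n - i - j) ^ p ^ (i + j)

end Vale.Agent.P257
end
end

section

section

namespace Vale.Agent.P257

open MvPolynomial

section ZLocBasics

variable (p : ℕ) [hp : Fact p.Prime]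

theorem zloc_mem (q : ℚ) : q ∈ ZLoc p ↔ ¬ p ∣ q.den := Iff.rfl

theorem zloc_inv_mem {m : ℕ} (h : ¬ p ∣ m) : ((m : ℚ)⁻¹) ∈ ZLoc p := by
  rw [zloc_mem]
  intro h2
  apply h
  by_cases hm : m = 0
  · subst hm; exact dvd_zero _
  · have : ((m : ℚ)⁻¹).den = m := by
      rw [Rat.inv_natCast_den]
      simp [hm]
    rwa [this] at h2

theorem zloc_isUnit_natCast {m : ℕ} (h : ¬ p ∣ m) : IsUnit (m : ZLoc p) := by
  have hm : (m : ℚ) ≠ 0 := by
    intro h0
    apply h
    have : m = 0 := by exact_mod_cast h0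
    subst this; exact dvd_zero _
  refine ⟨⟨(m : ZLoc p), ⟨(m : ℚ)⁻¹, zloc_inv_mem p h⟩, ?_, ?_⟩, rfl⟩
  · apply Subtype.ext
    simp [hm]
  · apply Subtype.ext
    simp [hm]

theorem zloc_den_not_dvd (c : ZLoc p) : ¬ p ∣ (c : ℚ).den := c.2

theorem zloc_mul_den (c : ZLoc p) : c * ((c : ℚ).den : ZLoc p) = (((c : ℚ).num : ℤ) : ZLoc p) := by
  apply Subtype.ext
  push_cast
  exact Rat.mul_den_eq_num _

theorem zloc_int_dvd {a : ℤ} (h : (p : ℤ) ∣ a) : (p : ZLoc p) ∣ (a : ZLoc p) := by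
  obtain ⟨b, rfl⟩ := h
  exact ⟨(b : ZLoc p), by push_cast; ring⟩

theorem zloc_pow_sub_self (c : ZLoc p) : (p : ZLoc p) ∣ c ^ p - c := by
  set d : ℕ := (c : ℚ).den with hd
  set m : ℤ := (c : ℚ).num with hm
  have hcd : c * (d : ZLoc p) = (m : ZLoc p) := zloc_mul_den p c
  have hdu : IsUnit (d : ZLoc p) := zloc_isUnit_natCast p (zloc_den_not_dvd p c)
  have h1 : (p : ℤ) ∣ m ^ p - m := by
    have := (ZMod.intCast_zmod_eq_zero_iff_dvd (m ^ p - m) p)
    rw [← ZMod.intCast_zmod_eq_zero_iff_dvd]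
    push_cast
    rw [ZMod.pow_card, sub_self]
  have h2 : (p : ℤ) ∣ (d : ℤ) ^ p - d := by
    rw [← ZMod.intCast_zmod_eq_zero_iff_dvd]
    push_cast
    rw [ZMod.pow_card, sub_self]
  have h1' := zloc_int_dvd p h1
  have h2' := zloc_int_dvd p h2
  push_cast at h1' h2'
  have key : (p : ZLoc p) ∣ (c ^ p - c) * (d : ZLoc p) ^ p := by
    have : (c ^ p - c) * (d : ZLoc p) ^ p
        = ((m : ZLoc p) ^ p - m) - c * ((d : ZLoc p) ^ p - d) := by
      rw [← hcd]; ring
    rw [this]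
    exact dvd_sub h1' (Dvd.dvd.mul_left h2' c)
  exact (IsUnit.dvd_mul_right (hdu.pow p)).1 key

end ZLocBasics

section Frobenius

variable (p : ℕ) [hp : Fact p.Prime] {σ : Type}

/-- Frobenius congruence. -/
theorem expand_sub_pow (k : ℕ) (a : MvPolynomial σ (ZLoc p)) :
    ((p : ℕ) : MvPolynomial σ (ZLoc p)) ∣ expand (p ^ k) a - a ^ p ^ k := by
  induction a using MvPolynomial.induction_on with
  | C c =>
    rw [expand_C, ← C_pow, ← C_sub]
    have hc : (p : ZLoc p) ∣ c - c ^ p ^ k := by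
      induction k with
      | zero => simp
      | succ k ih =>
        have h1 := zloc_pow_sub_self p (c ^ p ^ k)
        have : c - c ^ p ^ (k + 1) = (c - c ^ p ^ k) - ((c ^ p ^ k) ^ p - c ^ p ^ k) := by
          rw [pow_succ p k, pow_mul]; ring
        rw [this]
        exact dvd_sub ih h1
    obtain ⟨e, he⟩ := hc
    exact ⟨C e, by rw [he, C_mul]; simp⟩
  | add a b ha hb =>
    obtain ⟨r, hr⟩ := exists_add_pow_prime_pow_eq hp.out a b k
    rw [map_add, hr]
    have : expand (p ^ k) a + expand (p ^ k) b - (a ^ p ^ k + b ^ p ^ k +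
        (p : MvPolynomial σ (ZLoc p)) * a * b * r)
        = (expand (p ^ k) a - a ^ p ^ k) + (expand (p ^ k) b - b ^ p ^ k) -
        (p : MvPolynomial σ (ZLoc p)) * (a * b * r) := by ring
    rw [this]
    exact dvd_sub (dvd_add ha hb) (dvd_mul_right _ _)
  | mul_X a i ha =>
    rw [map_mul, expand_X, mul_pow, ← sub_mul]
    exact Dvd.dvd.mul_right ha _

/-- The basic congruence used in the functional equation argument. -/
theorem expand_pow_sub_pow (k j : ℕ) (a : MvPolynomial σ (ZLoc p)) :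
    ((p : MvPolynomial σ (ZLoc p)) ^ (j + 1)) ∣ (expand (p ^ k) a) ^ p ^ j - a ^ p ^ (k + j) := by
  have h := dvd_sub_pow_of_dvd_sub (expand_sub_pow p k a) j
  rwa [← pow_mul, ← pow_add] at h

end Frobenius

end Vale.Agent.P257
end
end

section

section

namespace Vale.Agent.P257

open MvPolynomial

section Ideals

variable (p : ℕ) [hp : Fact p.Prime]

theorem zloc_cancel_p {c : ZLoc p} : (p : ZLoc p) * c = 0 → c = 0 := by
  intro h
  rcases mul_eq_zero.1 h with h | h
  · exfalso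
    have : ((p : ZLoc p) : ℚ) = 0 := by rw [h]; rfl
    simp at this
    exact hp.out.ne_zero this
  · exact h

end Ideals

end Vale.Agent.P257
end
end

section

section

namespace Vale.Agent.P257

open MvPolynomial

section Integrality

variable (p : ℕ) [hp : Fact p.Prime] {σ : Type}

theorem toQ_injective : Function.Injective (toQ p (σ := σ)) :=
  MvPolynomial.map_injective _ Subtype.val_injective

@[simp] theorem toQ_X (i : σ) : toQ p (X i) = X i := by simp [toQ]

@[simp] theorem toQ_C (c : ZLoc p) : toQ p (C c : MvPolynomial σ (ZLoc p)) = C (c : ℚ) := by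
  simp [toQ]

theorem toQ_expand (k : ℕ) (a : MvPolynomial σ (ZLoc p)) :
    toQ p (expand k a) = expand k (toQ p a) := map_expand _ _ _

/-- Integral elements of `ℚ[σ]`. -/
def IsInt (x : MvPolynomial σ ℚ) : Prop := ∃ a : MvPolynomial σ (ZLoc p), toQ p a = x

variable {p}

theorem IsInt.add {x y : MvPolynomial σ ℚ} (hx : IsInt p x) (hy : IsInt p y) :
    IsInt p (x + y) := by
  obtain ⟨a, rfl⟩ := hx
  obtain ⟨b, rfl⟩ := hy
  exact ⟨a + b, map_add _ _ _⟩

theorem IsInt.sub {x y : MvPolynomial σ ℚ} (hx : IsInt p x) (hy : IsInt p y) :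
    IsInt p (x - y) := by
  obtain ⟨a, rfl⟩ := hx
  obtain ⟨b, rfl⟩ := hy
  exact ⟨a - b, map_sub _ _ _⟩

theorem IsInt.mul {x y : MvPolynomial σ ℚ} (hx : IsInt p x) (hy : IsInt p y) :
    IsInt p (x * y) := by
  obtain ⟨a, rfl⟩ := hx
  obtain ⟨b, rfl⟩ := hy
  exact ⟨a * b, map_mul _ _ _⟩

theorem IsInt.pow {x : MvPolynomial σ ℚ} (hx : IsInt p x) (n : ℕ) : IsInt p (x ^ n) := by
  obtain ⟨a, rfl⟩ := hx
  exact ⟨a ^ n, map_pow _ _ _⟩

theorem IsInt.sum {ι : Type} (s : Finset ι) {x : ι → MvPolynomial σ ℚ}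
    (hx : ∀ i ∈ s, IsInt p (x i)) : IsInt p (∑ i ∈ s, x i) := by
  classical
  induction s using Finset.induction_on with
  | empty => exact ⟨0, by simp⟩
  | insert a s ha ih =>
    rw [Finset.sum_insert ha]
    exact (hx a (Finset.mem_insert_self _ _)).add
      (ih fun i hi => hx i (Finset.mem_insert_of_mem hi))

theorem IsInt.X (i : σ) : IsInt p (X i : MvPolynomial σ ℚ) := ⟨MvPolynomial.X i, by simp⟩

theorem IsInt.natC (n : ℕ) : IsInt p (C (n : ℚ) : MvPolynomial σ ℚ) := ⟨C (n : ZLoc p), by simp⟩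

theorem IsInt.one : IsInt p (1 : MvPolynomial σ ℚ) := ⟨1, by simp⟩

theorem IsInt.expand {x : MvPolynomial σ ℚ} (hx : IsInt p x) (k : ℕ) :
    IsInt p (MvPolynomial.expand k x) := by
  obtain ⟨a, rfl⟩ := hx
  exact ⟨MvPolynomial.expand k a, toQ_expand p k a⟩

theorem IsInt.rename {τ : Type} {x : MvPolynomial σ ℚ} (hx : IsInt p x) (f : σ → τ) :
    IsInt p (MvPolynomial.rename f x) := by
  obtain ⟨a, rfl⟩ := hx
  exact ⟨MvPolynomial.rename f a, by rw [toQ, toQ, map_rename]⟩

variable (p)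

theorem Cp_ne_zero : (C (p : ℚ) : MvPolynomial σ ℚ) ≠ 0 := by
  rw [Ne, C_eq_zero]
  exact_mod_cast hp.out.ne_zero

theorem bracket {y Z : MvPolynomial σ ℚ} (k j : ℕ) (hy : IsInt p (C ((p : ℚ) ^ j) * y))
    (hZ : IsInt p Z) :
    ∃ e : MvPolynomial σ ℚ, IsInt p e ∧
      MvPolynomial.expand (p ^ k) y * ((MvPolynomial.expand (p ^ k) Z) ^ p ^ j - Z ^ p ^ (k + j))
        = C (p : ℚ) * e := by
  obtain ⟨z, rfl⟩ := hZ
  obtain ⟨a, ha⟩ := hy
  obtain ⟨c, hc⟩ := expand_pow_sub_pow p k j z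
  refine ⟨toQ p (MvPolynomial.expand (p ^ k) a * c), ⟨_, rfl⟩, ?_⟩
  have h1 : (MvPolynomial.expand (p ^ k) (toQ p z)) ^ p ^ j - (toQ p z) ^ p ^ (k + j)
      = toQ p (((p : ℕ) : MvPolynomial σ (ZLoc p)) ^ (j + 1) * c) := by
    rw [← hc, map_sub, map_pow, map_pow, toQ_expand]
  rw [h1, map_mul, map_mul, toQ_expand, ha, map_mul, expand_C]
  have h2 : toQ p (((p : ℕ) : MvPolynomial σ (ZLoc p)) ^ (j + 1)) = C (p : ℚ) * C ((p : ℚ) ^ j) := by
    rw [map_pow, map_natCast, ← C_mul, ← pow_succ', C_pow]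
    simp
  rw [h2]
  ring

end Integrality

section Log

variable (p : ℕ) [hp : Fact p.Prime]

/-- The functional equation of the logarithm. -/
theorem logc_fe (n : ℕ) :
    C (p : ℚ) * logc p (n + 1) =
      ∑ k ∈ Finset.range (n + 1), X k * expand (p ^ (k + 1)) (logc p (n - k)) := by
  induction n using Nat.strong_induction_on with
  | _ n ih =>
    apply mul_left_cancel₀ (Cp_ne_zero p)
    rw [logc_succ, Finset.sum_range_succ', Finset.sum_range_succ]
    have h1 : ∀ i ∈ Finset.range n, C (p : ℚ) * (logc p (i + 1) * X (n - (i + 1)) ^ p ^ (i + 1))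
        = ∑ k ∈ Finset.range (i + 1),
          (fun k j => X k * expand (p ^ (k + 1)) (logc p j) * X (n - (k + j + 1)) ^ p ^ (k + j + 1)) k (i - k) := by
      intro i hi
      rw [Finset.mem_range] at hi
      rw [← mul_assoc, ih i hi, Finset.sum_mul]
      apply Finset.sum_congr rfl
      intro k hk
      rw [Finset.mem_range] at hk
      have : k + (i - k) = i := by omega
      simp only [this]
    rw [mul_add, Finset.mul_sum, Finset.sum_congr rfl h1, Finset.sum_range_diag_flip n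
      (fun k j => X k * expand (p ^ (k + 1)) (logc p j) * X (n - (k + j + 1)) ^ p ^ (k + j + 1))]
    rw [mul_add, Finset.mul_sum]
    congr 1
    · apply Finset.sum_congr rfl
      intro k hk
      rw [Finset.mem_range] at hk
      obtain ⟨m, hm⟩ : ∃ m, n - k = m + 1 := ⟨n - k - 1, by omega⟩
      have h2 : C (p : ℚ) * (X k * expand (p ^ (k + 1)) (logc p (n - k)))
          = X k * expand (p ^ (k + 1)) (C (p : ℚ) * logc p (n - k)) := by
        rw [map_mul, expand_C]; ring
      rw [h2, hm, logc_succ, map_sum, Finset.mul_sum]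
      apply Finset.sum_congr rfl
      intro j hj
      rw [Finset.mem_range] at hj
      rw [map_mul, map_pow, expand_X]
      have h3 : n - (k + j + 1) = m - j := by omega
      have h4 : p ^ (k + j + 1) = p ^ (k + 1) * p ^ j := by rw [← pow_add]; congr 1; omega
      simp only [h3, h4, pow_mul]
      ring
    · simp only [logc_zero, Nat.sub_self, Nat.sub_zero, pow_zero, pow_one, one_mul, map_one, mul_one]

theorem logc_int (n : ℕ) : IsInt p (C ((p : ℚ) ^ n) * logc p n) := by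
  induction n using Nat.strong_induction_on with
  | _ n ih =>
    cases n with
    | zero => simpa [logc_zero] using IsInt.one
    | succ n =>
      have h1 : C ((p : ℚ) ^ (n + 1)) * logc p (n + 1)
          = ∑ k ∈ Finset.range (n + 1), X k * (C ((p : ℚ) ^ k) *
              expand (p ^ (k + 1)) (C ((p : ℚ) ^ (n - k)) * logc p (n - k))) := by
        rw [pow_succ, C_mul, mul_assoc, logc_fe, Finset.mul_sum]
        apply Finset.sum_congr rfl
        intro k hk
        rw [Finset.mem_range] at hk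
        rw [map_mul, expand_C]
        have : (p : ℚ) ^ n = (p : ℚ) ^ k * (p : ℚ) ^ (n - k) := by
          rw [← pow_add]; congr 1; omega
        rw [this, C_mul]
        ring
      rw [h1]
      apply IsInt.sum
      intro k hk
      rw [Finset.mem_range] at hk
      apply IsInt.mul (IsInt.X k)
      apply IsInt.mul
      · have := IsInt.natC (p := p) (σ := ℕ) (p ^ k)
        rwa [Nat.cast_pow] at this
      · exact (ih (n - k) (by omega)).expand _

end Log

end Vale.Agent.P257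
end
end

section

section

namespace Vale.Agent.P257

open MvPolynomial

section FE

variable (p : ℕ) [hp : Fact p.Prime] {σ : Type} (ι : ℕ → σ)

/-- The logarithm coefficients in a larger polynomial ring. -/
noncomputable def Lg (n : ℕ) : MvPolynomial σ ℚ := rename ι (logc p n)

omit hp in
theorem Lg_zero : Lg p ι 0 = 1 := by simp [Lg, logc_zero]

theorem Lg_fe (n : ℕ) :
    C (p : ℚ) * Lg p ι (n + 1) =
      ∑ k ∈ Finset.range (n + 1), X (ι k) * expand (p ^ (k + 1)) (Lg p ι (n - k)) := by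
  have h := congrArg (rename ι) (logc_fe p n)
  rw [map_mul, rename_C, map_sum] at h
  simpa [Lg, rename_expand] using h

theorem Lg_int (n : ℕ) : IsInt p (C ((p : ℚ) ^ n) * Lg p ι n) := by
  have h := (logc_int p n).rename ι
  rwa [map_mul, rename_C] at h

theorem fe_lemma_A (u T g : ℕ → MvPolynomial σ ℚ)
    (hg : ∀ n, IsInt p (g n))
    (hu0 : u 0 = g 0)
    (hu : ∀ n, C (p : ℚ) * u (n + 1) = C (p : ℚ) * g (n + 1) +
      ∑ k ∈ Finset.range (n + 1), X (ι k) * expand (p ^ (k + 1)) (u (n - k)))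
    (hT : ∀ n, u n = ∑ i ∈ Finset.range (n + 1), Lg p ι i * T (n - i) ^ p ^ i) :
    ∀ n, IsInt p (T n) := by
  intro n
  induction n using Nat.strong_induction_on with
  | _ n ih =>
    cases n with
    | zero =>
      have h := hT 0
      simp only [zero_add, Finset.range_one, Finset.sum_singleton, Lg_zero, Nat.sub_zero,
        pow_zero, pow_one, one_mul] at h
      rw [← h, hu0]
      exact hg 0
    | succ m =>
      have hex : ∀ k j : ℕ, k + j ≤ m → ∃ e : MvPolynomial σ ℚ, IsInt p e ∧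
          expand (p ^ (k + 1)) (Lg p ι j) *
            ((expand (p ^ (k + 1)) (T (m - k - j))) ^ p ^ j - T (m - k - j) ^ p ^ (k + 1 + j))
              = C (p : ℚ) * e := by
        intro k j hkj
        exact bracket p (k + 1) j (Lg_int p ι j) (ih _ (by omega))
      choose! e he1 he2 using hex
      have h1 : C (p : ℚ) * T (m + 1) = C (p : ℚ) * (g (m + 1) +
          ∑ k ∈ Finset.range (m + 1), X (ι k) * ∑ j ∈ Finset.range (m + 1 - k), e k j) := by
        have h2 := hT (m + 1)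
        rw [Finset.sum_range_succ'] at h2
        simp only [Lg_zero, Nat.sub_zero, pow_zero, pow_one, one_mul] at h2
        have h3 : C (p : ℚ) * T (m + 1) = C (p : ℚ) * u (m + 1) - C (p : ℚ) *
            ∑ k ∈ Finset.range (m + 1), Lg p ι (k + 1) * T (m + 1 - (k + 1)) ^ p ^ (k + 1) := by
          rw [h2]; ring
        rw [h3, hu m, mul_add, add_sub_assoc]
        congr 1
        have h4 : C (p : ℚ) *
            ∑ k ∈ Finset.range (m + 1), Lg p ι (k + 1) * T (m + 1 - (k + 1)) ^ p ^ (k + 1)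
            = ∑ k ∈ Finset.range (m + 1), ∑ j ∈ Finset.range (m + 1 - k),
              X (ι k) * expand (p ^ (k + 1)) (Lg p ι j) * T (m - (k + j)) ^ p ^ (k + j + 1) := by
          rw [← Finset.sum_range_diag_flip (m + 1) (fun k j =>
            X (ι k) * expand (p ^ (k + 1)) (Lg p ι j) * T (m - (k + j)) ^ p ^ (k + j + 1)),
            Finset.mul_sum]
          apply Finset.sum_congr rfl
          intro i hi
          rw [← mul_assoc, Lg_fe, Finset.sum_mul]
          apply Finset.sum_congr rfl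
          intro k hk
          rw [Finset.mem_range] at hk hi
          have h5 : k + (i - k) = i := by omega
          have h6 : m + 1 - (i + 1) = m - i := by omega
          rw [h5, h6]
        rw [h4, ← Finset.sum_sub_distrib, Finset.mul_sum]
        apply Finset.sum_congr rfl
        intro k hk
        rw [Finset.mem_range] at hk
        rw [hT (m - k), map_sum, Finset.mul_sum, show m - k + 1 = m + 1 - k by omega,
          ← Finset.sum_sub_distrib, Finset.mul_sum, Finset.mul_sum]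
        apply Finset.sum_congr rfl
        intro j hj
        rw [Finset.mem_range] at hj
        have h7 := he2 k j (by omega)
        have h8 : m - (k + j) = m - k - j := by omega
        have h9 : k + j + 1 = k + 1 + j := by omega
        rw [h8, h9, map_mul, map_pow]
        linear_combination (X (ι k)) * h7
      have h2 := mul_left_cancel₀ (Cp_ne_zero p) h1
      rw [h2]
      apply (hg _).add
      apply IsInt.sum
      intro k hk
      apply (IsInt.X _).mul
      apply IsInt.sum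
      intro j hj
      rw [Finset.mem_range] at hk hj
      exact he1 k j (by omega)

theorem fe_lemma_B (w V t : ℕ → MvPolynomial σ ℚ)
    (ht : ∀ n, IsInt p (t n)) (hw0 : w 0 = 1)
    (hwint : ∀ n, IsInt p (C ((p : ℚ) ^ n) * w n))
    (hw : ∀ n, C (p : ℚ) * w (n + 1) = C (p : ℚ) * t (n + 1) +
      ∑ k ∈ Finset.range (n + 1), X (ι k) * expand (p ^ (k + 1)) (w (n - k)))
    (hV : ∀ n, C (p : ℚ) * w (n + 1) = ∑ i ∈ Finset.range (n + 1), w i * V (n - i) ^ p ^ i) :
    ∀ n, IsInt p (V n) ∧ ∃ E : ℕ → MvPolynomial σ ℚ, (∀ k ∈ Finset.range n, IsInt p (E k)) ∧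
      V n = C (p : ℚ) * t (n + 1) + X (ι n) -
        ∑ i ∈ Finset.range n, t (i + 1) * V (n - 1 - i) ^ p ^ (i + 1) +
        ∑ k ∈ Finset.range n, X (ι k) * E k := by
  intro n
  induction n using Nat.strong_induction_on with
  | _ n ih =>
    have hex : ∀ k j : ℕ, k + j < n → ∃ e : MvPolynomial σ ℚ, IsInt p e ∧
        expand (p ^ (k + 1)) (w j) *
          ((expand (p ^ (k + 1)) (V (n - 1 - k - j))) ^ p ^ j
            - V (n - 1 - k - j) ^ p ^ (k + 1 + j)) = C (p : ℚ) * e := by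
      intro k j hkj
      exact bracket p (k + 1) j (hwint j) (ih _ (by omega)).1
    choose! e he1 he2 using hex
    have key : V n = C (p : ℚ) * t (n + 1) + X (ι n) -
        ∑ i ∈ Finset.range n, t (i + 1) * V (n - 1 - i) ^ p ^ (i + 1) +
        ∑ k ∈ Finset.range n, X (ι k) * ∑ j ∈ Finset.range (n - k), e k j := by
      apply mul_left_cancel₀ (Cp_ne_zero p)
      have h2 := hV n
      rw [Finset.sum_range_succ'] at h2
      simp only [hw0, Nat.sub_zero, pow_zero, pow_one, one_mul] at h2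
      have h3 : C (p : ℚ) * V n = C (p : ℚ) * (C (p : ℚ) * w (n + 1)) - C (p : ℚ) *
          ∑ k ∈ Finset.range n, w (k + 1) * V (n - (k + 1)) ^ p ^ (k + 1) := by
        rw [h2]; ring
      have h4 : C (p : ℚ) * ∑ k ∈ Finset.range n, w (k + 1) * V (n - (k + 1)) ^ p ^ (k + 1)
          = C (p : ℚ) * ∑ i ∈ Finset.range n, t (i + 1) * V (n - 1 - i) ^ p ^ (i + 1) +
            ∑ k ∈ Finset.range n, ∑ j ∈ Finset.range (n - k),
              X (ι k) * expand (p ^ (k + 1)) (w j) * V (n - 1 - (k + j)) ^ p ^ (k + j + 1) := by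
        rw [← Finset.sum_range_diag_flip n (fun k j =>
            X (ι k) * expand (p ^ (k + 1)) (w j) * V (n - 1 - (k + j)) ^ p ^ (k + j + 1)),
            Finset.mul_sum, Finset.mul_sum, ← Finset.sum_add_distrib]
        apply Finset.sum_congr rfl
        intro i hi
        rw [Finset.mem_range] at hi
        rw [← mul_assoc, hw i, add_mul, Finset.sum_mul]
        have h6 : n - (i + 1) = n - 1 - i := by omega
        rw [h6, mul_assoc]
        congr 1
        apply Finset.sum_congr rfl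
        intro k hk
        rw [Finset.mem_range] at hk
        have h5 : k + (i - k) = i := by omega
        rw [h5]
      have h5 : C (p : ℚ) * (C (p : ℚ) * w (n + 1)) = C (p : ℚ) * (C (p : ℚ) * t (n + 1)) +
          C (p : ℚ) * X (ι n) + ∑ k ∈ Finset.range n, ∑ j ∈ Finset.range (n - k),
            X (ι k) * (expand (p ^ (k + 1)) (w j) *
              (expand (p ^ (k + 1)) (V (n - 1 - k - j))) ^ p ^ j) := by
        rw [hw n, mul_add, add_assoc]
        congr 1
        rw [Finset.sum_range_succ, Nat.sub_self, hw0, map_one, mul_one, mul_add, add_comm]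
        congr 1
        rw [Finset.mul_sum]
        apply Finset.sum_congr rfl
        intro k hk
        rw [Finset.mem_range] at hk
        obtain ⟨m, hm⟩ : ∃ m, n - k = m + 1 := ⟨n - k - 1, by omega⟩
        have h7 : C (p : ℚ) * (X (ι k) * expand (p ^ (k + 1)) (w (n - k)))
            = X (ι k) * expand (p ^ (k + 1)) (C (p : ℚ) * w (n - k)) := by
          rw [map_mul, expand_C]; ring
        rw [h7, hm, hV, map_sum, Finset.mul_sum]
        apply Finset.sum_congr rfl
        intro j _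
        rw [map_mul, map_pow]
        have h8 : n - 1 - k - j = m - j := by omega
        rw [h8]
      rw [h3, h4, h5]
      have h6 : ∑ k ∈ Finset.range n, ∑ j ∈ Finset.range (n - k),
            X (ι k) * (expand (p ^ (k + 1)) (w j) *
              (expand (p ^ (k + 1)) (V (n - 1 - k - j))) ^ p ^ j)
          - ∑ k ∈ Finset.range n, ∑ j ∈ Finset.range (n - k),
              X (ι k) * expand (p ^ (k + 1)) (w j) * V (n - 1 - (k + j)) ^ p ^ (k + j + 1)
          = C (p : ℚ) * ∑ k ∈ Finset.range n, X (ι k) * ∑ j ∈ Finset.range (n - k), e k j := by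
        rw [← Finset.sum_sub_distrib, Finset.mul_sum]
        apply Finset.sum_congr rfl
        intro k hk
        rw [← Finset.sum_sub_distrib, Finset.mul_sum, Finset.mul_sum]
        apply Finset.sum_congr rfl
        intro j hj
        rw [Finset.mem_range] at hk hj
        have h7 := he2 k j (by omega)
        have h8 : n - 1 - (k + j) = n - 1 - k - j := by omega
        have h9 : k + j + 1 = k + 1 + j := by omega
        rw [h8, h9]
        linear_combination (X (ι k)) * h7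
      linear_combination h6
    have hE : ∀ k ∈ Finset.range n, IsInt p (∑ j ∈ Finset.range (n - k), e k j) := by
      intro k hk
      apply IsInt.sum
      intro j hj
      rw [Finset.mem_range] at hk hj
      exact he1 k j (by omega)
    refine ⟨?_, fun k => ∑ j ∈ Finset.range (n - k), e k j, hE, key⟩
    rw [key]
    apply IsInt.add
    · apply IsInt.sub
      · exact ((IsInt.natC p).mul (ht _)).add (IsInt.X _)
      · apply IsInt.sum
        intro i hi
        rw [Finset.mem_range] at hi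
        exact (ht _).mul ((ih (n - 1 - i) (by omega)).1.pow _)
    · apply IsInt.sum
      intro k hk
      exact (IsInt.X _).mul (hE k hk)

end FE

end Vale.Agent.P257
end
end

section

section

namespace Vale.Agent.P257

open MvPolynomial

section Rat

variable (p : ℕ) [hp : Fact p.Prime] {σ τ : Type}

theorem rat_toQ (f : MvPolynomial σ (ZLoc p) →ₐ[ZLoc p] MvPolynomial τ (ZLoc p))
    (a : MvPolynomial σ (ZLoc p)) : rat p f (toQ p a) = toQ p (f a) := by
  induction a using MvPolynomial.induction_on with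
  | C c =>
    rw [toQ_C]
    have h1 : f (C c) = C c := f.commutes c
    have h2 : rat p f (C (c : ℚ)) = C (c : ℚ) := (rat p f).commutes (c : ℚ)
    rw [h1, h2, toQ_C]
  | add a b ha hb => simp only [map_add, ha, hb]
  | mul_X a i ha =>
    rw [map_mul, map_mul, map_mul, map_mul, ha, toQ_X]
    congr 1
    simp [rat]

theorem rat_X (f : MvPolynomial σ (ZLoc p) →ₐ[ZLoc p] MvPolynomial τ (ZLoc p)) (i : σ) :
    rat p f (X i) = toQ p (f (X i)) := by simp [rat]

theorem rat_C (f : MvPolynomial σ (ZLoc p) →ₐ[ZLoc p] MvPolynomial τ (ZLoc p)) (c : ℚ) :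
    rat p f (C c) = C c := (rat p f).commutes c

end Rat

section EtaR

variable (p : ℕ) [hp : Fact p.Prime]

omit hp in
theorem expand_tQ (k n : ℕ) : expand k (tQ n) = tQ n ^ k := by
  cases n with
  | zero => simp [tQ_zero, tQ_succ]
  | succ n => simp [tQ_zero, tQ_succ]

theorem tQ_int (n : ℕ) : IsInt p (tQ n) := by
  cases n with
  | zero => exact IsInt.one
  | succ n => exact IsInt.X _

omit hp in
theorem etaRlog_zero : etaRlog p 0 = 1 := by
  simp [etaRlog, logL, logc_zero, tQ_zero]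

theorem etaRlog_fe (n : ℕ) :
    C (p : ℚ) * etaRlog p (n + 1) = C (p : ℚ) * tQ (n + 1) +
      ∑ k ∈ Finset.range (n + 1), X (Sum.inl k) * expand (p ^ (k + 1)) (etaRlog p (n - k)) := by
  rw [etaRlog, Finset.sum_range_succ', mul_add, add_comm]
  congr 1
  · simp [logL, logc_zero]
  · rw [Finset.mul_sum]
    have h1 : ∀ i ∈ Finset.range (n + 1),
        C (p : ℚ) * (logL p (i + 1) * tQ (n + 1 - (i + 1)) ^ p ^ (i + 1)) =
        ∑ k ∈ Finset.range (i + 1), (fun k j => X (Sum.inl k) * expand (p ^ (k + 1)) (logL p j) *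
          tQ (n - (k + j)) ^ p ^ (k + j + 1)) k (i - k) := by
      intro i hi
      rw [Finset.mem_range] at hi
      have h2 : C (p : ℚ) * logL p (i + 1) = _ := Lg_fe p (Sum.inl : ℕ → ℕ ⊕ ℕ) i
      rw [← mul_assoc, h2, Finset.sum_mul]
      apply Finset.sum_congr rfl
      intro k hk
      rw [Finset.mem_range] at hk
      have h5 : k + (i - k) = i := by omega
      have h6 : n + 1 - (i + 1) = n - i := by omega
      simp only [h5, h6]
      rfl
    rw [Finset.sum_congr rfl h1, Finset.sum_range_diag_flip (n + 1) (fun k j =>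
      X (Sum.inl k) * expand (p ^ (k + 1)) (logL p j) * tQ (n - (k + j)) ^ p ^ (k + j + 1))]
    apply Finset.sum_congr rfl
    intro k hk
    rw [Finset.mem_range] at hk
    rw [etaRlog, map_sum, Finset.mul_sum, show n - k + 1 = n + 1 - k by omega]
    apply Finset.sum_congr rfl
    intro j _
    rw [map_mul, map_pow, expand_tQ, ← pow_mul, ← pow_add]
    have h8 : n - (k + j) = n - k - j := by omega
    have h9 : k + j + 1 = k + 1 + j := by omega
    rw [h8, h9, mul_assoc]

theorem etaRlog_int (n : ℕ) : IsInt p (C ((p : ℚ) ^ n) * etaRlog p n) := by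
  rw [etaRlog, Finset.mul_sum]
  apply IsInt.sum
  intro i hi
  rw [Finset.mem_range] at hi
  have h : (p : ℚ) ^ n = (p : ℚ) ^ (n - i) * (p : ℚ) ^ i := by
    rw [← pow_add]; congr 1; omega
  have h2 : C ((p : ℚ) ^ n) * (logL p i * tQ (n - i) ^ p ^ i)
      = C ((p : ℚ) ^ (n - i)) * (C ((p : ℚ) ^ i) * logL p i) * tQ (n - i) ^ p ^ i := by
    rw [h, C_mul]; ring
  rw [h2]
  apply IsInt.mul
  · apply IsInt.mul
    · have := IsInt.natC (p := p) (σ := ℕ ⊕ ℕ) (p ^ (n - i))
      rwa [Nat.cast_pow] at this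
    · exact Lg_int p Sum.inl i
  · exact (tQ_int p _).pow _

/-- The candidate for `etaR(v_(n+1))`. -/
noncomputable def etaRV : ℕ → MvPolynomial (ℕ ⊕ ℕ) ℚ
  | n => C (p : ℚ) * etaRlog p (n + 1) -
      ∑ i : Fin n, etaRlog p (i + 1) * etaRV (n - 1 - i) ^ p ^ ((i : ℕ) + 1)
decreasing_by
  have := i.2
  omega

theorem etaRV_rec (n : ℕ) :
    C (p : ℚ) * etaRlog p (n + 1) =
      ∑ i ∈ Finset.range (n + 1), etaRlog p i * etaRV p (n - i) ^ p ^ i := by
  rw [Finset.sum_range_succ']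
  simp only [etaRlog_zero, Nat.sub_zero, pow_zero, pow_one, one_mul]
  rw [etaRV, ← Fin.sum_univ_eq_sum_range (fun i => etaRlog p (i + 1) * etaRV p (n - (i + 1)) ^ p ^ (i + 1))]
  have : ∑ i : Fin n, etaRlog p (↑i + 1) * etaRV p (n - (↑i + 1)) ^ p ^ ((i : ℕ) + 1)
      = ∑ i : Fin n, etaRlog p (i + 1) * etaRV p (n - 1 - i) ^ p ^ ((i : ℕ) + 1) := by
    apply Finset.sum_congr rfl
    intro i _
    rw [show n - ((i : ℕ) + 1) = n - 1 - i by omega]
  rw [this]
  ring

theorem etaRV_int (n : ℕ) : IsInt p (etaRV p n) :=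
  (fe_lemma_B p Sum.inl (etaRlog p) (etaRV p) tQ (tQ_int p) (etaRlog_zero p) (etaRlog_int p)
    (etaRlog_fe p) (etaRV_rec p) n).1

/-- The right unit exists. -/
theorem exists_etaR' : ∃ f : BP p →ₐ[ZLoc p] BPBP p, IsEtaR' p f := by
  choose g hg using etaRV_int p
  refine ⟨aeval g, ?_⟩
  intro n
  have h0 : ∀ m, rat p (aeval g) (X m) = etaRV p m := by
    intro m
    rw [rat_X, aeval_X, hg]
  induction n using Nat.strong_induction_on with
  | _ n ih =>
    cases n with
    | zero => rw [logc_zero, map_one, etaRlog_zero]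
    | succ n =>
      apply mul_left_cancel₀ (Cp_ne_zero p)
      have h := congrArg (rat p (aeval g)) (logc_succ p n)
      rw [map_mul, rat_C, map_sum] at h
      rw [h, etaRV_rec]
      apply Finset.sum_congr rfl
      intro i hi
      rw [Finset.mem_range] at hi
      rw [map_mul, map_pow, ih i hi, h0]

end EtaR

end Vale.Agent.P257
end
end

section

section

namespace Vale.Agent.P257

open MvPolynomial

section Conv

variable (p : ℕ) [hp : Fact p.Prime] {σ : Type} (ι : ℕ → σ)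

/-- Twisted convolution with the logarithm. -/
noncomputable def conv (g : ℕ → MvPolynomial σ ℚ) (n : ℕ) : MvPolynomial σ ℚ :=
  ∑ i ∈ Finset.range (n + 1), Lg p ι i * expand (p ^ i) (g (n - i))

omit hp in
theorem conv_zero (g : ℕ → MvPolynomial σ ℚ) : conv p ι g 0 = g 0 := by
  simp [conv, Lg_zero]

theorem conv_fe (g : ℕ → MvPolynomial σ ℚ) (n : ℕ) :
    C (p : ℚ) * conv p ι g (n + 1) = C (p : ℚ) * g (n + 1) +
      ∑ k ∈ Finset.range (n + 1), X (ι k) * expand (p ^ (k + 1)) (conv p ι g (n - k)) := by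
  rw [conv, Finset.sum_range_succ', mul_add, add_comm]
  congr 1
  · simp [Lg_zero]
  · rw [Finset.mul_sum]
    have h1 : ∀ i ∈ Finset.range (n + 1),
        C (p : ℚ) * (Lg p ι (i + 1) * expand (p ^ (i + 1)) (g (n + 1 - (i + 1)))) =
        ∑ k ∈ Finset.range (i + 1), (fun k j => X (ι k) * expand (p ^ (k + 1)) (Lg p ι j) *
          expand (p ^ (k + j + 1)) (g (n - (k + j)))) k (i - k) := by
      intro i hi
      rw [Finset.mem_range] at hi
      rw [← mul_assoc, Lg_fe, Finset.sum_mul]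
      apply Finset.sum_congr rfl
      intro k hk
      rw [Finset.mem_range] at hk
      have h5 : k + (i - k) = i := by omega
      have h6 : n + 1 - (i + 1) = n - i := by omega
      simp only [h5, h6]
    rw [Finset.sum_congr rfl h1, Finset.sum_range_diag_flip (n + 1) (fun k j =>
      X (ι k) * expand (p ^ (k + 1)) (Lg p ι j) * expand (p ^ (k + j + 1)) (g (n - (k + j))))]
    apply Finset.sum_congr rfl
    intro k hk
    rw [Finset.mem_range] at hk
    rw [conv, map_sum, Finset.mul_sum, show n - k + 1 = n + 1 - k by omega]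
    apply Finset.sum_congr rfl
    intro j _
    have h8 : n - (k + j) = n - k - j := by omega
    have h9 : p ^ (k + j + 1) = p ^ (k + 1) * p ^ j := by rw [← pow_add]; congr 1; omega
    rw [map_mul, ← expand_mul, h8, h9, mul_assoc]

/-- The sequence `T` with `conv g = sum l_i T_(n-i)^(p^i)`. -/
noncomputable def solveT (g : ℕ → MvPolynomial σ ℚ) : ℕ → MvPolynomial σ ℚ
  | n => conv p ι g n - ∑ i : Fin n, Lg p ι (i + 1) * solveT g (n - 1 - i) ^ p ^ ((i : ℕ) + 1)
decreasing_by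
  have := i.2
  omega

omit hp in
theorem solveT_spec (g : ℕ → MvPolynomial σ ℚ) (n : ℕ) :
    conv p ι g n = ∑ i ∈ Finset.range (n + 1), Lg p ι i * solveT p ι g (n - i) ^ p ^ i := by
  rw [Finset.sum_range_succ']
  simp only [Lg_zero, Nat.sub_zero, pow_zero, pow_one, one_mul]
  conv_rhs => rw [solveT]
  rw [← Fin.sum_univ_eq_sum_range
    (fun i => Lg p ι (i + 1) * solveT p ι g (n - (i + 1)) ^ p ^ (i + 1))]
  have : ∑ i : Fin n, Lg p ι (↑i + 1) * solveT p ι g (n - (↑i + 1)) ^ p ^ ((i : ℕ) + 1)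
      = ∑ i : Fin n, Lg p ι (i + 1) * solveT p ι g (n - 1 - i) ^ p ^ ((i : ℕ) + 1) := by
    apply Finset.sum_congr rfl
    intro i _
    rw [show n - ((i : ℕ) + 1) = n - 1 - i by omega]
  rw [this]
  ring

theorem solveT_int (g : ℕ → MvPolynomial σ ℚ) (hg : ∀ n, IsInt p (g n)) (n : ℕ) :
    IsInt p (solveT p ι g n) :=
  fe_lemma_A p ι (conv p ι g) (solveT p ι g) g hg (conv_zero p ι g) (conv_fe p ι g)
    (solveT_spec p ι g) n

end Conv

section Delta

variable (p : ℕ) [hp : Fact p.Prime]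

/-- `sum_j t_j ⊗ t_(n-j)^(p^j)`. -/
noncomputable def gD (n : ℕ) : MvPolynomial (ℕ ⊕ (ℕ ⊕ ℕ)) ℚ :=
  ∑ j ∈ Finset.range (n + 1), tQ1 j * tQ2 (n - j) ^ p ^ j

omit hp in
theorem expand_tQ1 (k n : ℕ) : expand k (tQ1 n) = tQ1 n ^ k := by
  cases n with
  | zero => simp [tQ1_zero, tQ1_succ]
  | succ n => simp [tQ1_zero, tQ1_succ]

omit hp in
theorem expand_tQ2 (k n : ℕ) : expand k (tQ2 n) = tQ2 n ^ k := by
  cases n with
  | zero => simp [tQ2_zero, tQ2_succ]
  | succ n => simp [tQ2_zero, tQ2_succ]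

theorem gD_int (n : ℕ) : IsInt p (gD p n) := by
  apply IsInt.sum
  intro j _
  apply IsInt.mul
  · cases j with
    | zero => exact IsInt.one
    | succ n => exact IsInt.X _
  · apply IsInt.pow
    cases (n - j) with
    | zero => exact IsInt.one
    | succ n => exact IsInt.X _

omit hp in
/-- The right hand side of the defining property of `Delta` is a twisted convolution. -/
theorem conv_gD (n : ℕ) :
    ∑ i ∈ Finset.range (n + 1), ∑ j ∈ Finset.range (n + 1 - i),
      logL2 p i * tQ1 j ^ p ^ i * tQ2 (n - i - j) ^ p ^ (i + j)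
      = conv p (Sum.inl : ℕ → ℕ ⊕ (ℕ ⊕ ℕ)) (gD p) n := by
  rw [conv]
  apply Finset.sum_congr rfl
  intro i hi
  rw [Finset.mem_range] at hi
  rw [gD, map_sum, Finset.mul_sum, show n - i + 1 = n + 1 - i by omega]
  apply Finset.sum_congr rfl
  intro j _
  rw [map_mul, map_pow, expand_tQ1, expand_tQ2, ← pow_mul, ← pow_add]
  simp only [logL2, Lg]
  ring

omit hp in
theorem solveT_gD_zero : solveT p (Sum.inl : ℕ → ℕ ⊕ (ℕ ⊕ ℕ)) (gD p) 0 = 1 := by
  have h := solveT_spec p (Sum.inl : ℕ → ℕ ⊕ (ℕ ⊕ ℕ)) (gD p) 0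
  rw [conv_zero] at h
  simp [Lg_zero, gD, tQ1_zero, tQ2_zero] at h
  exact h.symm

/-- The coproduct exists. -/
theorem exists_Delta' : ∃ f : BPBP p →ₐ[ZLoc p] BPBP2 p, IsDelta' p f := by
  choose T hT using solveT_int p (Sum.inl : ℕ → ℕ ⊕ (ℕ ⊕ ℕ)) (gD p) (gD_int p)
  refine ⟨aeval (Sum.elim (fun i => X (Sum.inl i)) (fun i => T (i + 1))), ?_, ?_⟩
  · intro i
    rw [aeval_X]
    rfl
  · intro n
    rw [conv_gD, solveT_spec]
    apply Finset.sum_congr rfl
    intro i _
    congr 2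
    cases (n - i) with
    | zero => rw [tQ_zero, map_one, solveT_gD_zero]
    | succ m =>
      rw [tQ_succ, rat_X, aeval_X, Sum.elim_inr, hT]

end Delta

end Vale.Agent.P257
end
end

section

section

namespace Vale.Agent.P257

open MvPolynomial

section Homog

variable {σ τ : Type} {R : Type} [CommRing R]

end Homog

section

variable (p : ℕ) [hp : Fact p.Prime]

end

end Vale.Agent.P257
end
end

section

section

namespace Vale.Agent.P257

open MvPolynomial

variable (p : ℕ) [hp : Fact p.Prime]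

end Vale.Agent.P257
end
end

section

section

namespace Vale.Agent.P257.S

open CategoryTheory Limits Pretriangulated

universe v' u

variable {T : Type u} [Category.{v'} T] [Preadditive T] [HasShift T ℤ]
variable [HasZeroObject T] [∀ n : ℤ, (shiftFunctor T n).Additive] [Pretriangulated T]

/-- The finite `p`-local objects: the retracts of `p`-localizations `ι : A ⟶ B` of finite CW
objects `A`; `L Z` says that `Z` is `p`-local. -/
def IsFinitePLocal (p : ℕ) (S X : T) : Prop :=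
  let L : T → Prop := fun Z => ∀ m : ℕ, m.Coprime p → IsIso (m • 𝟙 Z)
  ∃ (A B : T) (ι : A ⟶ B) (i : X ⟶ B) (r : B ⟶ X),
    (∀ P : T → Prop, (∀ Y, IsZero Y → P Y) →
      (∀ D ∈ distTriang T, (∃ n : ℤ, Nonempty (D.obj₁ ≅ S⟦n⟧)) → P D.obj₂ → P D.obj₃) → P A) ∧
    L B ∧ (∀ Z, L Z → Function.Bijective fun g : B ⟶ Z => ι ≫ g) ∧ i ≫ r = 𝟙 X

end Vale.Agent.P257.S
end
end

section

section

/-!
The `p`-local sphere and its homology, for the definitions of `S.Defs`.
-/

namespace Vale.Agent.P257.S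

open CategoryTheory Limits Pretriangulated

universe v' u

section

variable {T : Type u} [Category.{v'} T] [HasCountableCoproducts T]

/-- Elements of the value of a coproduct-preserving functor with values in modules on a
countable coproduct are finite sums. -/
theorem exists_sum_module {A : Type} [CommRing A] (h : T ⥤ ModuleCat.{0} A)
    [PreservesColimitsOfShape (Discrete ℕ) h] (Y : ℕ → T) (x : h.obj (∐ Y)) :
    ∃ (s : Finset ℕ) (y : ∀ i, h.obj (Y i)), x = ∑ i ∈ s, (h.map (Sigma.ι Y i)).hom (y i) := by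
  classical
  let N : Submodule A (h.obj (∐ Y)) := ⨆ i : ℕ, LinearMap.range (h.map (Sigma.ι Y i)).hom
  have hc := isColimitOfPreserves h (colimit.isColimit (Discrete.functor Y))
  have h1 : ModuleCat.ofHom N.mkQ = 0 := by
    apply hc.hom_ext
    rintro ⟨i⟩
    ext z
    have h2 : (h.map (Sigma.ι Y i)).hom z ∈ N :=
      (le_iSup (fun i : ℕ => LinearMap.range (h.map (Sigma.ι Y i)).hom) i) ⟨z, rfl⟩
    exact (Submodule.Quotient.mk_eq_zero N).2 h2
  have h3 : x ∈ N := by
    rw [← Submodule.Quotient.mk_eq_zero N]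
    exact congrArg (fun f => f.hom x) h1
  rw [Submodule.mem_iSup_iff_exists_finsupp] at h3
  obtain ⟨f, hf, rfl⟩ := h3
  choose y hy using hf
  exact ⟨f.support, y, Finset.sum_congr rfl fun i _ => (hy i).symm⟩

end

section

variable {T : Type u} [Category.{v'} T] [Preadditive T] [HasCountableCoproducts T]

theorem isCompactObj_of_preserves {S : T}
    (hS : PreservesColimitsOfShape (Discrete ℕ) (preadditiveCoyoneda.obj (Opposite.op S))) :
    IsCompactObj S := by
  classical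
  intro Y x
  let F := preadditiveCoyoneda.obj (Opposite.op S)
  let N : AddSubgroup (S ⟶ ∐ Y) := ⨆ i : ℕ, (Preadditive.rightComp S (Sigma.ι Y i)).range
  have hc := isColimitOfPreserves F (colimit.isColimit (Discrete.functor Y))
  have h1 : (AddCommGrpCat.ofHom (QuotientAddGroup.mk' N) : F.obj (∐ Y) ⟶ _) = 0 := by
    apply hc.hom_ext
    rintro ⟨i⟩
    ext z
    have h2 : Preadditive.rightComp S (Sigma.ι Y i) z ∈ N :=
      (le_iSup (fun i : ℕ => (Preadditive.rightComp S (Sigma.ι Y i)).range) i) ⟨z, rfl⟩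
    exact (QuotientAddGroup.eq_zero_iff _).2 h2
  have h3 : x ∈ N := by
    rw [← QuotientAddGroup.eq_zero_iff]
    exact congrArg (fun f => f.hom x) h1
  clear h1
  refine AddSubgroup.iSup_induction (fun i : ℕ => (Preadditive.rightComp S (Sigma.ι Y i)).range)
    (C := fun x : S ⟶ ∐ Y => ∃ (s : Finset ℕ) (g : ∀ i, S ⟶ Y i),
      x = ∑ i ∈ s, g i ≫ Sigma.ι Y i) h3 ?_ ?_ ?_
  · rintro i _ ⟨g, rfl⟩
    refine ⟨{i}, fun j => if h : i = j then g ≫ eqToHom (congrArg Y h) else 0, ?_⟩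
    simp
    rfl
  · exact ⟨∅, fun _ => 0, by simp⟩
  · rintro a b ⟨s, f, rfl⟩ ⟨t, g, rfl⟩
    refine ⟨s ∪ t, fun i => (if i ∈ s then f i else 0) + (if i ∈ t then g i else 0), ?_⟩
    have h5 : ∑ i ∈ s ∪ t, (if i ∈ s then f i else 0) ≫ Sigma.ι Y i =
        ∑ i ∈ s, f i ≫ Sigma.ι Y i := by
      rw [← Finset.sum_subset Finset.subset_union_left]
      · exact Finset.sum_congr rfl fun i hi => by rw [if_pos hi]
      · intro i _ hi
        rw [if_neg hi, zero_comp]
    have h6 : ∑ i ∈ s ∪ t, (if i ∈ t then g i else 0) ≫ Sigma.ι Y i =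
        ∑ i ∈ t, g i ≫ Sigma.ι Y i := by
      rw [← Finset.sum_subset Finset.subset_union_right]
      · exact Finset.sum_congr rfl fun i hi => by rw [if_pos hi]
      · intro i _ hi
        rw [if_neg hi, zero_comp]
    simp only [Preadditive.add_comp]
    rw [Finset.sum_add_distrib, h5, h6]

end

section

variable {T : Type u} [Category.{v'} T] [Preadditive T] [HasShift T ℤ] [HasZeroObject T]
  [∀ n : ℤ, (shiftFunctor T n).Additive] [Pretriangulated T]

theorem isFinitePLocal_iff' (p : ℕ) (S X : T) :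
    IsFinitePLocal p S X ↔ Vale.Agent.P257.IsFinitePLocal p S X := by
  constructor
  · rintro ⟨A, B, ι, i, r, hA, hB, hι, hir⟩
    refine ⟨A, B, ι, i, r, hA (IsFiniteCW S) (fun Y hY => .zero hY) ?_, ⟨hB, hι⟩, hir⟩
    rintro D hD ⟨n, ⟨e⟩⟩ h2
    exact IsFiniteCW.cell' D hD n e h2
  · rintro ⟨A, B, ι, i, r, hA, hι, hir⟩
    refine ⟨A, B, ι, i, r, fun P h0 h1 => ?_, hι.1, hι.2, hir⟩
    clear hι hir
    clear ι
    clear i r
    induction hA with
    | zero hz => exact h0 _ hz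
    | @cell n X Y f g h hD hX ih => exact h1 _ hD ⟨n, ⟨Iso.refl _⟩⟩ ih

end

/-- The `p`-local sphere. -/
theorem exists_local_sphere {p : ℕ} [Fact p.Prime] {T : Type u} [Category.{v'} T]
    [HasZeroObject T] [Preadditive T] [HasShift T ℤ] [∀ n : ℤ, (shiftFunctor T n).Additive]
    [Pretriangulated T] [IsTriangulated T] [HasCountableCoproducts T] (S : T)
    {A : Type} [CommRing A] (h : T ⥤ ModuleCat.{0} A) [h.IsHomological]
    [PreservesColimitsOfShape (Discrete ℕ) h] (σ : h ≅ shiftFunctor T (1 : ℤ) ⋙ h)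
    (hA : ∀ m : ℕ, m.Coprime p → IsUnit (m : A))
    (endSphere : Nonempty (End S ≃+* ℤ))
    (connective : ∀ n : ℤ, 0 < n → ∀ f : S ⟶ S⟦n⟧, f = 0)
    (compact : PreservesColimitsOfShape (Discrete ℕ) (preadditiveCoyoneda.obj (Opposite.op S)))
    (detects : ∀ X : T, (∀ (n : ℤ) (f : S⟦n⟧ ⟶ X), f = 0) → IsZero X) :
    ∃ (S1 : T) (s : S ⟶ S1), (∀ n : ℤ, 0 < n → ∀ f : S1 ⟶ S1⟦n⟧, f = 0) ∧
      Function.Bijective (h.map s).hom ∧ (∀ m : ℕ, m.Coprime p → IsIso (m • 𝟙 S1)) ∧
      (∀ f : S1 ⟶ S1, ∃ (b : ℕ) (a : ℤ), b.Coprime p ∧ b • f = a • 𝟙 S1) ∧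
      ∀ X, IsFinitePLocal p S X ↔ K.IsFinite S1 X := by
  have hc := isCompactObj_of_preserves compact
  obtain ⟨e⟩ := endSphere
  obtain ⟨S1, s, hs⟩ := exists_localization (p := p) hc detects S
  have E : IsLocHomology p h := ⟨inferInstance, exists_sum_module h, ⟨σ.symm⟩, hA⟩
  refine ⟨S1, s, fun n hn f => connective_localization hc detects (fun n f hn => connective n hn f)
    hs n f hn, E.localization_bijective hc detects hs, hs.1,
    fun f => exists_frac hc detects e hs f, fun X => ?_⟩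
  rw [isFinitePLocal_iff']
  exact isFinitePLocal_iff hc detects hs X

end Vale.Agent.P257.S
end
end

section

section

namespace Vale.Agent.P257.S

open MvPolynomial

theorem gen_zero {A : Type} [CommRing A] (c : A) : gen c 0 = C c := rfl

theorem gen_succ {A : Type} [CommRing A] (c : A) (n : ℕ) : gen c (n + 1) = X n := rfl

end Vale.Agent.P257.S
end
end

section

section

/-!
The graded ring `R[v_1, v_2, ...]` and its ideals `(p, v_1, ..., v_(n-1))`.
-/

namespace Vale.Agent.P257.S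

open MvPolynomial Vale.Agent.P257.K

section weights

variable (p : ℕ) [hp : Fact p.Prime]

/-- the degree of `v_(i+1)` -/
def wt (i : ℕ) : ℤ := vdeg p (i + 1)

omit hp in
theorem vdeg_zero : vdeg p 0 = 0 := by simp [vdeg]

theorem wt_pos (i : ℕ) : 2 ≤ wt p i := by
  have h1 : (2 : ℤ) ≤ p := by exact_mod_cast hp.out.two_le
  have h2 : (1 : ℤ) ≤ (p : ℤ) ^ i := one_le_pow₀ (by omega)
  have h3 : (p : ℤ) ^ (i + 1) = p ^ i * p := pow_succ _ _
  rw [wt, vdeg, h3]
  nlinarith

theorem weight_nonneg (d : ℕ →₀ ℕ) : 0 ≤ Finsupp.weight (wt p) d := by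
  rw [Finsupp.weight_apply, Finsupp.sum]
  apply Finset.sum_nonneg
  intro i _
  have := wt_pos p i
  positivity

theorem weight_pos {d : ℕ →₀ ℕ} (hd : d ≠ 0) : 2 ≤ Finsupp.weight (wt p) d := by
  obtain ⟨i, hi⟩ := Finsupp.support_nonempty_iff.2 hd
  rw [Finsupp.weight_apply, Finsupp.sum, ← Finset.add_sum_erase _ _ hi]
  have h1 : 0 ≤ ∑ x ∈ d.support.erase i, d x • wt p x := by
    apply Finset.sum_nonneg
    intro i _
    have := wt_pos p i
    positivity
  have h2 : 1 ≤ d i := Nat.one_le_iff_ne_zero.2 (Finsupp.mem_support_iff.1 hi)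
  have h3 := wt_pos p i
  have h4 : wt p i ≤ d i • wt p i := by
    rw [nsmul_eq_mul]
    have : (1 : ℤ) ≤ (d i : ℤ) := by exact_mod_cast h2
    nlinarith
  omega

theorem vdeg_nonneg (n : ℕ) : 0 ≤ vdeg p n := by
  have h1 : (1 : ℤ) ≤ p := by exact_mod_cast hp.out.one_le
  have h2 : (1 : ℤ) ≤ (p : ℤ) ^ n := one_le_pow₀ h1
  rw [vdeg]
  omega

theorem growth (n : ℕ) : Dsum (vdeg p) n ≤ vdeg p n := by
  have h2 : (2 : ℤ) ≤ p := by exact_mod_cast hp.out.two_le
  induction n with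
  | zero => exact vdeg_nonneg p 0
  | succ n ih =>
    have h1 : (1 : ℤ) ≤ (p : ℤ) ^ n := one_le_pow₀ (by omega)
    rw [Dsum_succ]
    have h3 : vdeg p (n + 1) = 2 * ((p : ℤ) ^ n * p - 1) := by rw [vdeg, pow_succ]
    have h4 : vdeg p n = 2 * ((p : ℤ) ^ n - 1) := rfl
    rw [h3]
    rw [h4] at ih ⊢
    nlinarith

end weights

section

variable {R : Type} [CommRing R]

theorem Jw_zero (c : R) : Jw (gen c) 0 = ⊥ := by
  unfold Jw
  simp

theorem gen_mem_Jw (c : R) {i n : ℕ} (h : i < n) : gen c i ∈ Jw (gen c) n :=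
  Ideal.subset_span ⟨i, h, rfl⟩

theorem mem_Jw_gen_succ (c : R) (n : ℕ) (a : MvPolynomial ℕ R) :
    a ∈ Jw (gen c) (n + 1) ↔ ∀ m : ℕ →₀ ℕ, (∀ i < n, m i = 0) → c ∣ coeff m a := by
  constructor
  · intro ha
    let J : Ideal (MvPolynomial ℕ R) :=
      { carrier := {a | ∀ m : ℕ →₀ ℕ, (∀ i < n, m i = 0) → c ∣ coeff m a}
        add_mem' := by
          intro x y hx hy m hm
          rw [coeff_add]
          exact dvd_add (hx m hm) (hy m hm)
        zero_mem' := by
          intro m _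
          simp
        smul_mem' := by
          intro c x hx m hm
          rw [smul_eq_mul, coeff_mul]
          apply Finset.dvd_sum
          rintro ⟨u, w⟩ huw
          rw [Finset.HasAntidiagonal.mem_antidiagonal] at huw
          apply Dvd.dvd.mul_left
          apply hx
          intro i hi
          have h1 := hm i hi
          rw [← huw] at h1
          simp at h1
          exact h1.2 }
    have hJ : Jw (gen c) (n + 1) ≤ J := by
      apply Ideal.span_le.2
      rintro _ ⟨i, hi, rfl⟩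
      cases i with
      | zero =>
        intro m _
        simp only [gen_zero]
        rw [coeff_C]
        split_ifs
        · exact dvd_rfl
        · exact dvd_zero _
      | succ i =>
        intro m hm
        have hi' : i < n := Nat.lt_of_succ_lt_succ hi
        simp only [gen_succ]
        rw [coeff_X]
        split_ifs with h
        · exfalso
          have := hm i hi'
          rw [← h] at this
          simp at this
        · exact dvd_zero _
    exact hJ ha
  · intro h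
    rw [a.as_sum]
    apply Ideal.sum_mem
    intro m _
    by_cases hm : ∀ i < n, m i = 0
    · obtain ⟨r, hr⟩ := h m hm
      rw [hr, monomial_eq, C_mul, mul_assoc]
      apply Ideal.mul_mem_right
      have := gen_mem_Jw c (Nat.succ_pos n)
      simpa [gen_zero] using this
    · push Not at hm
      obtain ⟨i, hi, hmi⟩ := hm
      have h1 : monomial m (coeff m a) = monomial (m - Finsupp.single i 1) (coeff m a) * X i := by
        rw [X, monomial_mul, mul_one]
        congr 1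
        rw [tsub_add_cancel_of_le]
        rw [Finsupp.single_le_iff]
        exact Nat.one_le_iff_ne_zero.2 hmi
      rw [h1]
      apply Ideal.mul_mem_left
      have := gen_mem_Jw c (Nat.succ_lt_succ hi)
      simpa [gen_succ] using this

theorem mul_gen_mem {c : R} (hc : ∀ r : R, c * r = 0 → r = 0) {n : ℕ} {a : MvPolynomial ℕ R}
    (h : a * gen c n ∈ Jw (gen c) n) : a ∈ Jw (gen c) n := by
  cases n with
  | zero =>
    rw [Jw_zero] at h ⊢
    rw [Ideal.mem_bot] at h ⊢
    ext m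
    rw [coeff_zero]
    have h1 := congrArg (coeff m) h
    rw [gen_zero, mul_comm, coeff_C_mul, coeff_zero] at h1
    exact hc _ h1
  | succ n =>
    rw [mem_Jw_gen_succ] at h ⊢
    intro m hm
    have h1 := h (m + Finsupp.single n 1) (by
      intro i hi
      simp [hm i hi, hi.ne'])
    simp only [gen_succ] at h1
    rwa [coeff_mul_X] at h1

variable (p : ℕ)

/-- homogeneous polynomials -/
noncomputable def grP (R : Type) [CommRing R] (n : ℤ) : Submodule R (MvPolynomial ℕ R) :=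
  weightedHomogeneousSubmodule R (wt p) n

noncomputable instance : GradedAlgebra (grP p R) := weightedGradedAlgebra R (wt p)

theorem gen_homog (c : R) (n : ℕ) : gen c n ∈ grP p R (vdeg p n) := by
  cases n with
  | zero =>
    rw [vdeg_zero]
    exact isWeightedHomogeneous_C _ _
  | succ n => exact isWeightedHomogeneous_X _ _ _

variable [hp : Fact p.Prime]

theorem goodSeq {c : R} (hc : ∀ r : R, c * r = 0 → r = 0) (N : ℕ) :
    GoodSeq (grP p R) (gen c) (vdeg p) N :=
  ⟨fun i _ => gen_homog p c i, fun _ _ _ h => mul_gen_mem hc h, fun n _ => growth p n⟩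

theorem grP_neg (j : ℤ) (hj : j < 0) (a : MvPolynomial ℕ R) (ha : a ∈ grP p R j) : a = 0 := by
  by_contra h
  obtain ⟨d, hd⟩ := MvPolynomial.ne_zero_iff.1 h
  have h1 : Finsupp.weight (wt p) d = j := ha hd
  have h2 := weight_nonneg p d
  omega

theorem grP_one (a : MvPolynomial ℕ R) (ha : a ∈ grP p R 1) : a = 0 := by
  by_contra h
  obtain ⟨d, hd⟩ := MvPolynomial.ne_zero_iff.1 h
  have h1 : Finsupp.weight (wt p) d = 1 := ha hd
  by_cases h0 : d = 0
  · subst h0
    simp at h1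
  · have := weight_pos p h0
    omega

theorem grP_zero (a : MvPolynomial ℕ R) (ha : a ∈ grP p R 0) : ∃ r, a = C r := by
  refine ⟨coeff 0 a, ?_⟩
  ext d
  rw [coeff_C]
  split_ifs with h
  · rw [h]
  · by_contra hne
    have hne' : coeff d a ≠ 0 := fun h0 => hne (by rw [h0])
    have h1 : Finsupp.weight (wt p) d = 0 := ha hne'
    have := weight_pos p (Ne.symm h)
    omega

end

end Vale.Agent.P257.S
end
end

section

section

/-!
Lemmas on graded comodules.
-/

namespace Vale.Agent.P257.S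

open MvPolynomial TensorProduct Vale.Agent.P257.K

/-- The properties of the ring of `p`-local integers that we need. -/
structure IsZp (p : ℕ) (R : Type) [CommRing R] : Prop where
  unit : ∀ b : ℕ, b.Coprime p → IsUnit (b : R)
  frac : ∀ r : R, ∃ (a : ℤ) (b : ℕ), b.Coprime p ∧ (b : R) * r = a
  tf : ∀ n : ℤ, (n : R) = 0 → n = 0
  reg : ∀ r : R, (p : R) * r = 0 → r = 0

theorem isZp_of_isLocalization (p : ℕ) [hp : Fact p.Prime] (R : Type) [CommRing R]
    [hP : (Ideal.span {(p : ℤ)}).IsPrime] [hR : IsLocalization.AtPrime R (Ideal.span {(p : ℤ)})] :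
    IsZp p R := by
  have hle : (Ideal.span {(p : ℤ)}).primeCompl ≤ nonZeroDivisors ℤ := by
    intro x hx
    rw [mem_nonZeroDivisors_iff_ne_zero]
    rintro rfl
    exact hx (Ideal.zero_mem _)
  have hinj : Function.Injective (algebraMap ℤ R) :=
    IsLocalization.injective R hle
  have hdom : IsDomain R := IsLocalization.isDomain_of_le_nonZeroDivisors R hle
  have htf : ∀ n : ℤ, (n : R) = 0 → n = 0 := by
    intro n hn
    apply hinj
    rw [map_zero]
    simpa using hn
  have hmem : ∀ n : ℤ, n ∈ (Ideal.span {(p : ℤ)}).primeCompl ↔ ¬ (p : ℤ) ∣ n := by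
    intro n
    rw [Ideal.primeCompl, ← Ideal.mem_span_singleton]
    rfl
  refine ⟨?_, ?_, htf, ?_⟩
  · intro b hb
    have h1 : (b : ℤ) ∈ (Ideal.span {(p : ℤ)}).primeCompl := by
      rw [hmem]
      intro h
      have h2 : p ∣ b := by exact_mod_cast h
      have h3 := Nat.Coprime.eq_one_of_dvd (Nat.Coprime.symm hb) h2
      exact hp.out.one_lt.ne' h3
    have h2 := IsLocalization.map_units R (⟨(b : ℤ), h1⟩ : (Ideal.span {(p : ℤ)}).primeCompl)
    simpa using h2
  · intro r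
    obtain ⟨⟨a, s⟩, hs⟩ := IsLocalization.surj (Ideal.span {(p : ℤ)}).primeCompl r
    have hs1 : ¬ (p : ℤ) ∣ (s : ℤ) := (hmem _).1 s.2
    have hs2 : r * ((s : ℤ) : R) = (a : R) := by simpa using hs
    have hcop : (s : ℤ).natAbs.Coprime p := by
      rw [Nat.coprime_comm, Nat.Prime.coprime_iff_not_dvd hp.out]
      intro h
      exact hs1 (Int.natCast_dvd.2 h)
    have hc : (((s : ℤ).natAbs : ℕ) : R) = (((s : ℤ).natAbs : ℤ) : R) := (Int.cast_natCast _).symm
    rcases Int.natAbs_eq (s : ℤ) with h | h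
    · refine ⟨a, _, hcop, ?_⟩
      rw [hc, ← h, ← hs2, mul_comm]
    · refine ⟨-a, _, hcop, ?_⟩
      have h' : (((s : ℤ).natAbs : ℤ)) = -(s : ℤ) := by omega
      rw [hc, h', Int.cast_neg, Int.cast_neg, ← hs2, neg_mul, mul_comm]
  · intro r hr
    rcases mul_eq_zero.1 hr with h | h
    · exfalso
      have := htf p (by exact_mod_cast h)
      have h2 : p = 0 := by exact_mod_cast this
      exact hp.out.ne_zero h2
    · exact h

variable {p : ℕ} {R : Type} [CommRing R] {B : BPBP p (MvPolynomial ℕ R)}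
  {M : ModuleCat.{0} (MvPolynomial ℕ R)}

theorem nat_smul_inj (hR : IsZp p R) {b : ℕ} (hb : b.Coprime p) {x : M} (h : b • x = 0) :
    x = 0 := by
  obtain ⟨c, hc⟩ := (hR.unit b hb).exists_left_inv
  have h1 : (C c : MvPolynomial ℕ R) * (b : MvPolynomial ℕ R) = 1 := by
    rw [← map_natCast C, ← map_mul, hc, map_one]
  rw [← one_smul (MvPolynomial ℕ R) x, ← h1, mul_smul, Nat.cast_smul_eq_nsmul, h, smul_zero]

theorem C_smul_mem (hR : IsZp p R) (D : Comod B M) (r : R) {j : ℤ} {x : M} (hx : x ∈ D.deg j) :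
    (C r : MvPolynomial ℕ R) • x ∈ D.deg j := by
  obtain ⟨a, b, hb, hab⟩ := hR.frac r
  obtain ⟨π, h1, h2, h3, h4⟩ := exists_proj _ D.internal
  have h5 : b • ((C r : MvPolynomial ℕ R) • x) = a • x := by
    rw [← Nat.cast_smul_eq_nsmul (MvPolynomial ℕ R), ← mul_smul, ← map_natCast C, ← map_mul, hab,
      map_intCast, Int.cast_smul_eq_zsmul]
  have h6 : b • (π j ((C r : MvPolynomial ℕ R) • x) - (C r : MvPolynomial ℕ R) • x) = 0 := by
    rw [smul_sub, ← map_nsmul, h5, h2 j _ (zsmul_mem hx a), sub_self]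
  have h7 := nat_smul_inj hR hb h6
  rw [sub_eq_zero] at h7
  rw [← h7]
  exact h1 _ _

theorem monomial_smul_mem (hB : B.v = gen (p : R)) (D : Comod B M) (e : ℕ →₀ ℕ) :
    ∀ (j : ℤ) (x : M), x ∈ D.deg j →
    (monomial e 1 : MvPolynomial ℕ R) • x ∈ D.deg (Finsupp.weight (wt p) e + j) := by
  induction e using Finsupp.induction_linear with
  | zero =>
    intro j x hx
    rw [map_zero, zero_add]
    change (1 : MvPolynomial ℕ R) • x ∈ _
    rwa [one_smul]
  | add e f he hf =>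
    intro j x hx
    have h1 : (monomial (e + f) 1 : MvPolynomial ℕ R) = monomial e 1 * monomial f 1 := by
      rw [monomial_mul, mul_one]
    rw [h1, mul_smul, map_add, add_assoc]
    exact he _ _ (hf _ _ hx)
  | single k m =>
    induction m with
    | zero =>
      intro j x hx
      rw [Finsupp.single_zero, map_zero, zero_add]
      change (1 : MvPolynomial ℕ R) • x ∈ _
      rwa [one_smul]
    | succ m ih =>
      intro j x hx
      have h1 : (monomial (Finsupp.single k (m + 1)) 1 : MvPolynomial ℕ R) =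
          monomial (Finsupp.single k m) 1 * X k := by
        rw [X, monomial_mul, mul_one, Finsupp.single_add]
      have h2 := D.smul_mem (k + 1) j x hx
      rw [hB, gen_succ] at h2
      have h3 := ih _ _ h2
      rw [h1, mul_smul]
      convert h3 using 2
      rw [Finsupp.single_add, map_add, Finsupp.weight_single, Finsupp.weight_single, one_smul, wt]
      ring

theorem smul_mem' (hR : IsZp p R) (hB : B.v = gen (p : R)) (D : Comod B M) (i j : ℤ)
    (a : MvPolynomial ℕ R) (x : M) (ha : a ∈ grP p R i) (hx : x ∈ D.deg j) :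
    a • x ∈ D.deg (i + j) := by
  rw [a.as_sum, Finset.sum_smul]
  refine sum_mem fun e he => ?_
  have h1 : (monomial e (coeff e a) : MvPolynomial ℕ R) = C (coeff e a) * monomial e 1 := by
    rw [C_mul_monomial, mul_one]
  rw [h1, mul_smul]
  have h2 : Finsupp.weight (wt p) e = i := ha (mem_support_iff.1 he)
  rw [← h2]
  exact C_smul_mem hR D _ (monomial_smul_mem hB D e j x hx)

variable [hp : Fact p.Prime]

theorem weight_eq_sum (e : ℕ →₀ ℕ) :
    (e.sum fun k m => (m : ℤ) * vdeg p (k + 1)) = Finsupp.weight (wt p) e := by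
  rw [Finsupp.weight_apply]
  refine Finsupp.sum_congr fun k _ => ?_
  rw [nsmul_eq_mul]
  rfl

/-- A generator in the bottom degree is primitive. -/
theorem primitive (D : Comod B M) {k : ℤ} {g : M} (hlow : ∀ j < k, ∀ x ∈ D.deg j, x = 0)
    (hg : g ∈ D.deg k) : D.ψ g = 1 ⊗ₜ g := by
  obtain ⟨n, e, y, h1, h2⟩ := D.mem k g hg
  have h3 := D.counit g n (fun i => monomial (e i) 1) y h1
  have hy : ∀ i, e i ≠ 0 → y i = 0 := by
    intro i hi
    have h4 := h2 i
    rw [weight_eq_sum] at h4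
    exact hlow _ (by have := weight_pos p hi; omega) _ h4
  have h5 : ∀ i, constantCoeff (monomial (e i) (1 : MvPolynomial ℕ R)) • y i = y i := by
    intro i
    by_cases hi : e i = 0
    · rw [hi]
      change constantCoeff (C 1) • y i = y i
      rw [constantCoeff_C, one_smul]
    · rw [hy i hi, smul_zero]
  simp only [h5] at h3
  have h6 : ∀ i, (monomial (e i) (1 : MvPolynomial ℕ R)) ⊗ₜ[MvPolynomial ℕ R] y i = 1 ⊗ₜ y i := by
    intro i
    by_cases hi : e i = 0
    · rw [hi]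
      rfl
    · rw [hy i hi, tmul_zero, tmul_zero]
  simp only [h6] at h1
  rw [h1, ← tmul_sum, h3]

end Vale.Agent.P257.S
end
end

section

section

/-!
From `BP`-homology on a stable homotopy category to the graded homology theory on finite
`p`-local objects.
-/

namespace Vale.Agent.P257.S

open MvPolynomial TensorProduct CategoryTheory Limits Pretriangulated Vale.Agent.P257.K

universe v' u

variable {p : ℕ} [hp : Fact p.Prime] {R : Type} [CommRing R]
  {B : BPBP p (MvPolynomial ℕ R)}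
  {T : Type u} [Category.{v'} T] [HasZeroObject T] [Preadditive T]
  [HasShift T ℤ] [∀ n : ℤ, (shiftFunctor T n).Additive] [Pretriangulated T] [IsTriangulated T]
  [HasCountableCoproducts T] {S : T} {h : T ⥤ ModuleCat.{0} (MvPolynomial ℕ R)}
  [hhom : h.IsHomological] [PreservesColimitsOfShape (Discrete ℕ) h]
  {C : ∀ X, Comod B (h.obj X)}

theorem span_eq (v : ℕ → MvPolynomial ℕ R) (n : ℕ) :
    Ideal.span {b | ∃ i < n, b = v i} = Jw v n := by
  unfold Jw
  congr 1
  ext b
  constructor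
  · rintro ⟨i, hi, rfl⟩
    exact ⟨i, hi, rfl⟩
  · rintro ⟨i, hi, rfl⟩
    exact ⟨i, hi, rfl⟩

theorem IsCyclic.jw {M : ModuleCat.{0} (MvPolynomial ℕ R)} {D : Comod B M} {n : ℕ} {k : ℤ} {g : M}
    (hg : IsCyclic D n k g) (a : MvPolynomial ℕ R) : a • g = 0 ↔ a ∈ Jw B.v n := by
  rw [hg.2.2.2, span_eq]

/-- A `p`-local sphere. -/
structure LocalSphere (p : ℕ) (S : T) (h : T ⥤ ModuleCat.{0} (MvPolynomial ℕ R)) where
  S1 : T
  s : S ⟶ S1
  connective : ∀ n : ℤ, 0 < n → ∀ f : S1 ⟶ S1⟦n⟧, f = 0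
  bij : Function.Bijective (h.map s).hom
  inv : ∀ m : ℕ, m.Coprime p → IsIso (m • 𝟙 S1)
  frac : ∀ f : S1 ⟶ S1, ∃ (b : ℕ) (a : ℤ), b.Coprime p ∧ b • f = a • 𝟙 S1
  fin : ∀ X, IsFinitePLocal p S X ↔ K.IsFinite S1 X

theorem exists_LocalSphere (hR : IsZp p R) (hh : IsBPHomology S h C) :
    Nonempty (LocalSphere p S h) := by
  obtain ⟨σ, -⟩ := hh.susp
  obtain ⟨S1, s, h1, h2, h3, h4, h5⟩ := exists_local_sphere (p := p) S h σ (fun m hm => by
      rw [← map_natCast MvPolynomial.C]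
      exact (hR.unit m hm).map MvPolynomial.C) hh.endSphere hh.connective hh.compact hh.detects
  exact ⟨⟨S1, s, h1, h2, h3, h4, h5⟩⟩

/-- The graded homology theory given by `BP`-homology. -/
noncomputable def mkGHom (hR : IsZp p R) (hB : B.v = gen (p : R)) (hh : IsBPHomology S h C)
    (L : LocalSphere p S h) : GHom (grP p R) T where
  neg := grP_neg p
  one := grP_one p
  sphere := L.S1
  connective n f hn := L.connective n hn f
  h := h
  hom := hhom
  deg X := (C X).deg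
  isInternal X := (C X).internal
  smul_mem X i j a x ha hx := smul_mem' hR hB (C X) i j a x ha hx
  map_mem f j x hx := by
    have := (hh.hom _ _ f).1 j x hx
    rwa [add_zero] at this
  σ := hh.susp.choose
  σ_mem X j x hx := (hh.susp.choose_spec X).1 j x hx
  gen := (h.map L.s).hom hh.sphere.choose
  gen_mem := by
    have := (hh.hom _ _ L.s).1 0 _ hh.sphere.choose_spec.1
    rwa [add_zero] at this
  gen_span y := by
    obtain ⟨x, rfl⟩ := L.bij.2 y
    obtain ⟨a, ha⟩ := hh.sphere.choose_spec.2.2.1 x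
    exact ⟨a, by rw [ha, map_smul]⟩
  gen_ann a := by
    rw [← map_smul, ← map_zero (h.map L.s).hom, L.bij.1.eq_iff, hh.sphere.choose_spec.jw, hB,
      Jw_zero, Ideal.mem_bot]
  end_inj f hf := by
    have hann : ∀ a : MvPolynomial ℕ R, a • (h.map L.s).hom hh.sphere.choose = 0 → a = 0 := by
      intro a ha
      rw [← map_smul, ← map_zero (h.map L.s).hom, L.bij.1.eq_iff, hh.sphere.choose_spec.jw, hB,
        Jw_zero, Ideal.mem_bot] at ha
      exact ha
    obtain ⟨b, a, hb, hab⟩ := L.frac f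
    have h1 : (a : MvPolynomial ℕ R) • (h.map L.s).hom hh.sphere.choose = 0 := by
      have h2 : (h.map (b • f)).hom ((h.map L.s).hom hh.sphere.choose) = 0 := by
        rw [Functor.map_nsmul]
        change b • (h.map f).hom ((h.map L.s).hom hh.sphere.choose) = 0
        rw [hf, smul_zero]
      rw [hab, Functor.map_zsmul, CategoryTheory.Functor.map_id] at h2
      rw [Int.cast_smul_eq_zsmul]
      exact h2
    have h2 := hann _ h1
    have h3 : a = 0 := by
      apply hR.tf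
      rw [← map_intCast (MvPolynomial.C : R →+* MvPolynomial ℕ R), C_eq_zero] at h2
      exact h2
    rw [h3, zero_smul] at hab
    have := L.inv b hb
    rw [← cancel_epi (b • 𝟙 L.S1), comp_zero, Preadditive.nsmul_comp, Category.id_comp, hab]
  end_surj a ha := by
    obtain ⟨r, rfl⟩ := grP_zero p a ha
    obtain ⟨m, b, hb, hmb⟩ := hR.frac r
    have := L.inv b hb
    refine ⟨m • CategoryTheory.inv (b • 𝟙 L.S1), ?_⟩
    rw [← sub_eq_zero]
    apply nat_smul_inj hR hb
    have h1 : b • (m • CategoryTheory.inv (b • 𝟙 L.S1)) = m • 𝟙 L.S1 := by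
      rw [smul_comm]
      congr 1
      rw [← cancel_epi (b • 𝟙 L.S1), Preadditive.comp_nsmul, IsIso.hom_inv_id, Category.comp_id]
    have h2 : b • (h.map (m • CategoryTheory.inv (b • 𝟙 L.S1))).hom
        ((h.map L.s).hom hh.sphere.choose) = m • (h.map L.s).hom hh.sphere.choose := by
      have h3 : (h.map (b • (m • CategoryTheory.inv (b • 𝟙 L.S1)))).hom
          ((h.map L.s).hom hh.sphere.choose) = m • (h.map L.s).hom hh.sphere.choose := by
        rw [h1, Functor.map_zsmul, CategoryTheory.Functor.map_id]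
        rfl
      rw [Functor.map_nsmul] at h3
      exact h3
    rw [smul_sub, h2, ← Nat.cast_smul_eq_nsmul (MvPolynomial ℕ R), ← mul_smul, ← map_natCast MvPolynomial.C,
      ← map_mul, hmb, map_intCast, Int.cast_smul_eq_zsmul, sub_self]

variable (hR : IsZp p R) (hB : B.v = gen (p : R)) (hh : IsBPHomology S h C)
    (L : LocalSphere p S h)

theorem cyc_iff {n : ℕ} {X : T} {k : ℤ} {g : h.obj X} :
    (mkGHom hR hB hh L).Cyc X k g (Jw B.v n) ↔ IsCyclic (C X) n k g := by
  constructor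
  · intro hg
    refine ⟨hg.mem, ?_, hg.span, fun a => ?_⟩
    · exact primitive (C X) (fun j hj x hx => (mkGHom hR hB hh L).gr_zero_of_gen hg hj hx) hg.mem
    · rw [span_eq]
      exact hg.ann a
  · intro hg
    exact ⟨hg.1, hg.2.2.1, hg.jw⟩

theorem exists_cyclic_iff {n : ℕ} {k : ℤ} {X : T} :
    (IsFinitePLocal p S X ∧ ∃ g, IsCyclic (C X) n k g) ↔
      K.IsFinite (mkGHom hR hB hh L).sphere X ∧ ∃ g, (mkGHom hR hB hh L).Cyc X k g (Jw B.v n) := by
  rw [L.fin X]
  refine and_congr Iff.rfl (exists_congr fun g => (cyc_iff hR hB hh L).symm)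

end Vale.Agent.P257.S
end
end

section

section

/-!
Existence and uniqueness of the structure maps of `BP_*BP`.
-/

namespace Vale.Agent.P257.S

open MvPolynomial

section General

variable {p : ℕ}

theorem map_gen {A A' : Type} [CommRing A] [CommRing A'] (f : A →+* A') (n : ℕ) :
    map f (gen 1 n) = gen 1 n := by
  cases n with
  | zero => rw [gen_zero, gen_zero, map_C, map_one]
  | succ n => rw [gen_succ, gen_succ, map_X]

/-- Transport of the structure along an isomorphism of rings. -/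
noncomputable def BPBP.transport {A A' : Type} [CommRing A] [CommRing A'] (e : A ≃+* A')
    (B : BPBP p A') : BPBP p A where
  v n := e.symm (B.v n)
  l n := e.symm (B.l n)
  η := (map (e.symm : A' →+* A)).comp (B.η.comp e)
  Δ := aeval fun i => map (e.symm : A' →+* A) (B.Δ (X i))
  log_zero := by rw [B.log_zero, map_one]
  log_succ n := by
    rw [B.log_succ, map_sum]
    refine Finset.sum_congr rfl fun i _ => ?_
    simp only [map_mul, map_pow, map_natCast]
  unit n := by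
    have h1 : ((map (e.symm : A' →+* A)).comp (B.η.comp (e : A →+* A'))) (e.symm (B.l n)) =
        map (e.symm : A' →+* A) (B.η (B.l n)) := by
      simp
    rw [h1, B.unit, map_sum]
    refine Finset.sum_congr rfl fun i _ => ?_
    rw [map_mul, map_pow, map_gen, map_C]
    simp only [RingHom.coe_coe, map_mul, map_pow, map_natCast]
  coproduct n := by
    have h1 : ∀ m, (aeval fun i => map (e.symm : A' →+* A) (B.Δ (X i))) (gen (1 : A) m) =
        map (e.symm : A' →+* A) (B.Δ (gen 1 m)) := by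
      intro m
      cases m with
      | zero => rw [gen_zero, gen_zero, C_1, C_1, map_one, map_one, map_one]
      | succ m => rw [gen_succ, gen_succ, aeval_X]
    simp only [h1]
    have h2 := congrArg (map (e.symm : A' →+* A)) (B.coproduct n)
    simp only [map_sum, map_mul, map_pow, map_C, map_rename, map_gen, RingHom.coe_coe,
      map_natCast] at h2
    simp only [map_mul, map_pow, map_natCast]
    exact h2

end General

section Integral

variable (p : ℕ) [hp : Fact p.Prime]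

/-- From `Z[v_i, x_s]` to `Z[v_i][x_s]`. -/
noncomputable def toTower (σ : Type) :
    MvPolynomial (ℕ ⊕ σ) (ZLoc p) →ₐ[ZLoc p] MvPolynomial σ (MvPolynomial ℕ (ZLoc p)) :=
  aeval (Sum.elim (fun i => C (X i)) X)

theorem toTower_inl (σ : Type) (a : BP p) : toTower p σ (rename Sum.inl a) = C a := by
  rw [toTower, aeval_rename]
  have h : (aeval ((Sum.elim (fun i => C (X i)) X : ℕ ⊕ σ → _) ∘ Sum.inl) :
      BP p →ₐ[ZLoc p] MvPolynomial σ (MvPolynomial ℕ (ZLoc p))) =
      IsScalarTower.toAlgHom (ZLoc p) (BP p) (MvPolynomial σ (BP p)) := by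
    apply MvPolynomial.algHom_ext
    intro i
    rw [aeval_X]
    rfl
  rw [h]
  rfl

theorem toQ_rename {σ τ : Type} (f : σ → τ) (a : MvPolynomial σ (ZLoc p)) :
    toQ p (rename f a) = rename f (toQ p a) := by
  rw [toQ, toQ, map_rename]

/-- `t_n` in `BP_*BP`. -/
noncomputable def tZ (n : ℕ) : MvPolynomial (ℕ ⊕ ℕ) (ZLoc p) :=
  if n = 0 then 1 else X (Sum.inr (n - 1))

/-- `t_n ⊗ 1`. -/
noncomputable def tZ1 (n : ℕ) : MvPolynomial (ℕ ⊕ (ℕ ⊕ ℕ)) (ZLoc p) :=
  if n = 0 then 1 else X (Sum.inr (Sum.inl (n - 1)))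

/-- `1 ⊗ t_n`. -/
noncomputable def tZ2 (n : ℕ) : MvPolynomial (ℕ ⊕ (ℕ ⊕ ℕ)) (ZLoc p) :=
  if n = 0 then 1 else X (Sum.inr (Sum.inr (n - 1)))

theorem toQ_tZ (n : ℕ) : toQ p (tZ p n) = tQ n := by
  cases n with
  | zero => exact map_one _
  | succ n => exact toQ_X p _

theorem toQ_tZ1 (n : ℕ) : toQ p (tZ1 p n) = tQ1 n := by
  cases n with
  | zero => exact map_one _
  | succ n => exact toQ_X p _

theorem toQ_tZ2 (n : ℕ) : toQ p (tZ2 p n) = tQ2 n := by
  cases n with
  | zero => exact map_one _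
  | succ n => exact toQ_X p _

theorem toTower_tZ (n : ℕ) : toTower p ℕ (tZ p n) = gen 1 n := by
  cases n with
  | zero => rw [gen_zero, C_1]; exact map_one _
  | succ n => rw [gen_succ]; exact aeval_X _ _

theorem toTower_tZ1 (n : ℕ) :
    toTower p (ℕ ⊕ ℕ) (tZ1 p n) = rename Sum.inl (gen (1 : BP p) n) := by
  cases n with
  | zero => rw [gen_zero, C_1, map_one]; exact map_one _
  | succ n => rw [gen_succ, rename_X]; exact aeval_X _ _

theorem toTower_tZ2 (n : ℕ) :
    toTower p (ℕ ⊕ ℕ) (tZ2 p n) = rename Sum.inr (gen (1 : BP p) n) := by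
  cases n with
  | zero => rw [gen_zero, C_1, map_one]; exact map_one _
  | succ n => rw [gen_succ, rename_X]; exact aeval_X _ _

theorem exists_BPBP_ZLoc : ∃ B : BPBP p (MvPolynomial ℕ (ZLoc p)), B.v = gen (p : ZLoc p) := by
  choose l hl using logc_int p
  obtain ⟨f, hf⟩ := exists_etaR' p
  obtain ⟨g, hg⟩ := exists_Delta' p
  have hQp : ∀ {σ : Type} (k : ℕ), toQ p ((p : MvPolynomial σ (ZLoc p)) ^ k) = C ((p : ℚ) ^ k) := by
    intro σ k
    rw [map_pow, map_natCast, C_pow, map_natCast]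
  have hsplit : ∀ {n i : ℕ}, i ≤ n → (p : ℚ) ^ n = (p : ℚ) ^ (n - i) * (p : ℚ) ^ i := by
    intro n i hi
    rw [← pow_add]
    congr 1
    omega
  refine ⟨{ v := gen (p : ZLoc p)
            l := l
            η := (toTower p ℕ).toRingHom.comp f.toRingHom
            Δ := aeval fun i => toTower p (ℕ ⊕ ℕ) (g (X (Sum.inr i)))
            log_zero := ?_
            log_succ := ?_
            unit := ?_
            coproduct := ?_ }, rfl⟩
  · apply toQ_injective p
    rw [hl, logc_zero, pow_zero, C_1, one_mul, map_one]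
  · intro n
    apply toQ_injective p
    rw [hl, pow_succ, C_mul, mul_assoc, logc_succ, Finset.mul_sum, map_sum]
    refine Finset.sum_congr rfl fun i hi => ?_
    have hi' : i ≤ n := Nat.lt_succ_iff.1 (Finset.mem_range.1 hi)
    have h1 : n + 1 - i = (n - i) + 1 := by omega
    rw [h1, gen_succ, map_mul, map_mul, hQp, hl, map_pow (toQ p), toQ_X, hsplit hi', C_mul]
    ring
  · intro n
    have h1 : f (l n) = ∑ i ∈ Finset.range (n + 1),
        rename Sum.inl ((p : BP p) ^ (n - i) * l i) * tZ p (n - i) ^ p ^ i := by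
      apply toQ_injective p
      rw [← rat_toQ, hl, map_mul, rat_C, hf n, etaRlog, Finset.mul_sum, map_sum]
      refine Finset.sum_congr rfl fun i hi => ?_
      have hi' : i ≤ n := Nat.lt_succ_iff.1 (Finset.mem_range.1 hi)
      rw [map_mul (toQ p), map_pow (toQ p), toQ_tZ, toQ_rename, map_mul (toQ p), hQp, hl,
        hsplit hi', C_mul, logL, map_mul, map_mul, rename_C, rename_C]
      ring
    change toTower p ℕ (f (l n)) = _
    rw [h1, map_sum]
    refine Finset.sum_congr rfl fun i _ => ?_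
    rw [map_mul, map_pow, toTower_tZ, toTower_inl]
  · intro n
    have h0 : ∀ m, (aeval fun i => toTower p (ℕ ⊕ ℕ) (g (X (Sum.inr i)))) (gen (1 : BP p) m) =
        toTower p (ℕ ⊕ ℕ) (g (tZ p m)) := by
      intro m
      cases m with
      | zero =>
        rw [gen_zero, C_1, map_one]
        exact ((congrArg (toTower p (ℕ ⊕ ℕ)) (map_one g)).trans (map_one _)).symm
      | succ m => rw [gen_succ, aeval_X]; rfl
    have h1 : ∑ i ∈ Finset.range (n + 1),
        rename Sum.inl ((p : BP p) ^ (n - i) * l i) * g (tZ p (n - i)) ^ p ^ i =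
        ∑ i ∈ Finset.range (n + 1), ∑ j ∈ Finset.range (n + 1 - i),
          rename Sum.inl ((p : BP p) ^ (n - i) * l i) * tZ1 p j ^ p ^ i *
            tZ2 p (n - i - j) ^ p ^ (i + j) := by
      apply toQ_injective p
      have h2 := congrArg (fun x => C ((p : ℚ) ^ n) * x) (hg.2 n)
      simp only [Finset.mul_sum] at h2
      rw [map_sum, map_sum]
      refine Eq.trans ?_ (h2.trans ?_)
      · refine Finset.sum_congr rfl fun i hi => ?_
        have hi' : i ≤ n := Nat.lt_succ_iff.1 (Finset.mem_range.1 hi)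
        rw [map_mul (toQ p), map_pow (toQ p), ← rat_toQ p g, toQ_tZ, toQ_rename, map_mul (toQ p), hQp,
          hl, hsplit hi', C_mul, logL2, map_mul, map_mul, rename_C, rename_C]
        ring
      · refine Finset.sum_congr rfl fun i hi => ?_
        have hi' : i ≤ n := Nat.lt_succ_iff.1 (Finset.mem_range.1 hi)
        rw [map_sum]
        refine Finset.sum_congr rfl fun j _ => ?_
        rw [map_mul (toQ p), map_mul (toQ p), map_pow (toQ p), map_pow (toQ p), toQ_tZ1, toQ_tZ2,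
          toQ_rename, map_mul (toQ p), hQp, hl, hsplit hi', C_mul, logL2, map_mul, map_mul,
          rename_C, rename_C]
        ring
    have h3 := congrArg (toTower p (ℕ ⊕ ℕ)) h1
    simp only [map_sum, map_mul (toTower p (ℕ ⊕ ℕ)), map_pow (toTower p (ℕ ⊕ ℕ)), toTower_tZ1,
      toTower_tZ2, toTower_inl] at h3
    simp only [h0]
    exact h3

end Integral

section Localization

set_option linter.unusedSectionVars false

variable (p : ℕ) [hp : Fact p.Prime]

theorem mem_primeCompl_iff' (a : ℤ) [(Ideal.span {(p : ℤ)}).IsPrime] :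
    a ∈ (Ideal.span {(p : ℤ)}).primeCompl ↔ ¬ (p : ℤ) ∣ a := by
  rw [Ideal.mem_primeCompl_iff, Ideal.mem_span_singleton]

theorem isLocalization_ZLoc [(Ideal.span {(p : ℤ)}).IsPrime] :
    IsLocalization.AtPrime (ZLoc p) (Ideal.span {(p : ℤ)}) where
  map_units := by
    rintro ⟨y, hy⟩
    rw [mem_primeCompl_iff'] at hy
    have h1 : ¬ p ∣ y.natAbs := fun h => hy (Int.natCast_dvd.2 h)
    have h2 := zloc_isUnit_natCast p h1
    change IsUnit ((y : ℤ) : ZLoc p)
    rcases Int.natAbs_eq y with h3 | h3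
    · rw [h3, Int.cast_natCast]
      exact h2
    · rw [h3, Int.cast_neg, Int.cast_natCast]
      exact h2.neg
  surj := by
    intro z
    refine ⟨((z : ℚ).num, ⟨((z : ℚ).den : ℤ), ?_⟩), ?_⟩
    · rw [mem_primeCompl_iff', Int.natCast_dvd_natCast]
      exact z.2
    · have h1 := zloc_mul_den p z
      simpa using h1
  exists_of_eq := by
    intro x y hxy
    refine ⟨1, ?_⟩
    have h1 : ((x : ZLoc p) : ℚ) = ((y : ZLoc p) : ℚ) := congrArg Subtype.val hxy
    have h2 : x = y := by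
      rw [Subring.coe_intCast, Subring.coe_intCast] at h1
      exact_mod_cast h1
    rw [h2]

variable (R : Type) [CommRing R] [(Ideal.span {(p : ℤ)}).IsPrime]
  [IsLocalization.AtPrime R (Ideal.span {(p : ℤ)})]

theorem exists_BPBP : ∃ B : BPBP p (MvPolynomial ℕ R), B.v = gen (p : R) := by
  have h := isLocalization_ZLoc p
  let e : R ≃+* ZLoc p := (IsLocalization.algEquiv (Ideal.span {(p : ℤ)}).primeCompl R (ZLoc p)).toRingEquiv
  obtain ⟨B, hB⟩ := exists_BPBP_ZLoc p
  refine ⟨B.transport (mapEquiv ℕ e), ?_⟩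
  funext n
  change (mapEquiv ℕ e).symm (B.v n) = gen (p : R) n
  rw [RingEquiv.symm_apply_eq, hB]
  cases n with
  | zero =>
    rw [gen_zero, gen_zero]
    change C _ = map _ (C _)
    rw [map_C]
    simp
  | succ n =>
    rw [gen_succ, gen_succ]
    change X n = map _ (X n)
    rw [map_X]

variable {R}

include hp in
theorem mul_left_cancel_prime {x y : R} (h : (p : R) * x = p * y) : x = y := by
  have h' := isLocalization_ZLoc p
  let e : R ≃+* ZLoc p :=
    (IsLocalization.algEquiv (Ideal.span {(p : ℤ)}).primeCompl R (ZLoc p)).toRingEquiv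
  apply e.injective
  have h1 := congrArg e h
  rw [map_mul, map_mul, map_natCast] at h1
  rw [← sub_eq_zero] at h1 ⊢
  rw [← mul_sub] at h1
  exact zloc_cancel_p p h1

/-- Multiplication by `p` is injective on polynomials. -/
theorem mul_left_cancel_poly {σ : Type} {A : Type} [CommRing A]
    (hA : ∀ x y : A, (p : A) * x = p * y → x = y) (x y : MvPolynomial σ A)
    (h : (p : MvPolynomial σ A) * x = p * y) : x = y := by
  apply MvPolynomial.ext
  intro m
  apply hA
  have h1 := congrArg (coeff m) h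
  rwa [← map_natCast (C : A →+* MvPolynomial σ A), coeff_C_mul, coeff_C_mul] at h1

theorem mul_left_cancel_pow {A : Type} [CommRing A]
    (hA : ∀ x y : A, (p : A) * x = p * y → x = y) (n : ℕ) (x y : A)
    (h : (p : A) ^ n * x = (p : A) ^ n * y) : x = y := by
  induction n with
  | zero => rwa [pow_zero, one_mul, one_mul] at h
  | succ n ih =>
    rw [pow_succ', mul_assoc, mul_assoc] at h
    exact ih (hA _ _ h)

theorem BPBP.l_eq {A : Type} [CommRing A] {B B' : BPBP p A} (hv : B.v = B'.v) : B.l = B'.l := by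
  funext n
  induction n using Nat.strong_induction_on with
  | _ n ih =>
    cases n with
    | zero => rw [B.log_zero, B'.log_zero]
    | succ n =>
      rw [B.log_succ, B'.log_succ, hv]
      refine Finset.sum_congr rfl fun i hi => ?_
      rw [ih i (Finset.mem_range.1 hi)]

theorem BPBP.Δ_eq {A : Type} [CommRing A] (hA : ∀ x y : A, (p : A) * x = p * y → x = y)
    {B B' : BPBP p A} (hv : B.v = B'.v) : B.Δ = B'.Δ := by
  have hl := BPBP.l_eq p hv
  have key : ∀ n, B.Δ (gen 1 n) = B'.Δ (gen 1 n) := by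
    intro n
    induction n using Nat.strong_induction_on with
    | _ n ih =>
      have h1 := B.coproduct n
      have h2 := B'.coproduct n
      rw [hl] at h1
      have h3 := h1.trans h2.symm
      rw [Finset.sum_range_succ', Finset.sum_range_succ'] at h3
      have h4 : ∀ i ∈ Finset.range n,
          C ((p : A) ^ (n - (i + 1)) * B'.l (i + 1)) * B.Δ (gen 1 (n - (i + 1))) ^ p ^ (i + 1) =
          C ((p : A) ^ (n - (i + 1)) * B'.l (i + 1)) * B'.Δ (gen 1 (n - (i + 1))) ^ p ^ (i + 1) := by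
        intro i hi
        rw [ih _ (by have := Finset.mem_range.1 hi; omega)]
      rw [Finset.sum_congr rfl h4] at h3
      have h5 := add_left_cancel h3
      rw [B'.log_zero, mul_one, pow_zero, pow_one, pow_one, Nat.sub_zero, C_pow, map_natCast] at h5
      exact mul_left_cancel_pow p (mul_left_cancel_poly p hA) n _ _ h5
  apply MvPolynomial.algHom_ext
  intro i
  exact key (i + 1)

theorem BPBP.η_eq {B B' : BPBP p (MvPolynomial ℕ R)} (hB : B.v = gen (p : R))
    (hB' : B'.v = gen (p : R)) : B.η = B'.η := by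
  have hA : ∀ x y : MvPolynomial ℕ R, (p : MvPolynomial ℕ R) * x = p * y → x = y :=
    mul_left_cancel_poly p fun x y => mul_left_cancel_prime p
  have hl := BPBP.l_eq p (hB.trans hB'.symm)
  have key : ∀ n, B.η (X n) = B'.η (X n) := by
    intro n
    induction n using Nat.strong_induction_on with
    | _ n ih =>
      have h1 := B.unit (n + 1)
      have h2 := B'.unit (n + 1)
      rw [hl] at h1
      have h3 := h1.trans h2.symm
      rw [B'.log_succ, map_sum, map_sum, Finset.sum_range_succ', Finset.sum_range_succ'] at h3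
      have h0 : ∀ i ≤ n, B.η (B'.l i) = B'.η (B'.l i) := by
        intro i _
        rw [← hl, B.unit, hl, B'.unit]
      have h4 : ∀ i ∈ Finset.range n,
          B.η ((p : MvPolynomial ℕ R) ^ (n - (i + 1)) * B'.l (i + 1) *
            B'.v (n + 1 - (i + 1)) ^ p ^ (i + 1)) =
          B'.η ((p : MvPolynomial ℕ R) ^ (n - (i + 1)) * B'.l (i + 1) *
            B'.v (n + 1 - (i + 1)) ^ p ^ (i + 1)) := by
        intro i hi
        have hi' := Finset.mem_range.1 hi
        have h5 : n + 1 - (i + 1) = (n - (i + 1)) + 1 := by omega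
        rw [hB', h5, gen_succ, map_mul, map_mul, map_pow, map_natCast, h0 _ (by omega), map_pow,
          ih _ (by omega), map_mul, map_mul, map_pow, map_natCast, map_pow]
      rw [Finset.sum_congr rfl h4] at h3
      have h5 := add_left_cancel h3
      rw [B'.log_zero, mul_one, pow_zero, pow_one, Nat.sub_zero, Nat.sub_zero, hB', gen_succ,
        map_mul, map_mul, map_pow, map_natCast, map_pow, map_natCast] at h5
      exact mul_left_cancel_pow p (mul_left_cancel_poly p hA) n _ _ h5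
  apply MvPolynomial.ringHom_ext'
  · apply IsLocalization.ringHom_ext (Ideal.span {(p : ℤ)}).primeCompl
    exact RingHom.ext_int _ _
  · exact key

variable (R) in
/-- The structure maps of `BP_*BP` exist and are unique. -/
theorem existsUnique_BPBP : ∃! B : BPBP p (MvPolynomial ℕ R), B.v = gen (p : R) := by
  obtain ⟨B, hB⟩ := exists_BPBP p R
  refine ⟨B, hB, fun B' hB' => ?_⟩
  have h1 := BPBP.l_eq p (hB'.trans hB.symm)
  have h2 := BPBP.η_eq p hB' hB
  have h3 := BPBP.Δ_eq p (mul_left_cancel_poly p fun x y => mul_left_cancel_prime p)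
    (hB'.trans hB.symm)
  have h4 := hB'.trans hB.symm
  cases B
  cases B'
  simp only at h1 h2 h3 h4
  subst h1 h2 h3 h4
  rfl

end Localization

end Vale.Agent.P257.S
end
end

section

section

/-!
Main theorems.
-/

namespace Vale.Agent.P257.S

open MvPolynomial TensorProduct CategoryTheory Limits Pretriangulated Vale.Agent.P257.K

universe v' u

variable {p : ℕ} [hp : Fact p.Prime] {R : Type} [CommRing R]
  {B : BPBP p (MvPolynomial ℕ R)}
  {T : Type u} [Category.{v'} T] [HasZeroObject T] [Preadditive T]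
  [HasShift T ℤ] [∀ n : ℤ, (shiftFunctor T n).Additive] [Pretriangulated T] [IsTriangulated T]
  [HasCountableCoproducts T] {S : T} {h : T ⥤ ModuleCat.{0} (MvPolynomial ℕ R)}
  [hhom : h.IsHomological] [PreservesColimitsOfShape (Discrete ℕ) h]
  {C : ∀ X, Comod B (h.obj X)}

variable (hR : IsZp p R) (hB : B.v = gen (p : R)) (hh : IsBPHomology S h C)

include hR hB hh

theorem good (N : ℕ) : GoodSeq (grP p R) B.v (vdeg p) N := by
  rw [hB]
  exact goodSeq p hR.reg N

/-- The structure theorem, first half. -/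
theorem exists_cofibre_of {m : ℕ} {X : T} {k : ℤ}
    (hX : IsFinitePLocal p S X ∧ ∃ g, IsCyclic (C X) (m + 1) k g) :
    ∃ (Y W : T) (f : W ⟶ Y) (g : Y ⟶ X) (l : X ⟶ W⟦(1 : ℤ)⟧) (y : h.obj Y) (u : h.obj W),
      Triangle.mk f g l ∈ distTriang T ∧ IsFinitePLocal p S Y ∧ IsFinitePLocal p S W ∧
        IsCyclic (C Y) m k y ∧ IsCyclic (C W) m (k + vdeg p m) u ∧
          (h.map f).hom u = B.v m • y := by
  obtain ⟨L⟩ := exists_LocalSphere hR hh
  rw [exists_cyclic_iff hR hB hh L] at hX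
  obtain ⟨hX, x, hx⟩ := hX
  obtain ⟨Y, W, f, g, l, y, u, h1, h2, h3, h4, h5, h6, -⟩ :=
    GHom.exists_cofibre (good hR hB hh (m + 1)) hX hx
  exact ⟨Y, W, f, g, l, y, u, h1, (L.fin Y).2 h2, (L.fin W).2 h3, (cyc_iff hR hB hh L).1 h4,
    (cyc_iff hR hB hh L).1 h5, h6⟩

/-- The structure theorem, second half. -/
theorem of_cofibre {m : ℕ} {Y W X : T} {k l : ℤ} {f : W ⟶ Y} {g : Y ⟶ X} {q : X ⟶ W⟦(1 : ℤ)⟧}
    {y : h.obj Y} {u : h.obj W} (hT : Triangle.mk f g q ∈ distTriang T)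
    (hY : IsFinitePLocal p S Y) (hW : IsFinitePLocal p S W) (hy : IsCyclic (C Y) m k y)
    (hu : IsCyclic (C W) m l u) (hf : (h.map f).hom u = B.v m • y) :
    IsFinitePLocal p S X ∧ ∃ g, IsCyclic (C X) (m + 1) k g := by
  obtain ⟨L⟩ := exists_LocalSphere hR hh
  rw [exists_cyclic_iff hR hB hh L]
  obtain ⟨h1, h2⟩ := GHom.cofibre (E := mkGHom hR hB hh L)
    ((good hR hB hh (m + 1)).reg m (Nat.lt_succ_self m)) ((L.fin Y).1 hY) ((L.fin W).1 hW)
    ((cyc_iff hR hB hh L).2 hy) ((cyc_iff hR hB hh L).2 hu) hf hT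
  exact ⟨h1, _, h2⟩

theorem closure {m k : ℕ} (hX : ∃ X, IsFinitePLocal p S X ∧ ∃ g, IsCyclic (C X) (m + k) 0 g) :
    ∃ X, IsFinitePLocal p S X ∧ ∃ g, IsCyclic (C X) m 0 g := by
  induction k with
  | zero => exact hX
  | succ k ih =>
    obtain ⟨X, hX⟩ := hX
    obtain ⟨Y, W, f, g, l, y, u, h1, h2, h3, h4, h5, h6⟩ := exists_cofibre_of hR hB hh
      (m := m + k) hX
    exact ih ⟨Y, h2, y, h4⟩

theorem structure_theorem :
    (∀ m n : ℕ, m ≤ n → (∃ X g, IsFinitePLocal p S X ∧ IsCyclic (C X) (n + 1) 0 g) →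
      ∃ X g, IsFinitePLocal p S X ∧ IsCyclic (C X) (m + 1) 0 g) ∧
    ∀ (n : ℕ) (X : T), (∃ g, IsFinitePLocal p S X ∧ IsCyclic (C X) (n + 1 + 1) 0 g) ↔
      ∃ (Y W : T) (f : W ⟶ Y) (k : Y ⟶ X) (l : X ⟶ W⟦(1 : ℤ)⟧) (y : h.obj Y) (w : h.obj W),
        (IsFinitePLocal p S Y ∧ IsCyclic (C Y) (n + 1) 0 y) ∧
        (IsFinitePLocal p S W ∧ IsCyclic (C W) (n + 1) (vdeg p (n + 1)) w) ∧
        (h.map f).hom w = B.v (n + 1) • y ∧ Triangle.mk f k l ∈ distTriang T := by
  refine ⟨fun m n hmn => ?_, fun n X => ⟨?_, ?_⟩⟩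
  · rintro ⟨X, g, h1, h2⟩
    obtain ⟨k, rfl⟩ := Nat.exists_eq_add_of_le hmn
    obtain ⟨X, h1, g, h2⟩ := closure hR hB hh (m := m + 1) (k := k) ⟨X, h1, g, by
      rwa [add_right_comm]⟩
    exact ⟨X, g, h1, h2⟩
  · rintro ⟨g, hX1, hX2⟩
    obtain ⟨Y, W, f, g, l, y, u, h1, h2, h3, h4, h5, h6⟩ := exists_cofibre_of hR hB hh
      ⟨hX1, g, hX2⟩
    rw [zero_add] at h5
    exact ⟨Y, W, f, g, l, y, u, ⟨h2, h4⟩, ⟨h3, h5⟩, h6, h1⟩
  · rintro ⟨Y, W, f, g, l, y, u, ⟨h2, h4⟩, ⟨h3, h5⟩, h6, h1⟩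
    obtain ⟨h7, x, h8⟩ := of_cofibre hR hB hh h1 h2 h3 h4 h5 h6
    exact ⟨x, h7, h8⟩

end Vale.Agent.P257.S
end
end

section

section

/-!
The range theorem.
-/

namespace Vale.Agent.P257.S

open MvPolynomial TensorProduct CategoryTheory Limits Pretriangulated Vale.Agent.P257.K

universe v' u

variable {p : ℕ} [hp : Fact p.Prime] {R : Type} [CommRing R]
  {B : BPBP p (MvPolynomial ℕ R)}
  {T : Type u} [Category.{v'} T] [HasZeroObject T] [Preadditive T]
  [HasShift T ℤ] [∀ n : ℤ, (shiftFunctor T n).Additive] [Pretriangulated T] [IsTriangulated T]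
  [HasCountableCoproducts T] {S : T} {h : T ⥤ ModuleCat.{0} (MvPolynomial ℕ R)}
  [hhom : h.IsHomological] [PreservesColimitsOfShape (Discrete ℕ) h]
  {C : ∀ X, Comod B (h.obj X)} {M : ModuleCat.{0} (MvPolynomial ℕ R)}

variable (hR : IsZp p R) (hB : B.v = gen (p : R)) (hh : IsBPHomology S h C)

include hR hB hh

theorem range_theorem (n : ℕ) (X : T) (x : h.obj X) (hX : IsFinitePLocal p S X)
    (hx : x ∈ (C X).deg 0) (hlow : ∀ j < 0, ∀ y ∈ (C X).deg j, y = 0)
    (hr : ∀ j < ∑ i ∈ Finset.range n, (vdeg p i + 1), (∀ y ∈ (C X).deg j,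
      ∃ a : MvPolynomial ℕ R, y = a • x) ∧
      ∀ a : MvPolynomial ℕ R, IsWeightedHomogeneous (fun i => vdeg p (i + 1)) a j →
        (a • x = 0 ↔ a ∈ Ideal.span {b | ∃ i < n, b = B.v i})) :
    ∃ (Y : T) (f : Y ⟶ X) (y : h.obj Y), IsFinitePLocal p S Y ∧ IsCyclic (C Y) n 0 y ∧
      (h.map f).hom y = x := by
  obtain ⟨L⟩ := exists_LocalSphere hR hh
  have hg := good hR hB hh n
  obtain ⟨Y, f, y, h1, h2, h3⟩ := (mkGHom hR hB hh L).realizes hg.homog hg.reg hg.grow n le_rfl
    X 0 x ((L.fin X).1 hX)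
    { mem := hx
      low := hlow
      span := fun j hj => (hr j (by rwa [zero_add] at hj)).1
      ann := fun j hj a ha => by
        rw [sub_zero] at ha
        rw [← span_eq]
        exact (hr j (by rwa [zero_add] at hj)).2 a ha }
  exact ⟨Y, f, y, (L.fin Y).2 h1, (cyc_iff hR hB hh L).1 h2, h3⟩

omit [HasZeroObject T] [Preadditive T] [HasShift T ℤ]
  [∀ n : ℤ, (shiftFunctor T n).Additive] [Pretriangulated T] [IsTriangulated T]
  [HasCountableCoproducts T] hhom [PreservesColimitsOfShape (Discrete ℕ) h] hh in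
theorem low_of_span (D : Comod B M) {x : M} (hx : x ∈ D.deg 0) {j : ℤ} (hj : j < 0)
    (a : MvPolynomial ℕ R) (h : a • x ∈ D.deg j) : a • x = 0 := by
  have h1 : a • x ∈ ⨆ (i : ℤ) (_ : i ≠ j), D.deg i := by
    rw [a.as_sum, Finset.sum_smul]
    refine sum_mem fun e he => ?_
    have h1 : (monomial e (coeff e a) : MvPolynomial ℕ R) = C (coeff e a) * monomial e 1 := by
      rw [C_mul_monomial, mul_one]
    rw [h1, mul_smul]
    have h2 := C_smul_mem hR D (coeff e a) (monomial_smul_mem hB D e 0 x hx)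
    have h3 : Finsupp.weight (wt p) e + 0 ≠ j := by
      have := weight_nonneg p e
      omega
    exact (le_iSup₂_of_le _ h3 le_rfl : D.deg _ ≤ ⨆ (i : ℤ) (_ : i ≠ j), D.deg i) h2
  have h2 := (D.internal.addSubgroup_iSupIndep j).le_bot ⟨h, h1⟩
  exact h2

omit hR in
theorem main_theorem [(Ideal.span {(p : ℤ)}).IsPrime]
    [IsLocalization.AtPrime R (Ideal.span {(p : ℤ)})] :
    (∃! B : BPBP p (MvPolynomial ℕ R), B.v = gen (p : R)) ∧
    let L : T → Prop := fun X => ∀ m : ℕ, m.Coprime p → IsIso (m • 𝟙 X)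
    let F : T → Prop := fun X => ∃ (A B : T) (ι : A ⟶ B) (i : X ⟶ B) (r : B ⟶ X),
      (∀ P : T → Prop, (∀ Y, IsZero Y → P Y) →
        (∀ D ∈ distTriang T, (∃ n : ℤ, Nonempty (D.obj₁ ≅ S⟦n⟧)) → P D.obj₂ → P D.obj₃) → P A) ∧
      L B ∧ (∀ Z, L Z → Function.Bijective fun g : B ⟶ Z => ι ≫ g) ∧ i ≫ r = 𝟙 X
    let V : ℕ → ℤ → (X : T) → h.obj X → Prop := fun n k X g => F X ∧ IsCyclic (C X) (n + 1) k g
    (∀ m n : ℕ, m ≤ n → (∃ X g, V n 0 X g) → ∃ X g, V m 0 X g) ∧
    (∀ (n : ℕ) (X : T), (∃ g, V (n + 1) 0 X g) ↔ ∃ D ∈ distTriang T, ∃ w y, D.obj₃ = X ∧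
      V n (vdeg p (n + 1)) D.obj₁ w ∧ V n 0 D.obj₂ y ∧
        (h.map D.mor₁).hom w = B.v (n + 1) • y) ∧
    ∀ (n : ℕ) (X : T) (x : h.obj X), F X → x ∈ (C X).deg 0 →
      (∀ j < ∑ i ∈ Finset.range (n + 1), (vdeg p i + 1),
        (∀ y ∈ (C X).deg j, ∃ a : MvPolynomial ℕ R, y = a • x) ∧
        ∀ a : MvPolynomial ℕ R, a.IsWeightedHomogeneous (fun i => vdeg p (i + 1)) j →
          (a • x = 0 ↔ a ∈ Ideal.span {b | ∃ i < n + 1, b = B.v i})) →
      ∃ (Y : T) (f : Y ⟶ X) (y : h.obj Y), V n 0 Y y ∧ (h.map f).hom y = x := by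
  have hR := isZp_of_isLocalization p R
  refine ⟨existsUnique_BPBP p R, (structure_theorem hR hB hh).1, fun n X => ⟨fun h1 => ?_, ?_⟩,
    fun n X x h1 h2 h4 => ?_⟩
  · obtain ⟨Y, W, f, k, l, y, w, h2, h3, h4, h5⟩ := ((structure_theorem hR hB hh).2 n X).1 h1
    exact ⟨_, h5, w, y, rfl, h3, h2, h4⟩
  · rintro ⟨D, hD, w, y, rfl, h3, h2, h4⟩
    exact ((structure_theorem hR hB hh).2 n D.obj₃).2
      ⟨D.obj₂, D.obj₁, D.mor₁, D.mor₂, D.mor₃, y, w, h2, h3, h4, hD⟩
  obtain ⟨Y, f, y, h5, h6, h7⟩ := range_theorem hR hB hh (n + 1) X x h1 h2 (fun j hj y hy => by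
    have h5 : (0 : ℤ) ≤ ∑ i ∈ Finset.range (n + 1), (vdeg p i + 1) :=
      Finset.sum_nonneg fun i _ => by have := vdeg_nonneg p i; omega
    obtain ⟨a, rfl⟩ := (h4 j (by omega)).1 y hy
    exact low_of_span hR hB (C X) h2 hj a hy) h4
  exact ⟨Y, f, y, ⟨h5, h6⟩, h7⟩

end Vale.Agent.P257.S
end
end
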